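import Mathlib

/-!
The lower bound in Crouzeix's problem: a rank one nilpotent operator on a two dimensional space
has numerical radius `1 / 2` and norm `1`, in every universe.
-/

open scoped InnerProductSpace

namespace Vale.Agent.Lib.P123C.Lower

universe u

/-- The rank one operator `x ↦ ⟪e₁, x⟫ e₀`. -/
noncomputable def rankOne {H : Type*} [NormedAddCommGroup H] [InnerProductSpace ℂ H] (e₀ e₁ : H) :
    H →L[ℂ] H :=
  (innerSL ℂ e₁).smulRight e₀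

theorem rankOne_apply {H : Type*} [NormedAddCommGroup H] [InnerProductSpace ℂ H] (e₀ e₁ x : H) :
    rankOne e₀ e₁ x = ⟪e₁, x⟫_ℂ • e₀ := rfl

/-- The numerical radius of `rankOne` is at most `1 / 2`. -/
theorem rankOne_numrange {H : Type*} [NormedAddCommGroup H] [InnerProductSpace ℂ H] (e₀ e₁ : H)
    (h₀ : ‖e₀‖ = 1) (h₁ : ‖e₁‖ = 1) (h01 : ⟪e₀, e₁⟫_ℂ = 0) (x : H) (hx : ‖x‖ = 1) :
    ‖⟪x, rankOne e₀ e₁ x⟫_ℂ‖ ≤ 1 / 2 := by
  have hon : Orthonormal ℂ (fun i : Fin 2 => if i = 0 then e₀ else e₁) := by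
    rw [orthonormal_iff_ite]
    intro i j
    fin_cases i <;> fin_cases j <;> simp [h01, inner_self_eq_norm_sq_to_K, h₀, h₁]
    rw [← inner_conj_symm, h01, map_zero]
  have hb := hon.sum_inner_products_le (x := x) (s := Finset.univ)
  rw [Fin.sum_univ_two, hx] at hb
  simp only [Fin.isValue, if_true, one_ne_zero, if_false] at hb
  rw [rankOne_apply, inner_smul_right, norm_mul]
  have h2 : ‖⟪x, e₀⟫_ℂ‖ = ‖⟪e₀, x⟫_ℂ‖ := norm_inner_symm _ _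
  rw [h2]
  nlinarith [sq_nonneg (‖⟪e₁, x⟫_ℂ‖ - ‖⟪e₀, x⟫_ℂ‖)]

/-- The norm of `rankOne` is at least `1`. -/
theorem one_le_norm_rankOne {H : Type*} [NormedAddCommGroup H] [InnerProductSpace ℂ H] (e₀ e₁ : H)
    (h₀ : ‖e₀‖ = 1) (h₁ : ‖e₁‖ = 1) : 1 ≤ ‖rankOne e₀ e₁‖ := by
  have h := (rankOne e₀ e₁).le_opNorm e₁
  rw [rankOne_apply, inner_self_eq_norm_sq_to_K, h₁, norm_smul, h₀] at h
  simpa using h

/-- The witness space: two dimensional, in every universe. -/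
abbrev W2 : Type u := EuclideanSpace ℂ (ULift.{u} (Fin 2))

/-- Any admissible constant in the inequality is at least two. -/
theorem two_le_of_bound (C : ℝ)
    (hC : ∀ (H : Type u) [NormedAddCommGroup H] [InnerProductSpace ℂ H] [CompleteSpace H]
      (A : H →L[ℂ] H) (P : Polynomial ℂ) (M : ℝ), 0 ≤ M →
      (∀ x : H, ‖x‖ = 1 → ‖P.eval ⟪x, A x⟫_ℂ‖ ≤ M) → ‖Polynomial.aeval A P‖ ≤ C * M) : 2 ≤ C := by
  let i₀ : ULift.{u} (Fin 2) := ⟨0⟩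
  let i₁ : ULift.{u} (Fin 2) := ⟨1⟩
  have hne : i₀ ≠ i₁ := by
    intro h
    have := congrArg ULift.down h
    simp [i₀, i₁] at this
  let e₀ : W2.{u} := EuclideanSpace.single i₀ (1 : ℂ)
  let e₁ : W2.{u} := EuclideanSpace.single i₁ (1 : ℂ)
  have h₀ : ‖e₀‖ = 1 := by simp [e₀]
  have h₁ : ‖e₁‖ = 1 := by simp [e₁]
  have h01 : ⟪e₀, e₁⟫_ℂ = 0 := by
    simp [e₀, e₁, EuclideanSpace.inner_single_left, hne]
  have hb := hC W2.{u} (rankOne e₀ e₁) Polynomial.X (1 / 2) (by norm_num) (fun x hx => by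
    simpa using rankOne_numrange e₀ e₁ h₀ h₁ h01 x hx)
  have h1 := one_le_norm_rankOne e₀ e₁ h₀ h₁
  simp only [Polynomial.aeval_X] at hb
  linarith

section Sup

variable {H : Type*} [NormedAddCommGroup H] [InnerProductSpace ℂ H]

/-- The values of a polynomial on the numerical range are bounded. -/
theorem bddAbove_values (A : H →L[ℂ] H) (P : Polynomial ℂ) :
    BddAbove (Set.range fun x : {x : H // ‖x‖ = 1} => ‖P.eval ⟪x.1, A x.1⟫_ℂ‖) := by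
  obtain ⟨K, hK⟩ := (isCompact_closedBall (0 : ℂ) ‖A‖).exists_bound_of_continuousOn
    (f := fun z => P.eval z) P.continuous.continuousOn
  refine ⟨K, ?_⟩
  rintro _ ⟨⟨x, hx⟩, rfl⟩
  refine hK _ ?_
  rw [mem_closedBall_zero_iff]
  calc ‖⟪x, A x⟫_ℂ‖ ≤ ‖x‖ * ‖A x‖ := norm_inner_le_norm _ _
    _ ≤ ‖x‖ * (‖A‖ * ‖x‖) := by gcongr; exact A.le_opNorm x
    _ = ‖A‖ := by rw [hx]; ring

/-- The supremum over the numerical range is an admissible bound. -/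
theorem value_le_iSup (A : H →L[ℂ] H) (P : Polynomial ℂ) (x : H) (hx : ‖x‖ = 1) :
    ‖P.eval ⟪x, A x⟫_ℂ‖ ≤ ⨆ x : {x : H // ‖x‖ = 1}, ‖P.eval ⟪x.1, A x.1⟫_ℂ‖ :=
  le_ciSup (bddAbove_values A P) (⟨x, hx⟩ : {x : H // ‖x‖ = 1})

theorem iSup_values_nonneg (A : H →L[ℂ] H) (P : Polynomial ℂ) :
    0 ≤ ⨆ x : {x : H // ‖x‖ = 1}, ‖P.eval ⟪x.1, A x.1⟫_ℂ‖ :=
  Real.iSup_nonneg fun _ => norm_nonneg _

end Sup

/-- The lower bound for the inequality written with the supremum over the numerical range. -/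
theorem two_le_of_sup_bound (C : ℝ)
    (hC : ∀ (H : Type u) [NormedAddCommGroup H] [InnerProductSpace ℂ H] [CompleteSpace H]
      [Nontrivial H] (A : H →L[ℂ] H) (P : Polynomial ℂ),
      ‖Polynomial.aeval A P‖ ≤ C * ⨆ x : {x : H // ‖x‖ = 1}, ‖P.eval ⟪x.1, A x.1⟫_ℂ‖) : 2 ≤ C := by
  let i₀ : ULift.{u} (Fin 2) := ⟨0⟩
  let i₁ : ULift.{u} (Fin 2) := ⟨1⟩
  have hne : i₀ ≠ i₁ := by
    intro h
    have := congrArg ULift.down h
    simp [i₀, i₁] at this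
  let e₀ : W2.{u} := EuclideanSpace.single i₀ (1 : ℂ)
  let e₁ : W2.{u} := EuclideanSpace.single i₁ (1 : ℂ)
  have h₀ : ‖e₀‖ = 1 := by simp [e₀]
  have h₁ : ‖e₁‖ = 1 := by simp [e₁]
  have h01 : ⟪e₀, e₁⟫_ℂ = 0 := by
    simp [e₀, e₁, EuclideanSpace.inner_single_left, hne]
  haveI : Nontrivial W2.{u} := ⟨⟨e₀, 0, fun h => by rw [h] at h₀; simp at h₀⟩⟩
  haveI : Nonempty {x : W2.{u} // ‖x‖ = 1} := ⟨⟨e₀, h₀⟩⟩
  have hb := hC W2.{u} (rankOne e₀ e₁) Polynomial.X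
  have h1 := one_le_norm_rankOne e₀ e₁ h₀ h₁
  simp only [Polynomial.aeval_X, Polynomial.eval_X] at hb
  set S := ⨆ x : {x : W2.{u} // ‖x‖ = 1}, ‖⟪x.1, (rankOne e₀ e₁) x.1⟫_ℂ‖ with hS
  have hS1 : S ≤ 1 / 2 := ciSup_le fun x => rankOne_numrange e₀ e₁ h₀ h₁ h01 x.1 x.2
  have hS0 : 0 ≤ S := Real.iSup_nonneg fun _ => norm_nonneg _
  have hC0 : 0 < C := by
    by_contra hcon
    push Not at hcon
    nlinarith
  nlinarith

end Vale.Agent.Lib.P123C.Lower
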