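import Vale.Agent.Lib.P123C.ReduceFinal
import Vale.Agent.Lib.P123C.Lower

/-!
Final form of Crouzeix's theorem from the curve level statement `CurveThm`.
-/

open scoped InnerProductSpace

namespace Vale.Agent.Lib.P123C.Wrap

universe u

/-- `C` is admissible in Crouzeix's inequality on the complex Hilbert spaces of universe `u`:
`‖P(A)‖ ≤ C sup_{z ∈ W(A)} |P(z)|` for every nonzero complex Hilbert space `H`, every bounded operator
`A` and every polynomial `P`. The point `⟨A x, x⟩` of the numerical range is `⟪x, A x⟫_ℂ` since the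
inner product of Mathlib is conjugate linear in its first slot; the supremum runs over unit vectors. -/
def Admissible (C : ℝ) : Prop :=
  ∀ (H : Type u) [NormedAddCommGroup H] [InnerProductSpace ℂ H] [CompleteSpace H] [Nontrivial H]
    (A : H →L[ℂ] H) (P : Polynomial ℂ),
    ‖Polynomial.aeval A P‖ ≤ C * ⨆ x : {x : H // ‖x‖ = 1}, ‖P.eval ⟪x.1, A x.1⟫_ℂ‖

/-- Crouzeix's inequality with the bound `M` in place of the supremum. -/
def BoundForm : Prop :=
  ∀ (H : Type u) [NormedAddCommGroup H] [InnerProductSpace ℂ H] [CompleteSpace H]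
    (A : H →L[ℂ] H) (P : Polynomial ℂ) (M : ℝ), 0 ≤ M →
    (∀ x : H, ‖x‖ = 1 → ‖P.eval ⟪x, A x⟫_ℂ‖ ≤ M) → ‖Polynomial.aeval A P‖ ≤ 2 * M

theorem admissible_two_of_bound (h : BoundForm.{u}) : Admissible.{u} 2 := by
  intro H _ _ _ _ A P
  exact h H A P _ (Lower.iSup_values_nonneg A P) (fun x hx => Lower.value_le_iSup A P x hx)

theorem isLeast_two_of_bound (h : BoundForm.{u}) : IsLeast {C : ℝ | Admissible.{u} C} 2 :=
  ⟨admissible_two_of_bound h, fun C hC => Lower.two_le_of_sup_bound C (fun H _ _ _ _ A P => hC H A P)⟩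

/-- The final statement from the curve level statement. -/
theorem final_of_curve (hc : ReduceFinal.CurveThm.{u}) :
    IsLeast {C : ℝ | Admissible.{u} C} 2 ∧ BoundForm.{u} := by
  have hb : BoundForm.{u} := fun H _ _ _ A P M hM hp =>
    ReduceFinal.crouzeix_of_curve hc H A P M hM hp
  exact ⟨isLeast_two_of_bound hb, hb⟩

end Vale.Agent.Lib.P123C.Wrap
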