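import Vale.Agent.Lib.P123.Pg21

open MeasureTheory Set Filter Topology Complex ComplexConjugate
open scoped ContDiff Convolution InnerProductSpace

namespace Vale.Agent.Lib.P123C.ReduceFinal

open Vale.Agent.Lib.P123

universe u

theorem second_order_nonneg {g : ℝ → ℝ} (hmin : ∀ᶠ x in 𝓝 (0 : ℝ), 0 ≤ g x) (h0 : g 0 = 0)
    (h1 : deriv g 0 = 0) (hc : ContinuousAt g 0) : 0 ≤ deriv (deriv g) 0 := by
  by_contra hneg
  push Not at hneg
  have hmax := isLocalMax_of_deriv_deriv_neg hneg h1 hc
  have hzero : g =ᶠ[𝓝 0] fun _ => 0 := by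
    filter_upwards [hmin, hmax] with x h2 h3
    have : g x ≤ g 0 := h3
    linarith
  have h2 : deriv g =ᶠ[𝓝 0] fun _ => 0 := by
    have := hzero.deriv
    simpa using this
  have h3 := h2.deriv_eq
  simp at h3
  linarith

/-- Smoothing a trigonometrically convex Lipschitz periodic function. -/
theorem smooth_support (u : ℝ → ℝ) (L : ℝ) (hL0 : 0 ≤ L) (hL : ∀ a b, |u a - u b| ≤ L * |a - b|)
    (hp : Function.Periodic u (2 * Real.pi))
    (hconv : ∀ t D, 0 < Real.cos D → 2 * u t * Real.cos D ≤ u (t + D) + u (t - D))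
    {η : ℝ} (hη : 0 < η) :
    ∃ s : ℝ → ℝ, ContDiff ℝ ∞ s ∧ Function.Periodic s (2 * Real.pi) ∧
      (∀ t, η ≤ s t + deriv (deriv s) t) ∧ (∀ t, u t + η / 2 ≤ s t) ∧ (∀ t, s t ≤ u t + 2 * η) := by
  have huc : Continuous u := by
    have : LipschitzWith (Real.toNNReal L) u := by
      apply LipschitzWith.of_dist_le_mul
      intro a b
      rw [Real.dist_eq, Real.dist_eq, Real.coe_toNNReal _ hL0]
      exact hL a b
    exact this.continuous
  set δ : ℝ := η / (2 * (L + 1)) with hδ
  have hδ0 : 0 < δ := by positivity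
  have hLδ : L * δ ≤ η / 2 := by
    rw [hδ]
    have h1 : L * (η / (2 * (L + 1))) = (η / 2) * (L / (L + 1)) := by
      field_simp
    rw [h1]
    have h2 : L / (L + 1) ≤ 1 := by
      rw [div_le_one (by positivity)]
      linarith
    nlinarith
  let φ : ContDiffBump (0 : ℝ) := ⟨δ / 2, δ, half_pos hδ0, half_lt_self hδ0⟩
  set ψ : ℝ → ℝ := φ.normed volume with hψ
  have hψc : Continuous ψ := φ.continuous_normed
  have hψs : HasCompactSupport ψ := φ.hasCompactSupport_normed
  have hψ0 : ∀ y, 0 ≤ ψ y := φ.nonneg_normed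
  set v : ℝ → ℝ := ψ ⋆[ContinuousLinearMap.lsmul ℝ ℝ, volume] u with hv
  have hvf : ∀ t, v t = ∫ y, ψ y * u (t - y) := by
    intro t
    rfl
  have hint : ∀ (w : ℝ → ℝ), Continuous w → Integrable (fun y => ψ y * w y) := by
    intro w hw
    exact (hψc.mul hw).integrable_of_hasCompactSupport (hψs.mul_right)
  have hint2 : ∀ t : ℝ, Integrable (fun y => ψ y * u (t - y)) := fun t =>
    hint _ (huc.comp (continuous_const.sub continuous_id))
  have hvC : ContDiff ℝ ∞ v := by
    have := hψs.contDiff_convolution_left (n := (⊤ : ℕ∞)) (ContinuousLinearMap.lsmul ℝ ℝ)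
      (μ := volume) (g := u) φ.contDiff_normed huc.locallyIntegrable
    exact this
  have hvper : Function.Periodic v (2 * Real.pi) := by
    intro t
    rw [hvf, hvf]
    congr 1
    ext y
    have : t + 2 * Real.pi - y = (t - y) + 2 * Real.pi := by ring
    rw [this, hp]
  have hclose : ∀ t, |v t - u t| ≤ η / 2 := by
    intro t
    have h := φ.dist_normed_convolution_le (μ := volume) (g := u) (x₀ := t) (ε := L * δ)
      huc.aestronglyMeasurable (by
        intro x hx
        rw [Real.dist_eq]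
        refine (hL x t).trans ?_
        have hx' : |x - t| < δ := by
          have := Metric.mem_ball.1 hx
          rw [Real.dist_eq] at this
          exact this
        exact mul_le_mul_of_nonneg_left hx'.le hL0)
    rw [Real.dist_eq] at h
    exact h.trans hLδ
  have hvconv : ∀ t D, 0 < Real.cos D → 2 * v t * Real.cos D ≤ v (t + D) + v (t - D) := by
    intro t D hD
    have e : v (t + D) + v (t - D) - 2 * v t * Real.cos D =
        ∫ y, ψ y * (u ((t - y) + D) + u ((t - y) - D) - 2 * u (t - y) * Real.cos D) := by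
      rw [hvf, hvf, hvf]
      have i1 : Integrable (fun y => ψ y * u (t + D - y)) := hint2 _
      have i2 : Integrable (fun y => ψ y * u (t - D - y)) := hint2 _
      have i3 : Integrable (fun y => ψ y * u (t - y)) := hint2 _
      have e3 : 2 * (∫ y, ψ y * u (t - y)) * Real.cos D =
          ∫ y, (2 * Real.cos D) * (ψ y * u (t - y)) := by
        rw [integral_const_mul]
        ring
      have i4 : Integrable (fun y => ψ y * u (t + D - y) + ψ y * u (t - D - y)) := i1.add i2
      rw [← integral_add i1 i2, e3, ← integral_sub i4 ((i3.const_mul _))]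
      congr 1
      ext y
      have e1 : t + D - y = t - y + D := by ring
      have e2 : t - D - y = t - y - D := by ring
      rw [e1, e2]
      ring
    have h0 : 0 ≤ ∫ y, ψ y * (u ((t - y) + D) + u ((t - y) - D) - 2 * u (t - y) * Real.cos D) := by
      apply integral_nonneg
      intro y
      apply mul_nonneg (hψ0 y)
      have := hconv (t - y) D hD
      linarith
    linarith
  have hv1 : ∀ x, HasDerivAt v (deriv v x) x := fun x =>
    (hvC.differentiable (by simp) x).hasDerivAt
  have hdC : ContDiff ℝ ∞ (deriv v) := by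
    have := (contDiff_infty_iff_deriv.1 hvC).2
    exact this
  have hv2 : ∀ x, HasDerivAt (deriv v) (deriv (deriv v) x) x := fun x =>
    (hdC.differentiable (by simp) x).hasDerivAt
  have hkey : ∀ t, 0 ≤ v t + deriv (deriv v) t := by
    intro t
    set g : ℝ → ℝ := fun D => v (t + D) + v (t - D) - 2 * v t * Real.cos D with hg
    have hg1 : ∀ D, HasDerivAt g (deriv v (t + D) - deriv v (t - D) + 2 * v t * Real.sin D) D := by
      intro D
      have h1 : HasDerivAt (fun D => v (t + D)) (deriv v (t + D)) D := by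
        simpa using (hv1 (t + D)).comp_const_add t D
      have h2 : HasDerivAt (fun D => v (t - D)) (-deriv v (t - D)) D := by
        simpa using (hv1 (t - D)).comp_const_sub t D
      have h3 : HasDerivAt (fun D => 2 * v t * Real.cos D) (2 * v t * (-Real.sin D)) D :=
        (Real.hasDerivAt_cos D).const_mul _
      refine ((h1.fun_add h2).fun_sub h3).congr_deriv ?_
      ring
    have hg1' : deriv g = fun D => deriv v (t + D) - deriv v (t - D) + 2 * v t * Real.sin D :=
      funext fun D => (hg1 D).deriv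
    have hg2 : HasDerivAt (deriv g) (deriv (deriv v) t + deriv (deriv v) t + 2 * v t) 0 := by
      rw [hg1']
      have h1 : HasDerivAt (fun D => deriv v (t + D)) (deriv (deriv v) (t + 0)) 0 := by
        simpa using (hv2 (t + 0)).comp_const_add t 0
      have h2 : HasDerivAt (fun D => deriv v (t - D)) (-deriv (deriv v) (t - 0)) 0 := by
        simpa using (hv2 (t - 0)).comp_const_sub t 0
      have h3 : HasDerivAt (fun D => 2 * v t * Real.sin D) (2 * v t * Real.cos 0) 0 :=
        (Real.hasDerivAt_sin 0).const_mul _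
      refine ((h1.fun_sub h2).fun_add h3).congr_deriv ?_
      simp
    have hmin : ∀ᶠ x in 𝓝 (0 : ℝ), 0 ≤ g x := by
      have hcos : ∀ᶠ x in 𝓝 (0 : ℝ), 0 < Real.cos x := by
        have : ContinuousAt Real.cos 0 := Real.continuous_cos.continuousAt
        exact this.eventually (lt_mem_nhds (by simp))
      filter_upwards [hcos] with x hx
      have := hvconv t x hx
      simp only [hg]
      linarith
    have h0 : g 0 = 0 := by
      simp [hg]
      ring
    have h1 : deriv g 0 = 0 := by
      rw [hg1']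
      simp
    have h2 := second_order_nonneg hmin h0 h1 (hg1 0).continuousAt
    rw [hg2.deriv] at h2
    linarith
  refine ⟨fun t => v t + η, hvC.add contDiff_const, ?_, ?_, ?_, ?_⟩
  · intro t
    simp only [hvper t]
  · intro t
    have e : deriv (fun t => v t + η) = deriv v := by
      funext x
      exact (hv1 x).add_const η |>.deriv
    rw [e]
    have := hkey t
    linarith
  · intro t
    have := abs_le.1 (hclose t)
    linarith [this.1]
  · intro t
    have := abs_le.1 (hclose t)
    linarith [this.2]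

/-! ### The numerical range -/

/-- pairing of a point with the direction of angle `t` -/
noncomputable def dot (t : ℝ) (z : ℂ) : ℝ := z.re * Real.cos t + z.im * Real.sin t

theorem dot_add (t : ℝ) (z w : ℂ) : dot t (z + w) = dot t z + dot t w := by
  simp [dot]; ring

theorem dot_sub (t : ℝ) (z w : ℂ) : dot t (z - w) = dot t z - dot t w := by
  simp [dot]; ring

variable {H : Type*} [NormedAddCommGroup H] [InnerProductSpace ℂ H]

theorem supp_lip (A : H →L[ℂ] H) {x₀ : H} (hx₀ : ‖x₀‖ = 1) (a b : ℝ) :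
    |supp A a - supp A b| ≤ (2 * ‖A‖) * |a - b| := by
  have hne : (Wset A).Nonempty := ⟨_, x₀, hx₀, rfl⟩
  have hc : ∀ a b, |Real.cos a - Real.cos b| ≤ |a - b| := fun a b => by
    have := Real.lipschitzWith_cos.dist_le_mul a b
    simpa [Real.dist_eq] using this
  have hs : ∀ a b, |Real.sin a - Real.sin b| ≤ |a - b| := fun a b => by
    have := Real.lipschitzWith_sin.dist_le_mul a b
    simpa [Real.dist_eq] using this
  have key : ∀ a b, supp A a ≤ supp A b + (2 * ‖A‖) * |a - b| := by
    intro a b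
    apply supp_le A a hne
    intro w hw
    have h1 := le_supp A b hw
    have h2 : |w.re| ≤ ‖A‖ := (Complex.abs_re_le_norm w).trans (Wset_norm A hw)
    have h3 : |w.im| ≤ ‖A‖ := (Complex.abs_im_le_norm w).trans (Wset_norm A hw)
    have h4 : w.re * (Real.cos a - Real.cos b) ≤ ‖A‖ * |a - b| := by
      calc w.re * (Real.cos a - Real.cos b) ≤ |w.re * (Real.cos a - Real.cos b)| := le_abs_self _
        _ = |w.re| * |Real.cos a - Real.cos b| := abs_mul _ _
        _ ≤ ‖A‖ * |a - b| := mul_le_mul h2 (hc a b) (abs_nonneg _) (norm_nonneg _)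
    have h5 : w.im * (Real.sin a - Real.sin b) ≤ ‖A‖ * |a - b| := by
      calc w.im * (Real.sin a - Real.sin b) ≤ |w.im * (Real.sin a - Real.sin b)| := le_abs_self _
        _ = |w.im| * |Real.sin a - Real.sin b| := abs_mul _ _
        _ ≤ ‖A‖ * |a - b| := mul_le_mul h3 (hs a b) (abs_nonneg _) (norm_nonneg _)
    nlinarith
  rw [abs_le]
  constructor
  · have := key b a
    rw [abs_sub_comm] at this
    linarith
  · have := key a b
    linarith

/-- A point which satisfies all the support inequalities up to `ε` is `ε` close to the closed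
numerical range. -/
theorem close_of_support (A : H →L[ℂ] H) {x₀ : H} (hx₀ : ‖x₀‖ = 1) {ε : ℝ} (hε : 0 ≤ ε) {z : ℂ}
    (hz : ∀ t, dot t z ≤ supp A t + ε) : ∃ w ∈ closure (Wset A), ‖z - w‖ ≤ ε := by
  have hne : (Wset A).Nonempty := ⟨_, x₀, hx₀, rfl⟩
  set K := closure (Wset A) with hK
  have hKne : K.Nonempty := hne.closure
  have hKbd : ∀ w ∈ K, ‖w‖ ≤ ‖A‖ := by
    intro w hw
    have hc : IsClosed {w : ℂ | ‖w‖ ≤ ‖A‖} := isClosed_le continuous_norm continuous_const
    exact closure_minimal (fun w hw => Wset_norm A hw) hc hw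
  have hKcomp : IsCompact K := by
    apply Metric.isCompact_of_isClosed_isBounded isClosed_closure
    rw [isBounded_iff_forall_norm_le]
    exact ⟨‖A‖, hKbd⟩
  have hKconv : Convex ℝ K := (toeplitz_hausdorff A).closure
  obtain ⟨p₀, hp₀, hmin⟩ := exists_norm_eq_iInf_of_complete_convex hKne hKcomp.isComplete hKconv z
  have hvar := (norm_eq_iInf_iff_real_inner_le_zero hKconv hp₀).1 hmin
  refine ⟨p₀, hp₀, ?_⟩
  set d := ‖z - p₀‖ with hd
  by_cases hd0 : d = 0
  · rw [hd0]; exact hε
  have hdpos : 0 < d := lt_of_le_of_ne (norm_nonneg _) (Ne.symm hd0)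
  set e : ℂ := (z - p₀) / (d : ℂ) with he
  have hdc : (d : ℂ) ≠ 0 := by exact_mod_cast hd0
  have hen : ‖e‖ = 1 := by
    rw [he, norm_div, Complex.norm_real, Real.norm_eq_abs, abs_of_pos hdpos]
    exact div_self hd0
  have hzp : z - p₀ = (d : ℂ) * e := by
    rw [he]
    field_simp
  set t := Complex.arg e with ht
  have hcos : Real.cos t = e.re := by
    have := Complex.norm_mul_cos_arg e
    rw [hen, one_mul] at this
    exact this
  have hsin : Real.sin t = e.im := by
    have := Complex.norm_mul_sin_arg e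
    rw [hen, one_mul] at this
    exact this
  have hmax : ∀ w ∈ K, dot t w ≤ dot t p₀ := by
    intro w hw
    have h1 := hvar w hw
    rw [Complex.inner, hzp] at h1
    simp only [mul_re, mul_im, conj_re, conj_im, ofReal_re, ofReal_im, sub_re, sub_im, zero_mul,
      sub_zero, mul_neg] at h1
    have h2 : d * (dot t w - dot t p₀) ≤ 0 := by
      simp only [dot, hcos, hsin]
      nlinarith
    have h3 : dot t w - dot t p₀ ≤ 0 := by
      by_contra hcon
      push Not at hcon
      have := mul_pos hdpos hcon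
      linarith
    linarith
  have hdz : dot t z - dot t p₀ = d := by
    have h1 : dot t z - dot t p₀ = d * (e.re ^ 2 + e.im ^ 2) := by
      simp only [dot, hcos, hsin]
      have e1 : z.re - p₀.re = d * e.re := by
        have := congrArg Complex.re hzp
        simpa using this
      have e2 : z.im - p₀.im = d * e.im := by
        have := congrArg Complex.im hzp
        simpa using this
      have e3 : z.re * e.re + z.im * e.im - (p₀.re * e.re + p₀.im * e.im) =
          e.re * (z.re - p₀.re) + e.im * (z.im - p₀.im) := by ring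
      rw [e3, e1, e2]
      ring
    have h2 : e.re ^ 2 + e.im ^ 2 = 1 := by
      have := Complex.sq_norm e
      rw [hen, Complex.normSq_apply] at this
      nlinarith
    rw [h1, h2, mul_one]
  have hs : supp A t ≤ dot t p₀ := by
    apply supp_le A _ hne
    intro w hw
    exact hmax w (subset_closure hw)
  have := hz t
  linarith

/-! ### The curve statement, and the reductions -/

/-- A smooth strictly convex closed curve given by its support function. -/
structure IsCurve (s : ℝ → ℝ) : Prop where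
  smooth : ContDiff ℝ ∞ s
  per : Function.Periodic s (2 * Real.pi)
  R_pos : ∀ t, 0 < s t + deriv (deriv s) t

/-- The inequality at curve level, for finite dimensional spaces, with `0` inside the curve. This
is the only input of the reduction. -/
def CurveThm : Prop :=
  ∀ (H : Type u) [NormedAddCommGroup H] [InnerProductSpace ℂ H] [CompleteSpace H]
    [FiniteDimensional ℂ H] [Nontrivial H] (A : H →L[ℂ] H) (s : ℝ → ℝ), IsCurve s →
    (∀ t, 0 < s t) → (∃ c : ℝ, 0 < c ∧ ∀ x : H, ‖x‖ = 1 → ∀ t, dot t ⟪x, A x⟫_ℂ + c ≤ s t) →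
    ∀ (p : Polynomial ℂ) (M : ℝ), (∀ z, (∀ t, dot t z ≤ s t) → ‖p.eval z‖ ≤ M) →
      ‖Polynomial.aeval A p‖ ≤ 2 * M

section translate

theorem dot_deriv (c : ℂ) : deriv (deriv (fun t => dot t c)) = fun t => - dot t c := by
  have h1 : deriv (fun t => dot t c) = fun t => - c.re * Real.sin t + c.im * Real.cos t := by
    funext t
    have h := (((Real.hasDerivAt_cos t).const_mul c.re).add ((Real.hasDerivAt_sin t).const_mul c.im))
    have := h.deriv
    simp only [dot]
    rw [show (fun t => c.re * Real.cos t + c.im * Real.sin t) =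
      ((fun y => c.re * Real.cos y) + fun y => c.im * Real.sin y) from rfl, this]
    ring
  rw [h1]
  funext t
  have h := (((Real.hasDerivAt_sin t).const_mul (-c.re)).add ((Real.hasDerivAt_cos t).const_mul c.im))
  rw [show (fun t => - c.re * Real.sin t + c.im * Real.cos t) =
      ((fun y => - c.re * Real.sin y) + fun y => c.im * Real.cos y) from rfl, h.deriv]
  simp only [dot]
  ring

theorem dot_contDiff (c : ℂ) : ContDiff ℝ ∞ (fun t => dot t c) := by
  unfold dot
  fun_prop

theorem dot_periodic (c : ℂ) : Function.Periodic (fun t => dot t c) (2 * Real.pi) := by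
  intro t
  simp [dot]

theorem IsCurve.translate {s : ℝ → ℝ} (hs : IsCurve s) (c : ℂ) :
    IsCurve (fun t => s t - dot t c) := by
  refine ⟨hs.smooth.sub (dot_contDiff c), ?_, ?_⟩
  · intro t
    simp only [hs.per t, dot_periodic c t]
  · intro t
    have hd1 : ∀ x, HasDerivAt s (deriv s x) x := fun x =>
      (hs.smooth.differentiable (by simp) x).hasDerivAt
    have hd2 : ∀ x, HasDerivAt (fun t => dot t c) (deriv (fun t => dot t c) x) x := fun x =>
      ((dot_contDiff c).differentiable (by simp) x).hasDerivAt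
    have e1 : deriv (fun t => s t - dot t c) = fun x => deriv s x - deriv (fun t => dot t c) x :=
      funext fun x => ((hd1 x).fun_sub (hd2 x)).deriv
    have hs1 : ContDiff ℝ ∞ (deriv s) := (contDiff_infty_iff_deriv.1 hs.smooth).2
    have hc1 : ContDiff ℝ ∞ (deriv (fun t => dot t c)) :=
      (contDiff_infty_iff_deriv.1 (dot_contDiff c)).2
    have e2 : deriv (fun x => deriv s x - deriv (fun t => dot t c) x) t =
        deriv (deriv s) t - deriv (deriv (fun t => dot t c)) t :=
      ((hs1.differentiable (by simp) t).hasDerivAt.fun_sub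
        (hc1.differentiable (by simp) t).hasDerivAt).deriv
    rw [e1, e2, dot_deriv]
    have := hs.R_pos t
    simp only
    linarith

end translate

/-- Removing the assumption that `0` is inside the curve. -/
theorem curve_of_translate (hc : CurveThm.{u}) (H : Type u) [NormedAddCommGroup H]
    [InnerProductSpace ℂ H] [CompleteSpace H] [FiniteDimensional ℂ H] [Nontrivial H]
    (A : H →L[ℂ] H) (s : ℝ → ℝ) (hs : IsCurve s)
    (hA : ∃ c : ℝ, 0 < c ∧ ∀ x : H, ‖x‖ = 1 → ∀ t, dot t ⟪x, A x⟫_ℂ + c ≤ s t)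
    (p : Polynomial ℂ) (M : ℝ) (hp : ∀ z, (∀ t, dot t z ≤ s t) → ‖p.eval z‖ ≤ M) :
    ‖Polynomial.aeval A p‖ ≤ 2 * M := by
  obtain ⟨v, hv⟩ := exists_ne (0 : H)
  have hvn : ‖v‖ ≠ 0 := norm_ne_zero_iff.2 hv
  have hvc : ((‖v‖ : ℝ) : ℂ) ≠ 0 := by exact_mod_cast hvn
  set x₀ : H := ((‖v‖ : ℝ) : ℂ)⁻¹ • v with hx₀d
  have hx₀ : ‖x₀‖ = 1 := by
    rw [hx₀d, norm_smul, norm_inv, Complex.norm_real, norm_norm]
    field_simp
  set c₀ : ℂ := ⟪x₀, A x₀⟫_ℂ with hc₀
  obtain ⟨c, hc0, hcx⟩ := hA
  set A' : H →L[ℂ] H := A - c₀ • (1 : H →L[ℂ] H) with hA'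
  have hin : ∀ x : H, ‖x‖ = 1 → ⟪x, A' x⟫_ℂ = ⟪x, A x⟫_ℂ - c₀ := by
    intro x hx
    simp only [hA', sub_apply, smul_apply,
      one_apply_eq_self, inner_sub_right, inner_smul_right]
    rw [inner_self_eq_norm_sq_to_K, hx]
    simp
  have hpos : ∀ t, 0 < s t - dot t c₀ := by
    intro t
    have := hcx x₀ hx₀ t
    linarith
  have hmargin : ∃ c : ℝ, 0 < c ∧ ∀ x : H, ‖x‖ = 1 → ∀ t,
      dot t ⟪x, A' x⟫_ℂ + c ≤ s t - dot t c₀ := by
    refine ⟨c, hc0, fun x hx t => ?_⟩
    rw [hin x hx, dot_sub]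
    have := hcx x hx t
    linarith
  have hq : ∀ z, (∀ t, dot t z ≤ s t - dot t c₀) →
      ‖(p.comp (Polynomial.X + Polynomial.C c₀)).eval z‖ ≤ M := by
    intro z hz
    rw [Polynomial.eval_comp]
    simp only [Polynomial.eval_add, Polynomial.eval_X, Polynomial.eval_C]
    apply hp
    intro t
    rw [dot_add]
    have := hz t
    linarith
  have h := hc H A' (fun t => s t - dot t c₀) (hs.translate c₀) hpos hmargin _ M hq
  have e : Polynomial.aeval A' (p.comp (Polynomial.X + Polynomial.C c₀)) = Polynomial.aeval A p := by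
    rw [Polynomial.aeval_comp]
    congr 1
    simp [hA', Polynomial.aeval_C, Algebra.algebraMap_eq_smul_one]
  rwa [e] at h

/-- Passing from the curve statement to the numerical range in finite dimension. -/
theorem finite_dim_of_curve (hc : CurveThm.{u}) (H : Type u) [NormedAddCommGroup H]
    [InnerProductSpace ℂ H] [CompleteSpace H] [FiniteDimensional ℂ H] [Nontrivial H]
    (A : H →L[ℂ] H) (p : Polynomial ℂ) (M : ℝ)
    (hp : ∀ x : H, ‖x‖ = 1 → ‖p.eval ⟪x, A x⟫_ℂ‖ ≤ M) :
    ‖Polynomial.aeval A p‖ ≤ 2 * M := by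
  obtain ⟨v, hv⟩ := exists_ne (0 : H)
  have hvn : ‖v‖ ≠ 0 := norm_ne_zero_iff.2 hv
  have hvc : ((‖v‖ : ℝ) : ℂ) ≠ 0 := by exact_mod_cast hvn
  set x₀ : H := ((‖v‖ : ℝ) : ℂ)⁻¹ • v with hx₀d
  have hx₀ : ‖x₀‖ = 1 := by
    rw [hx₀d, norm_smul, norm_inv, Complex.norm_real, norm_norm]
    field_simp
  have hne : (Wset A).Nonempty := ⟨_, x₀, hx₀, rfl⟩
  apply le_of_forall_pos_le_add
  intro ε hε
  have hε2 : 0 < ε / 2 := by positivity
  -- uniform continuity of the polynomial
  set R := ‖A‖ + 2 with hR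
  have hcomp : IsCompact (Metric.closedBall (0 : ℂ) R) := isCompact_closedBall _ _
  have hcont : Continuous (fun z : ℂ => p.eval z) := p.continuous
  have huc := hcomp.uniformContinuousOn_of_continuous hcont.continuousOn
  rw [Metric.uniformContinuousOn_iff] at huc
  obtain ⟨δ, hδ, hu⟩ := huc (ε / 2) hε2
  set η := min 1 (δ / 4) with hη
  have hη0 : 0 < η := lt_min one_pos (by positivity)
  have hη1 : η ≤ 1 := min_le_left _ _
  have hη2 : η ≤ δ / 4 := min_le_right _ _
  obtain ⟨s, hs1, hs2, hs3, hs4, hs5⟩ := smooth_support (supp A) (2 * ‖A‖) (by positivity)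
    (fun a b => supp_lip A hx₀ a b) (fun t => supp_add_two_pi A t)
    (fun t D hD => supp_conv A hne t hD) hη0
  have hcurve : IsCurve s := ⟨hs1, hs2, fun t => by have := hs3 t; linarith⟩
  have hmargin : ∃ c : ℝ, 0 < c ∧ ∀ x : H, ‖x‖ = 1 → ∀ t, dot t ⟪x, A x⟫_ℂ + c ≤ s t := by
    refine ⟨η / 2, by positivity, fun x hx t => ?_⟩
    have h1 := le_supp A t (⟨x, hx, rfl⟩ : ⟪x, A x⟫_ℂ ∈ Wset A)
    have h2 := hs4 t
    have e : dot t ⟪x, A x⟫_ℂ = (⟪x, A x⟫_ℂ).re * Real.cos t + (⟪x, A x⟫_ℂ).im * Real.sin t := rfl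
    rw [e]
    linarith
  have hbd : ∀ z, (∀ t, dot t z ≤ s t) → ‖p.eval z‖ ≤ M + ε / 2 := by
    intro z hz
    obtain ⟨w, hw, hzw⟩ := close_of_support A hx₀ (ε := 2 * η) (by positivity) (z := z) (fun t => by
      have := hz t
      have := hs5 t
      linarith)
    have hwn : ‖w‖ ≤ ‖A‖ := by
      have hc : IsClosed {w : ℂ | ‖w‖ ≤ ‖A‖} := isClosed_le continuous_norm continuous_const
      exact closure_minimal (fun w hw => Wset_norm A hw) hc hw
    have hwb : w ∈ Metric.closedBall (0 : ℂ) R := by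
      rw [mem_closedBall_zero_iff]
      linarith [norm_nonneg A]
    have hzn : ‖z‖ ≤ R := by
      have : ‖z‖ ≤ ‖z - w‖ + ‖w‖ := by
        have e : z = (z - w) + w := by ring
        conv_lhs => rw [e]
        exact norm_add_le _ _
      linarith
    have hzb : z ∈ Metric.closedBall (0 : ℂ) R := by
      rwa [mem_closedBall_zero_iff]
    have hdist : dist z w < δ := by
      rw [dist_eq_norm]
      linarith
    have h1 := hu z hzb w hwb hdist
    rw [dist_eq_norm] at h1
    have hwM : ‖p.eval w‖ ≤ M := by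
      have hc : IsClosed {w : ℂ | ‖p.eval w‖ ≤ M} := isClosed_le hcont.norm continuous_const
      refine closure_minimal ?_ hc hw
      rintro w' ⟨x, hx, rfl⟩
      exact hp x hx
    have h2 : ‖p.eval z‖ ≤ ‖p.eval z - p.eval w‖ + ‖p.eval w‖ := by
      have : p.eval z = (p.eval z - p.eval w) + p.eval w := by ring
      conv_lhs => rw [this]
      exact norm_add_le _ _
    linarith
  have h := curve_of_translate hc H A s hcurve hmargin p (M + ε / 2) hbd
  linarith

/-- Compression to a finite dimensional invariant piece. -/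
theorem crouzeix_of_curve (hc : CurveThm.{u}) (H : Type u) [NormedAddCommGroup H]
    [InnerProductSpace ℂ H] [CompleteSpace H] (A : H →L[ℂ] H) (p : Polynomial ℂ) (M : ℝ)
    (hM : 0 ≤ M) (hp : ∀ x : H, ‖x‖ = 1 → ‖p.eval ⟪x, A x⟫_ℂ‖ ≤ M) :
    ‖Polynomial.aeval A p‖ ≤ 2 * M := by
  apply ContinuousLinearMap.opNorm_le_bound _ (by positivity)
  intro x
  by_cases hx : x = 0
  · simp [hx]
  -- the space spanned by the powers
  set d := p.natDegree with hd
  set V : Submodule ℂ H := Submodule.span ℂ (Set.range fun j : Fin (d + 1) => (A ^ (j : ℕ)) x)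
    with hV
  have : FiniteDimensional ℂ V := FiniteDimensional.span_of_finite ℂ (Set.finite_range _)
  have hmemV : ∀ j, j ≤ d → (A ^ j) x ∈ V := by
    intro j hj
    exact Submodule.subset_span ⟨⟨j, Nat.lt_succ_of_le hj⟩, rfl⟩
  have hxV : x ∈ V := by
    simpa using hmemV 0 (Nat.zero_le _)
  let x' : V := ⟨x, hxV⟩
  have hx'0 : x' ≠ 0 := by
    intro h
    apply hx
    have := congrArg (Subtype.val) h
    simpa [x'] using this
  have : Nontrivial V := ⟨⟨x', 0, hx'0⟩⟩
  set B : V →L[ℂ] V := (V.orthogonalProjectionOnto) ∘L A ∘L V.subtypeL with hB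
  have hBv : ∀ v : V, ((B v : V) : H) = V.starProjection (A v) := by
    intro v
    rfl
  have hpow : ∀ j, j ≤ d → (((B ^ j) x' : V) : H) = (A ^ j) x := by
    intro j
    induction j with
    | zero => intro _; simp [x']
    | succ j ih =>
      intro hj
      have h1 := ih (by omega)
      have e : (A ^ (j + 1)) x = A ((A ^ j) x) := by
        rw [pow_succ']
        rfl
      have e2 : (B ^ (j + 1)) x' = B ((B ^ j) x') := by
        rw [pow_succ']
        rfl
      rw [e2, hBv, h1, ← e]
      exact Submodule.starProjection_eq_self_iff.2 (hmemV (j + 1) hj)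
  have heval : ((Polynomial.aeval B p x' : V) : H) = Polynomial.aeval A p x := by
    rw [Polynomial.aeval_eq_sum_range, Polynomial.aeval_eq_sum_range]
    simp only [sum_apply, smul_apply,
      Submodule.coe_sum, Submodule.coe_smul]
    refine Finset.sum_congr rfl fun j hj => ?_
    rw [hpow j (by simpa [Nat.lt_succ_iff] using hj)]
  have hin : ∀ v : V, ⟪v, B v⟫_ℂ = ⟪(v : H), A v⟫_ℂ := by
    intro v
    rw [Submodule.coe_inner, hBv]
    exact Submodule.inner_starProjection_left_eq_right V .. |>.symm ▸ by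
      rw [Submodule.starProjection_eq_self_iff.2 v.2]
  have hpB : ∀ v : V, ‖v‖ = 1 → ‖p.eval ⟪v, B v⟫_ℂ‖ ≤ M := by
    intro v hv
    rw [hin v]
    exact hp v (by simpa using hv)
  have h := finite_dim_of_curve hc V B p M hpB
  have h2 : ‖Polynomial.aeval A p x‖ = ‖Polynomial.aeval B p x'‖ := by
    rw [← heval]
    rfl
  rw [h2]
  calc ‖Polynomial.aeval B p x'‖ ≤ ‖Polynomial.aeval B p‖ * ‖x'‖ := ContinuousLinearMap.le_opNorm _ _
    _ ≤ 2 * M * ‖x‖ := by
      apply mul_le_mul_of_nonneg_right h (norm_nonneg _)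


/-- In finite dimension a singular pair of vectors for the top singular value exists. -/
theorem exists_singular_pair {E : Type*} [NormedAddCommGroup E] [InnerProductSpace ℂ E]
    [CompleteSpace E] [FiniteDimensional ℂ E] [Nontrivial E] (T : E →L[ℂ] E) :
    ∃ x y : E, ‖x‖ = 1 ∧ ‖y‖ = 1 ∧ T x = ((‖T‖ : ℝ) : ℂ) • y ∧
      (ContinuousLinearMap.adjoint T) y = ((‖T‖ : ℝ) : ℂ) • x := by
  have hcomp : IsCompact (Metric.sphere (0 : E) 1) := isCompact_sphere _ _
  obtain ⟨v, hv⟩ := exists_ne (0 : E)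
  have hvn : ‖v‖ ≠ 0 := norm_ne_zero_iff.2 hv
  have hvc : ((‖v‖ : ℝ) : ℂ) ≠ 0 := by exact_mod_cast hvn
  have hne : (Metric.sphere (0 : E) 1).Nonempty := by
    refine ⟨((‖v‖ : ℝ) : ℂ)⁻¹ • v, ?_⟩
    rw [mem_sphere_zero_iff_norm, norm_smul, norm_inv, Complex.norm_real, norm_norm]
    field_simp
  obtain ⟨x, hx, hmax⟩ := hcomp.exists_isMaxOn hne (T.continuous.norm.continuousOn)
  have hxn : ‖x‖ = 1 := by simpa using hx
  have hK : ‖T x‖ = ‖T‖ := by
    apply le_antisymm
    · simpa [hxn] using T.le_opNorm x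
    · apply ContinuousLinearMap.opNorm_le_bound _ (norm_nonneg _)
      intro w
      by_cases hw : w = 0
      · simp [hw]
      have hwn : ‖w‖ ≠ 0 := norm_ne_zero_iff.2 hw
      have hwc : ((‖w‖ : ℝ) : ℂ) ≠ 0 := by exact_mod_cast hwn
      have h1 : ((‖w‖ : ℝ) : ℂ)⁻¹ • w ∈ Metric.sphere (0 : E) 1 := by
        rw [mem_sphere_zero_iff_norm, norm_smul, norm_inv, Complex.norm_real, norm_norm]
        field_simp
      have h2 : ‖T (((‖w‖ : ℝ) : ℂ)⁻¹ • w)‖ ≤ ‖T x‖ := hmax h1
      rw [map_smul, norm_smul, norm_inv, Complex.norm_real, norm_norm] at h2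
      have h3 : 0 < ‖w‖ := lt_of_le_of_ne (norm_nonneg _) (Ne.symm hwn)
      rw [inv_mul_le_iff₀ h3] at h2
      linarith
  set K := ‖T‖ with hKd
  have hadj : ContinuousLinearMap.adjoint T (T x) = ((K ^ 2 : ℝ) : ℂ) • x := by
    obtain ⟨c, hc⟩ : ∃ c : ℝ, c = K ^ 2 := ⟨_, rfl⟩
    rw [← hc]
    have hc0 : 0 ≤ c := by rw [hc]; positivity
    set u := ContinuousLinearMap.adjoint T (T x) with hu
    have hle : ‖u‖ ≤ c := by
      have h1 := (ContinuousLinearMap.adjoint T).le_opNorm (T x)
      rw [ContinuousLinearMap.adjoint.norm_map T, hK] at h1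
      rw [hc]
      nlinarith
    have hin : ⟪u, x⟫_ℂ = (c : ℂ) := by
      rw [hu, ContinuousLinearMap.adjoint_inner_left, inner_self_eq_norm_sq_to_K, hK, hc]
      simp
    have e : RCLike.re ⟪u, (c : ℂ) • x⟫_ℂ = c * c := by
      rw [inner_smul_right, hin, ← Complex.ofReal_mul]
      simp
    have e2 : ‖(c : ℂ) • x‖ = c := by
      rw [norm_smul, hxn, Complex.norm_real, Real.norm_eq_abs, abs_of_nonneg hc0, mul_one]
    have h3 : ‖u - (c : ℂ) • x‖ ^ 2 ≤ 0 := by
      rw [@norm_sub_sq ℂ, e, e2]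
      have := norm_nonneg u
      nlinarith
    have h0 : ‖u - (c : ℂ) • x‖ = 0 := by
      nlinarith [norm_nonneg (u - (c : ℂ) • x)]
    exact sub_eq_zero.1 (norm_eq_zero.1 h0)
  by_cases hK0 : K = 0
  · have hT : T = 0 := by
      rw [hKd] at hK0
      exact norm_eq_zero.1 hK0
    refine ⟨x, x, hxn, hxn, ?_, ?_⟩
    · simp [hT, hK0]
    · simp [hT, hK0]
  have hKc : (K : ℂ) ≠ 0 := by exact_mod_cast hK0
  refine ⟨x, (K : ℂ)⁻¹ • T x, hxn, ?_, ?_, ?_⟩
  · rw [norm_smul, norm_inv, Complex.norm_real, hK, Real.norm_eq_abs, abs_of_nonneg (norm_nonneg _)]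
    exact inv_mul_cancel₀ hK0
  · rw [smul_smul, mul_inv_cancel₀ hKc, one_smul]
  · rw [map_smul, hadj, smul_smul]
    congr 1
    push_cast
    field_simp

end Vale.Agent.Lib.P123C.ReduceFinal
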