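import Vale.Agent.Lib.P123C.Calc

/-!
# Crouzeix route: scaled Cauchy transforms

For `0 < s`: the scaled curve `q σ` lies inside, `r σ` outside; `G_q[h] = C[h](q σ)` has vanishing
moments, `C[p(σ) G_q[h]] = p C[h](q ·)` inside; `E_r[h] = C[h](r σ)` has vanishing Cauchy transform
inside, hence `T[E_r[h]] = 0`.
-/

open Complex ComplexConjugate MeasureTheory Set Filter Topology
open scoped Interval InnerProductSpace Real

namespace Vale.Agent.Lib.P123C.Calc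

open Geom Oper

variable {s s1 R : ℝ → ℝ}

theorem hh_scale (ρ : ℝ) (t : ℝ) (z : ℂ) : hh s t ((ρ : ℂ) * z) = (1 - ρ) * s t + ρ * hh s t z := by
  unfold hh
  have : conj (e t) * ((ρ : ℂ) * z) = (ρ : ℂ) * (conj (e t) * z) := by ring
  rw [this, Complex.re_ofReal_mul]
  ring

/-- The curve is on the inner side of every supporting line. -/
theorem hh_sig_nonneg (hc : IsCrv s s1 R) (hR0 : ∀ t, 0 ≤ R t) (t t0 : ℝ) : 0 ≤ hh s t (sig s s1 t0) := by
  obtain ⟨Rm, hRm⟩ := IsCrv.bdd_of_per hc.hRc hc.hRper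
  have h1 := (hh_sig_bounds hc.hs hc.hs1 hc.hper (rmin := 0) (rmax := Rm) hR0
    (fun t => (le_abs_self _).trans (hRm t)) t t0).1
  simpa using h1

/-- The lower distance bound via a supporting line. -/
theorem norm_sub_ge_hh (t : ℝ) (z w : ℂ) : hh s t z - hh s t w ≤ ‖z - w‖ :=
  (abs_le.1 (abs_hh_sub_le t z w)).2

theorem scale_mem_In (hc : IsCrv s s1 R) (hR0 : ∀ t, 0 ≤ R t) (hs0 : ∀ t, 0 < s t) {ρ : ℝ}
    (h0 : 0 ≤ ρ) (h1 : ρ < 1) (t : ℝ) : (ρ : ℂ) * sig s s1 t ∈ In s := by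
  intro τ
  rw [hh_scale]
  have h2 := hh_sig_nonneg hc hR0 τ t
  have h3 := hs0 τ
  have : 0 < (1 - ρ) * s τ := mul_pos (by linarith) h3
  have h4 := mul_nonneg h0 h2
  linarith

theorem scale_In_mem_In (hs0 : ∀ t, 0 < s t) {ρ : ℝ} (h0 : 0 ≤ ρ) (h1 : ρ ≤ 1) {z : ℂ} (hz : z ∈ In s) :
    (ρ : ℂ) * z ∈ In s := by
  intro τ
  rw [hh_scale]
  have h2 := hz τ
  have h3 := hs0 τ
  rcases h1.lt_or_eq with h | h
  · have : 0 < (1 - ρ) * s τ := mul_pos (by linarith) h3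
    have h4 := mul_nonneg h0 h2.le
    linarith
  · rw [h]; simpa using h2

section Diff

variable {E : Type*} [NormedAddCommGroup E] [NormedSpace ℂ E] [CompleteSpace E]

/-- A Cauchy integral along the curve is holomorphic off the curve. -/
theorem cauchy_diffAt (hc : IsCrv s s1 R) {φ : ℝ → E} (hφ : Continuous φ) {ζ₀ : ℂ} {d : ℝ} (hd : 0 < d)
    (hm : ∀ t, d ≤ ‖sig s s1 t - ζ₀‖) :
    DifferentiableAt ℂ (fun ζ => ∫ t in (0 : ℝ)..(2 * π), (sig s s1 t - ζ)⁻¹ • φ t) ζ₀ := by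
  obtain ⟨C, hC⟩ := isCompact_Icc.exists_bound_of_continuousOn (s := Icc (0 : ℝ) (2 * π)) hφ.continuousOn
  have hball : ∀ x ∈ Metric.ball ζ₀ (d / 2), ∀ t, d / 2 ≤ ‖sig s s1 t - x‖ := by
    intro x hx t
    rw [Metric.mem_ball, dist_eq_norm] at hx
    have h1 := norm_sub_norm_le (sig s s1 t - ζ₀) (x - ζ₀)
    have h2 := hm t
    have h3 : sig s s1 t - ζ₀ - (x - ζ₀) = sig s s1 t - x := by ring
    rw [h3] at h1
    linarith
  have hne : ∀ x ∈ Metric.ball ζ₀ (d / 2), ∀ t, sig s s1 t - x ≠ 0 := by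
    intro x hx t h0
    have h1 := hball x hx t
    rw [h0, norm_zero] at h1
    linarith
  have hnorm : ∀ x ∈ Metric.ball ζ₀ (d / 2), ∀ t, ‖(sig s s1 t - x)⁻¹‖ ≤ 2 / d := by
    intro x hx t
    have h1 := hball x hx t
    rw [norm_inv, inv_le_comm₀ (norm_pos_iff.2 (hne x hx t)) (by positivity)]
    rw [inv_div]
    exact h1
  have hcont : ∀ x ∈ Metric.ball ζ₀ (d / 2), Continuous (fun t => (sig s s1 t - x)⁻¹) := by
    intro x hx
    exact (hc.sig_cont.sub continuous_const).inv₀ (hne x hx)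
  have hb := Metric.ball_mem_nhds ζ₀ (by positivity : 0 < d / 2)
  have h2pi : (0 : ℝ) ≤ 2 * π := Real.two_pi_pos.le
  have key := intervalIntegral.hasDerivAt_integral_of_dominated_loc_of_deriv_le (μ := volume)
    (a := 0) (b := 2 * π)
    (F := fun ζ t => (sig s s1 t - ζ)⁻¹ • φ t)
    (F' := fun ζ t => (((sig s s1 t - ζ)⁻¹) ^ 2) • φ t)
    (bound := fun _ => (2 / d) ^ 2 * C) hb ?_ ?_ ?_ ?_ ?_ ?_
  · exact key.2.differentiableAt
  · filter_upwards [hb] with x hx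
    exact ((hcont x hx).smul hφ).aestronglyMeasurable
  · exact ((hcont ζ₀ (Metric.mem_ball_self (by positivity))).smul hφ).intervalIntegrable _ _
  · exact (((hcont ζ₀ (Metric.mem_ball_self (by positivity))).pow 2).smul hφ).aestronglyMeasurable
  · refine Eventually.of_forall ?_
    intro t ht x hx
    rw [uIoc_of_le h2pi] at ht
    rw [norm_smul, norm_pow]
    have h1 := hnorm x hx t
    have h2 := hC t (Ioc_subset_Icc_self ht)
    have hC0 : 0 ≤ C := (norm_nonneg _).trans h2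
    exact mul_le_mul (pow_le_pow_left₀ (norm_nonneg _) h1 2) h2 (norm_nonneg _) (by positivity)
  · exact intervalIntegrable_const
  · refine Eventually.of_forall ?_
    intro t _ x hx
    have h1 : HasDerivAt (fun ζ => sig s s1 t - ζ) (-1) x := by
      simpa using (hasDerivAt_id x).const_sub (sig s s1 t)
    have h2 := h1.inv (hne x hx t)
    have e' : - (-1 : ℂ) / (sig s s1 t - x) ^ 2 = ((sig s s1 t - x)⁻¹) ^ 2 := by
      field_simp [hne x hx t]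
    rw [e'] at h2
    exact h2.smul_const (φ t)

end Diff

/-- `Cc` is holomorphic off the curve. -/
theorem Cc_diffAt (hc : IsCrv s s1 R) {h : ℝ → ℂ} (hh' : Continuous h) {ζ₀ : ℂ} {d : ℝ} (hd : 0 < d)
    (hm : ∀ t, d ≤ ‖sig s s1 t - ζ₀‖) : DifferentiableAt ℂ (Cc s s1 R h) ζ₀ := by
  have h1 := cauchy_diffAt hc (hh'.mul hc.dsig_cont) hd hm
  exact h1.const_mul _

theorem Cc_diffOn (hc : IsCrv s s1 R) {h : ℝ → ℂ} (hh' : Continuous h) : DifferentiableOn ℂ (Cc s s1 R h) (In s) := by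
  intro z hz
  obtain ⟨d, hd, hm⟩ := exists_margin hc hz
  exact (Cc_diffAt hc hh' hd (fun t => (hm t).trans (hh_le_norm t z))).differentiableWithinAt

/-- The inside scaled function. -/
noncomputable def Gq (s s1 R : ℝ → ℝ) (h : ℝ → ℂ) (q : ℝ) (t : ℝ) : ℂ := Cc s s1 R h ((q : ℂ) * sig s s1 t)

/-- The outside scaled function. -/
noncomputable def Er (s s1 R : ℝ → ℝ) (h : ℝ → ℂ) (r : ℝ) (t : ℝ) : ℂ := Cc s s1 R h ((r : ℂ) * sig s s1 t)

theorem Gq_cont (hc : IsCrv s s1 R) (hR0 : ∀ t, 0 ≤ R t) (hs0 : ∀ t, 0 < s t) {h : ℝ → ℂ} (hh' : Continuous h)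
    {q : ℝ} (h0 : 0 ≤ q) (h1 : q < 1) : Continuous (Gq s s1 R h q) := by
  have := (Cc_diffOn hc hh').continuousOn
  exact this.comp_continuous (continuous_const.mul hc.sig_cont) (fun t => scale_mem_In hc hR0 hs0 h0 h1 t)

/-- The set where `Cc h (q ·)` is holomorphic. -/
theorem scaled_analytic (hc : IsCrv s s1 R) {h : ℝ → ℂ} (hh' : Continuous h) (q : ℝ) :
    DifferentiableOn ℂ (fun ζ => Cc s s1 R h ((q : ℂ) * ζ)) {ζ | (q : ℂ) * ζ ∈ In s} := by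
  have h1 := Cc_diffOn hc hh'
  exact h1.comp (differentiableOn_id.const_mul _) (fun ζ hζ => hζ)

theorem isOpen_scaled (hc : IsCrv s s1 R) (q : ℝ) : IsOpen {ζ : ℂ | (q : ℂ) * ζ ∈ In s} :=
  (isOpen_In hc).preimage (continuous_const.mul continuous_id)

theorem scaled_mem (hc : IsCrv s s1 R) (hR0 : ∀ t, 0 ≤ R t) (hs0 : ∀ t, 0 < s t) {q : ℝ} (h0 : 0 ≤ q) (h1 : q < 1)
    {ρ : ℝ} (hρ : ρ ∈ Icc (0 : ℝ) 1) (t : ℝ) : (ρ : ℂ) * sig s s1 t ∈ {ζ : ℂ | (q : ℂ) * ζ ∈ In s} := by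
  have e1 : (q : ℂ) * ((ρ : ℂ) * sig s s1 t) = ((q * ρ : ℝ) : ℂ) * sig s s1 t := by
    push_cast; ring
  change (q : ℂ) * ((ρ : ℂ) * sig s s1 t) ∈ In s
  rw [e1]
  apply scale_mem_In hc hR0 hs0 (mul_nonneg h0 hρ.1) _ t
  have := mul_le_mul_of_nonneg_left hρ.2 h0
  linarith

/-- Vanishing moments of `G_q[h]`. -/
theorem Gq_moments (hc : IsCrv s s1 R) (hR0 : ∀ t, 0 ≤ R t) (hs0 : ∀ t, 0 < s t) {h : ℝ → ℂ} (hh' : Continuous h)
    {q : ℝ} (h0 : 0 ≤ q) (h1 : q < 1) (j : ℕ) :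
    ∫ t in (0 : ℝ)..(2 * π), (sig s s1 t) ^ j * Gq s s1 R h q t * sigD R t = 0 := by
  have hU := isOpen_scaled hc q
  have hF : DifferentiableOn ℂ (fun ζ => ζ ^ j * Cc s s1 R h ((q : ℂ) * ζ)) {ζ | (q : ℂ) * ζ ∈ In s} :=
    (differentiableOn_id.pow j).mul (scaled_analytic hc hh' q)
  have h2 := curve_cauchy_in hc hU hF (fun ρ hρ t => scaled_mem hc hR0 hs0 h0 h1 hρ t)
  rw [← h2]
  congr 1
  ext1 t
  unfold Gq
  rw [smul_eq_mul]
  ring

/-- The Cauchy transform of `p(σ) G_q[h]` inside. -/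
theorem Cc_poly_Gq (hc : IsCrv s s1 R) (hR0 : ∀ t, 0 ≤ R t) (hs0 : ∀ t, 0 < s t) {h : ℝ → ℂ} (hh' : Continuous h)
    {q : ℝ} (h0 : 0 ≤ q) (h1 : q < 1) (p : Polynomial ℂ) {z : ℂ} (hz : z ∈ In s) :
    Cc s s1 R (fun t => p.eval (sig s s1 t) * Gq s s1 R h q t) z = p.eval z * Cc s s1 R h ((q : ℂ) * z) := by
  have hU := isOpen_scaled hc q
  have hF : DifferentiableOn ℂ (fun ζ => p.eval ζ * Cc s s1 R h ((q : ℂ) * ζ)) {ζ | (q : ℂ) * ζ ∈ In s} :=
    (p.differentiable.differentiableOn).mul (scaled_analytic hc hh' q)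
  have hzU : z ∈ {ζ : ℂ | (q : ℂ) * ζ ∈ In s} := scale_In_mem_In hs0 h0 h1.le hz
  exact Cc_of_analytic hc hU hF (fun ρ hρ t => scaled_mem hc hR0 hs0 h0 h1 hρ t) hz hzU

/-- Distance from the curve to a point beyond it. -/
theorem norm_sig_sub_ge (hc : IsCrv s s1 R) (hR0 : ∀ t, 0 ≤ R t) {w : ℂ} {τ : ℝ} (hw : hh s τ w < 0) (t : ℝ) :
    - hh s τ w ≤ ‖sig s s1 t - w‖ := by
  have h1 := norm_sub_ge_hh (s := s) τ (sig s s1 t) w
  have h2 := hh_sig_nonneg hc hR0 τ t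
  linarith

theorem Er_cont (hc : IsCrv s s1 R) (hR0 : ∀ t, 0 ≤ R t) (hs0 : ∀ t, 0 < s t) {h : ℝ → ℂ} (hh' : Continuous h)
    {r : ℝ} (h1 : 1 < r) : Continuous (Er s s1 R h r) := by
  apply continuous_iff_continuousAt.2
  intro t0
  have hw : hh s t0 ((r : ℂ) * sig s s1 t0) < 0 := by
    rw [hh_scale, hh_self]
    have := mul_pos (sub_pos.2 h1) (hs0 t0)
    nlinarith
  have hd := Cc_diffAt hc hh' (neg_pos.2 hw) (fun t => norm_sig_sub_ge hc hR0 hw t)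
  exact hd.continuousAt.comp (f := fun t => (r : ℂ) * sig s s1 t) (g := Cc s s1 R h) (x := t0)
    ((continuous_const.mul hc.sig_cont).continuousAt)

/-- The Cauchy transform of `E_r[h]` vanishes inside. -/
theorem Cc_Er (hc : IsCrv s s1 R) (hR0 : ∀ t, 0 ≤ R t) {smin : ℝ} (hsm : 0 < smin) (hs0 : ∀ t, smin ≤ s t)
    {h : ℝ → ℂ} (hh' : Continuous h) {r : ℝ} (h1 : 1 < r) {z : ℂ} (hz : z ∈ In s) :
    Cc s s1 R (Er s s1 R h r) z = 0 := by
  have hs0' : ∀ t, 0 < s t := fun t => lt_of_lt_of_le hsm (hs0 t)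
  obtain ⟨d, hd, hm⟩ := exists_margin hc hz
  -- the domain
  set U : Set ℂ := {ζ | ζ ≠ z} ∩ {ζ | ∃ τ, hh s τ ((r : ℂ) * ζ) < 0} with hUdef
  have hU : IsOpen U := by
    apply IsOpen.inter isOpen_ne
    have : {ζ : ℂ | ∃ τ, hh s τ ((r : ℂ) * ζ) < 0} = ⋃ τ : ℝ, {ζ : ℂ | hh s τ ((r : ℂ) * ζ) < 0} := by
      ext ζ; simp
    rw [this]
    apply isOpen_iUnion
    intro τ
    apply isOpen_lt _ continuous_const
    exact (hh_cont hc).comp (continuous_const.prodMk (continuous_const.mul continuous_id))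
  have hF : DifferentiableOn ℂ (fun ζ => (ζ - z)⁻¹ * Cc s s1 R h ((r : ℂ) * ζ)) U := by
    intro ζ hζ
    apply DifferentiableAt.differentiableWithinAt
    obtain ⟨h1', τ, hτ⟩ := hζ
    have h2 : ζ - z ≠ 0 := sub_ne_zero.2 h1'
    have h3 := Cc_diffAt hc hh' (neg_pos.2 hτ) (fun t => norm_sig_sub_ge hc hR0 hτ t)
    have h4 : DifferentiableAt ℂ (fun ζ => Cc s s1 R h ((r : ℂ) * ζ)) ζ :=
      h3.comp (f := fun ζ => (r : ℂ) * ζ) (g := Cc s s1 R h) ζ (differentiableAt_id.const_mul _)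
    exact ((differentiableAt_id.sub_const z).inv h2).mul h4
  -- membership
  have hmem : ∀ ρ : ℝ, 1 ≤ ρ → ∀ t, (ρ : ℂ) * sig s s1 t ∈ U := by
    intro ρ hρ t
    constructor
    · intro h0
      have h2 := hz t
      rw [← h0, hh_scale, hh_self] at h2
      have := hs0' t
      nlinarith
    · refine ⟨t, ?_⟩
      have e1 : (r : ℂ) * ((ρ : ℂ) * sig s s1 t) = ((r * ρ : ℝ) : ℂ) * sig s s1 t := by
        push_cast; ring
      rw [e1, hh_scale, hh_self]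
      have := hs0' t
      have h3 : 1 < r * ρ := by nlinarith
      nlinarith
  -- bounds
  obtain ⟨Rm, hRm⟩ := IsCrv.bdd_of_per (f := fun t => ‖sigD R t‖) hc.dsig_cont.norm
    (fun t => by simp only [hc.dsig_per])
  have hRm' : ∀ t, ‖sigD R t‖ ≤ Rm := fun t => (le_abs_self _).trans (hRm t)
  have hRm0 : 0 ≤ Rm := (norm_nonneg _).trans (hRm' 0)
  obtain ⟨Ch, hCh⟩ := isCompact_Icc.exists_bound_of_continuousOn (s := Icc (0 : ℝ) (2 * π)) hh'.continuousOn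
  have hCh0 : 0 ≤ Ch := (norm_nonneg _).trans (hCh 0 ⟨le_rfl, Real.two_pi_pos.le⟩)
  set c0 : ℝ := min d smin with hc0
  have hc0pos : 0 < c0 := lt_min hd hsm
  set b : ℝ := (r - 1) * smin with hb
  have hbpos : 0 < b := mul_pos (by linarith) hsm
  have hbound : ∀ ρ : ℝ, 1 ≤ ρ → ∀ t, ‖(((ρ : ℂ) * sig s s1 t) - z)⁻¹ * Cc s s1 R h ((r : ℂ) * ((ρ : ℂ) * sig s s1 t))‖
      ≤ (Ch * Rm / b / c0) / ρ ^ 2 := by
    intro ρ hρ t
    have hρ0 : 0 < ρ := by linarith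
    -- first factor
    have h2 : c0 * ρ ≤ ‖(ρ : ℂ) * sig s s1 t - z‖ := by
      have h3 := norm_sub_ge_hh (s := s) t z ((ρ : ℂ) * sig s s1 t)
      rw [norm_sub_rev] at h3
      rw [hh_scale, hh_self] at h3
      have h4 := hm t
      have h5 := hs0 t
      have h6 : c0 ≤ d := min_le_left _ _
      have h7 : c0 ≤ smin := min_le_right _ _
      nlinarith
    have h2pos : 0 < c0 * ρ := by positivity
    have h3 : ‖((ρ : ℂ) * sig s s1 t - z)⁻¹‖ ≤ 1 / (c0 * ρ) := by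
      rw [norm_inv, one_div]
      exact inv_anti₀ h2pos h2
    -- second factor
    have h4 : ∀ τ, b * ρ ≤ ‖sig s s1 τ - (r : ℂ) * ((ρ : ℂ) * sig s s1 t)‖ := by
      intro τ
      have e1 : (r : ℂ) * ((ρ : ℂ) * sig s s1 t) = ((r * ρ : ℝ) : ℂ) * sig s s1 t := by
        push_cast; ring
      rw [e1]
      have h5 := norm_sub_ge_hh (s := s) t (sig s s1 τ) (((r * ρ : ℝ) : ℂ) * sig s s1 t)
      rw [hh_scale, hh_self] at h5
      have h6 := hh_sig_nonneg hc hR0 t τ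
      have h7 := hs0 t
      have h8 : 0 ≤ r * ρ - 1 - (r - 1) * ρ := by nlinarith
      have h9 : (r - 1) * ρ * smin ≤ (r * ρ - 1) * s t := by
        have : (r - 1) * ρ ≤ r * ρ - 1 := by linarith
        have h10 : 0 ≤ (r - 1) * ρ := by nlinarith
        exact mul_le_mul this h7 hsm.le (by nlinarith)
      have h11 : b * ρ = (r - 1) * ρ * smin := by rw [hb]; ring
      rw [h11]
      nlinarith
    have h5 : ‖Cc s s1 R h ((r : ℂ) * ((ρ : ℂ) * sig s s1 t))‖ ≤ Ch * Rm / (b * ρ) := by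
      unfold Cc
      rw [norm_mul]
      have h6 : ‖(2 * (π : ℂ) * I)⁻¹‖ = (2 * π)⁻¹ := by
        rw [norm_inv, norm_mul, norm_mul, Complex.norm_I, Complex.norm_real, Real.norm_eq_abs,
          abs_of_pos Real.pi_pos]
        simp
      rw [h6]
      have h7 : ∀ τ ∈ Ι (0 : ℝ) (2 * π), ‖(sig s s1 τ - (r : ℂ) * ((ρ : ℂ) * sig s s1 t))⁻¹ * (h τ * sigD R τ)‖
          ≤ (1 / (b * ρ)) * (Ch * Rm) := by
        intro τ hτ
        rw [uIoc_of_le Real.two_pi_pos.le] at hτ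
        rw [norm_mul, norm_mul]
        have hbρ : 0 < b * ρ := by positivity
        apply mul_le_mul _ (mul_le_mul (hCh τ (Ioc_subset_Icc_self hτ)) (hRm' τ) (norm_nonneg _) hCh0)
          (by positivity) (by positivity)
        rw [norm_inv, one_div]
        exact inv_anti₀ hbρ (h4 τ)
      have h8 := intervalIntegral.norm_integral_le_of_norm_le_const h7
      rw [sub_zero, abs_of_pos Real.two_pi_pos] at h8
      have hpi := Real.pi_pos
      calc (2 * π)⁻¹ * ‖∫ τ in (0 : ℝ)..(2 * π), (sig s s1 τ - (r : ℂ) * ((ρ : ℂ) * sig s s1 t))⁻¹ * (h τ * sigD R τ)‖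
          ≤ (2 * π)⁻¹ * ((1 / (b * ρ)) * (Ch * Rm) * (2 * π)) :=
            mul_le_mul_of_nonneg_left h8 (by positivity)
        _ = Ch * Rm / (b * ρ) := by field_simp
    rw [norm_mul]
    calc ‖((ρ : ℂ) * sig s s1 t - z)⁻¹‖ * ‖Cc s s1 R h ((r : ℂ) * ((ρ : ℂ) * sig s s1 t))‖
        ≤ (1 / (c0 * ρ)) * (Ch * Rm / (b * ρ)) :=
          mul_le_mul h3 h5 (norm_nonneg _) (by positivity)
      _ = (Ch * Rm / b / c0) / ρ ^ 2 := by field_simp
  have hzero := curve_cauchy_out hc hU hF hmem hbound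
  unfold Cc
  have e2 : (fun t => (sig s s1 t - z)⁻¹ * (Er s s1 R h r t * sigD R t)) =
      fun t => sigD R t • ((sig s s1 t - z)⁻¹ * Cc s s1 R h ((r : ℂ) * sig s s1 t)) := by
    ext1 t
    unfold Er
    rw [smul_eq_mul]
    ring
  rw [e2, hzero, mul_zero]

section Ops

variable {H : Type*} [NormedAddCommGroup H] [InnerProductSpace ℂ H] [CompleteSpace H]
variable {A : H →L[ℂ] H} {η : ℝ}

/-- `T[E_r[h]] = 0`. -/
theorem T_Er (hA : Inside s A η) (hc : IsCrv s s1 R) (hR0 : ∀ t, 0 ≤ R t) {smin : ℝ} (hsm : 0 < smin)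
    (hs0 : ∀ t, smin ≤ s t) {h : ℝ → ℂ} (hh' : Continuous h) {r : ℝ} (h1 : 1 < r) :
    T s s1 R A (Er s s1 R h r) = 0 := by
  have hs0' : ∀ t, 0 < s t := fun t => lt_of_lt_of_le hsm (hs0 t)
  have := ins_T_eq_of_Cc_const hA hc (Er_cont hc hR0 hs0' hh' h1) (κ := 0)
    (fun z hz => Cc_Er hc hR0 hsm hs0 hh' h1 hz)
  rwa [zero_smul] at this

/-- `T[p(σ) G_q[h]] = p(A) T[G_q[h]]`. -/
theorem T_poly_Gq (hA : Inside s A η) (hc : IsCrv s s1 R) (hR0 : ∀ t, 0 ≤ R t) (hs0 : ∀ t, 0 < s t) {h : ℝ → ℂ}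
    (hh' : Continuous h) {q : ℝ} (h0 : 0 ≤ q) (h1 : q < 1) (p : Polynomial ℂ) :
    T s s1 R A (fun t => p.eval (sig s s1 t) * Gq s s1 R h q t) =
      Polynomial.aeval A p * T s s1 R A (Gq s s1 R h q) :=
  T_poly_mul hA hc (Gq_cont hc hR0 hs0 hh' h0 h1) (Gq_moments hc hR0 hs0 hh' h0 h1) p

end Ops

end Vale.Agent.Lib.P123C.Calc
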