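import Mathlib

/-!
Abstract Doeblin lemma on the Banach space of bounded continuous functions `ℝ →ᵇ ℂ`: if a unital
positive operator splits as `N h = N1 h + a h • 1` with `‖N1‖ ≤ κ < 1`, then `N ^ n` converges in
norm to a positive normalized invariant functional `lam`, with Jensen and Cauchy-Schwarz.
-/

open scoped BoundedContinuousFunction ComplexConjugate

namespace Vale.Agent.Lib.P123C.Doeblin

/-- Bounded continuous complex functions on the line. -/
abbrev B := ℝ →ᵇ ℂ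

/-- Pointwise nonnegativity (real values, nonnegative). -/
def Pos (h : B) : Prop := ∀ t, (h t).im = 0 ∧ 0 ≤ (h t).re

theorem Pos.add {h k : B} (hh : Pos h) (hk : Pos k) : Pos (h + k) := fun t => by
  have h1 := hh t
  have h2 := hk t
  simp only [BoundedContinuousFunction.coe_add, Pi.add_apply, Complex.add_im, Complex.add_re]
  exact ⟨by rw [h1.1, h2.1, add_zero], add_nonneg h1.2 h2.2⟩

theorem Pos.smul_real {h : B} (hh : Pos h) {c : ℝ} (hc : 0 ≤ c) : Pos (((c : ℝ) : ℂ) • h) := fun t => by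
  have h1 := hh t
  simp only [BoundedContinuousFunction.coe_smul, smul_eq_mul, Complex.mul_im, Complex.mul_re,
    Complex.ofReal_re, Complex.ofReal_im]
  exact ⟨by rw [h1.1]; ring, by rw [zero_mul, sub_zero]; exact mul_nonneg hc h1.2⟩

theorem Pos.one : Pos (1 : B) := fun t => by simp

theorem Pos.zero : Pos (0 : B) := fun t => by simp

/-- Squared modulus as an element of `B`. -/
theorem pos_star_mul_self (h : B) : Pos (star h * h) := fun t => by
  have e : (star h * h) t = ((Complex.normSq (h t) : ℝ) : ℂ) := by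
    simp only [BoundedContinuousFunction.coe_mul, Pi.mul_apply, BoundedContinuousFunction.star_apply]
    rw [Complex.star_def, Complex.normSq_eq_conj_mul_self]
  rw [e]
  simp [Complex.normSq_nonneg]

theorem Pos.closed {h : ℕ → B} {u : B} (hh : ∀ n, Pos (h n))
    (hu : Filter.Tendsto h Filter.atTop (nhds u)) : Pos u := by
  intro t
  have hev : Filter.Tendsto (fun n => h n t) Filter.atTop (nhds (u t)) :=
    ((BoundedContinuousFunction.evalCLM ℂ t).continuous.tendsto u).comp hu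
  have h1 : Filter.Tendsto (fun n => (h n t).im) Filter.atTop (nhds (u t).im) :=
    (Complex.continuous_im.tendsto _).comp hev
  have h2 : Filter.Tendsto (fun n => (h n t).re) Filter.atTop (nhds (u t).re) :=
    (Complex.continuous_re.tendsto _).comp hev
  constructor
  · have : (fun n => (h n t).im) = fun _ => (0 : ℝ) := funext fun n => (hh n t).1
    rw [this] at h1
    exact (tendsto_nhds_unique h1 tendsto_const_nhds)
  · exact ge_of_tendsto' h2 fun n => (hh n t).2

theorem norm_one_B : ‖(1 : B)‖ = 1 := norm_one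

/-- The splitting data of a Doeblin operator. -/
structure Data where
  N : B →L[ℂ] B
  N1 : B →L[ℂ] B
  a : B →L[ℂ] ℂ
  κ : ℝ
  hκ0 : 0 ≤ κ
  hκ1 : κ < 1
  hN : ∀ h, N h = N1 h + (a h) • (1 : B)
  hN1norm : ‖N1‖ ≤ κ
  hN1one : N1 1 = ((κ : ℝ) : ℂ) • (1 : B)
  ha1 : a 1 = ((1 - κ : ℝ) : ℂ)
  hanorm : ‖a‖ ≤ 1 - κ
  hN1pos : ∀ h, Pos h → Pos (N1 h)
  hapos : ∀ h, Pos h → (a h).im = 0 ∧ 0 ≤ (a h).re
  hN1star : ∀ h, N1 (star h) = star (N1 h)
  hastar : ∀ h, a (star h) = conj (a h)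

namespace Data

variable (D : Data)

theorem κlt : 0 < 1 - D.κ := by linarith [D.hκ1]

theorem N1_norm_lt : ‖D.N1‖ < 1 := lt_of_le_of_lt D.hN1norm D.hκ1

/-- The resolvent `(1 - N1)⁻¹` as a Neumann series. -/
noncomputable def Res : B →L[ℂ] B := ∑' n : ℕ, D.N1 ^ n

theorem one_sub_mul_Res : (1 - D.N1) * D.Res = 1 := mul_neg_geom_series D.N1 D.N1_norm_lt

theorem Res_mul_one_sub : D.Res * (1 - D.N1) = 1 := geom_series_mul_neg D.N1 D.N1_norm_lt

theorem Res_sub (h : B) : D.Res h - D.N1 (D.Res h) = h :=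
  congrArg (fun T : B →L[ℂ] B => T h) D.one_sub_mul_Res

theorem Res_apply_eq (h : B) : D.Res h = h + D.N1 (D.Res h) :=
  sub_eq_iff_eq_add.1 (D.Res_sub h)

theorem Res_map_sub (h : B) : D.Res (h - D.N1 h) = h :=
  congrArg (fun T : B →L[ℂ] B => T h) D.Res_mul_one_sub

theorem Res_apply_eq' (h : B) : D.Res h = h + D.Res (D.N1 h) := by
  have e := D.Res_map_sub h
  rw [map_sub] at e
  exact sub_eq_iff_eq_add.1 e

/-- Uniqueness of solutions of `u = h + N1 u`. -/
theorem Res_unique (h u : B) (hu : u = h + D.N1 u) : D.Res h = u := by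
  have e := D.Res_map_sub u
  have h2 : u - D.N1 u = h := by
    rw [sub_eq_iff_eq_add]
    exact hu
  rwa [h2] at e

theorem norm_Res_le (h : B) : ‖D.Res h‖ ≤ ‖h‖ / (1 - D.κ) := by
  rw [le_div_iff₀ D.κlt]
  have h1 : ‖D.Res h‖ ≤ ‖h‖ + D.κ * ‖D.Res h‖ := by
    calc ‖D.Res h‖ = ‖h + D.N1 (D.Res h)‖ := by rw [← D.Res_apply_eq]
      _ ≤ ‖h‖ + ‖D.N1 (D.Res h)‖ := norm_add_le _ _
      _ ≤ ‖h‖ + ‖D.N1‖ * ‖D.Res h‖ := by gcongr; exact D.N1.le_opNorm _
      _ ≤ ‖h‖ + D.κ * ‖D.Res h‖ := by gcongr; exact D.hN1norm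
  linarith

theorem Pos_Res {h : B} (hh : Pos h) : Pos (D.Res h) := by
  set u := D.Res h with hu
  let v : ℕ → B := fun n => Nat.rec (0 : B) (fun _ w => h + D.N1 w) n
  have hvpos : ∀ n, Pos (v n) := by
    intro n
    induction n with
    | zero => exact Pos.zero
    | succ n ih => exact hh.add (D.hN1pos _ ih)
  have hvclose : ∀ n, ‖v n - u‖ ≤ D.κ ^ n * ‖u‖ := by
    intro n
    induction n with
    | zero => simp [v]
    | succ n ih =>
      have e : v (n + 1) - u = D.N1 (v n - u) := by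
        have h1 : v (n + 1) = h + D.N1 (v n) := rfl
        have h2 : u = h + D.N1 u := D.Res_apply_eq h
        rw [h1, map_sub]
        nth_rewrite 1 [h2]
        abel
      rw [e]
      calc ‖D.N1 (v n - u)‖ ≤ ‖D.N1‖ * ‖v n - u‖ := D.N1.le_opNorm _
        _ ≤ D.κ * (D.κ ^ n * ‖u‖) := mul_le_mul D.hN1norm ih (norm_nonneg _) D.hκ0
        _ = D.κ ^ (n + 1) * ‖u‖ := by ring
  refine Pos.closed hvpos ?_
  rw [tendsto_iff_norm_sub_tendsto_zero]
  refine squeeze_zero (fun n => norm_nonneg _) hvclose ?_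
  have := (tendsto_pow_atTop_nhds_zero_of_lt_one D.hκ0 D.hκ1).mul_const ‖u‖
  simpa using this

theorem Res_star (h : B) : D.Res (star h) = star (D.Res h) := by
  refine D.Res_unique _ _ ?_
  rw [D.hN1star, ← star_add, ← D.Res_apply_eq]

theorem Res_one : D.Res 1 = (((1 - D.κ : ℝ) : ℂ))⁻¹ • (1 : B) := by
  refine D.Res_unique _ _ ?_
  have hne : ((1 - D.κ : ℝ) : ℂ) ≠ 0 := by exact_mod_cast D.κlt.ne'
  rw [map_smul, D.hN1one, smul_smul, ← sub_eq_zero]
  have : (((1 - D.κ : ℝ) : ℂ))⁻¹ • (1 : B) - (1 + (((1 - D.κ : ℝ) : ℂ)⁻¹ * ((D.κ : ℝ) : ℂ)) • (1 : B))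
      = (((1 - D.κ : ℝ) : ℂ)⁻¹ - 1 - ((1 - D.κ : ℝ) : ℂ)⁻¹ * ((D.κ : ℝ) : ℂ)) • (1 : B) := by
    rw [sub_smul, sub_smul, one_smul]
    abel
  rw [this]
  have h2 : ((1 - D.κ : ℝ) : ℂ)⁻¹ - 1 - ((1 - D.κ : ℝ) : ℂ)⁻¹ * ((D.κ : ℝ) : ℂ) = 0 := by
    push_cast at hne ⊢
    field_simp
    ring
  rw [h2, zero_smul]

/-- The limit functional `a ∘ (1 - N1)⁻¹`. -/
noncomputable def lam : B →L[ℂ] ℂ := D.a.comp D.Res

theorem lam_apply (h : B) : D.lam h = D.a (D.Res h) := rfl

theorem lam_one : D.lam 1 = 1 := by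
  rw [lam_apply, D.Res_one, map_smul, D.ha1, smul_eq_mul]
  have hne : ((1 - D.κ : ℝ) : ℂ) ≠ 0 := by exact_mod_cast D.κlt.ne'
  exact inv_mul_cancel₀ hne

theorem norm_lam_apply_le (h : B) : ‖D.lam h‖ ≤ ‖h‖ := by
  rw [lam_apply]
  calc ‖D.a (D.Res h)‖ ≤ ‖D.a‖ * ‖D.Res h‖ := D.a.le_opNorm _
    _ ≤ (1 - D.κ) * (‖h‖ / (1 - D.κ)) := by
        gcongr
        · exact D.κlt.le
        · exact D.hanorm
        · exact D.norm_Res_le h
    _ = ‖h‖ := by field_simp [D.κlt.ne']

theorem lam_star (h : B) : D.lam (star h) = conj (D.lam h) := by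
  rw [lam_apply, D.Res_star, D.hastar, lam_apply]

theorem lam_pos {h : B} (hh : Pos h) : (D.lam h).im = 0 ∧ 0 ≤ (D.lam h).re :=
  D.hapos _ (D.Pos_Res hh)

theorem N_one : D.N 1 = 1 := by
  rw [D.hN, D.hN1one, D.ha1, ← add_smul]
  push_cast
  simp

theorem lam_N (h : B) : D.lam (D.N h) = D.lam h := by
  rw [D.hN, map_add, map_smul, D.lam_one, smul_eq_mul, mul_one]
  have e : D.lam h = D.a h + D.lam (D.N1 h) := by
    rw [lam_apply, lam_apply, D.Res_apply_eq' h, map_add]
  rw [e]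
  ring

/-- `a ≤ lam` on nonnegative functions. -/
theorem a_le_lam {h : B} (hh : Pos h) : (D.a h).re ≤ (D.lam h).re := by
  have e : D.lam h = D.a h + D.lam (D.N1 h) := by
    rw [lam_apply, lam_apply, D.Res_apply_eq' h, map_add]
  rw [e, Complex.add_re]
  have := (D.lam_pos (D.hN1pos h hh)).2
  linarith

theorem N_Pos {h : B} (hh : Pos h) : Pos (D.N h) := by
  rw [D.hN]
  refine (D.hN1pos h hh).add ?_
  intro t
  have h1 := D.hapos h hh
  simp only [BoundedContinuousFunction.coe_smul, BoundedContinuousFunction.coe_one, Pi.one_apply,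
    smul_eq_mul, mul_one]
  exact h1

theorem N_star (h : B) : D.N (star h) = star (D.N h) := by
  rw [D.hN, D.hN, D.hN1star, D.hastar, star_add, star_smul, star_one]
  rfl

/-- One contraction step towards constants. -/
theorem step (u : B) (c : ℂ) : ∃ c' : ℂ, ‖D.N u - c' • (1 : B)‖ ≤ D.κ * ‖u - c • (1 : B)‖ := by
  refine ⟨c + D.a (u - c • 1), ?_⟩
  have e : D.N u - (c + D.a (u - c • 1)) • (1 : B) = D.N1 (u - c • 1) := by
    have h1 : D.N u = D.N (u - c • 1) + c • (1 : B) := by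
      rw [map_sub, map_smul, D.N_one]
      abel
    rw [h1, D.hN, add_smul]
    abel
  rw [e]
  calc ‖D.N1 (u - c • 1)‖ ≤ ‖D.N1‖ * ‖u - c • (1 : B)‖ := D.N1.le_opNorm _
    _ ≤ _ := by gcongr; exact D.hN1norm

theorem exists_const_pow (h : B) (n : ℕ) :
    ∃ c : ℂ, ‖(D.N ^ n) h - c • (1 : B)‖ ≤ D.κ ^ n * ‖h‖ := by
  induction n with
  | zero => exact ⟨0, by simp⟩
  | succ n ih =>
    obtain ⟨c, hc⟩ := ih
    obtain ⟨c', hc'⟩ := D.step ((D.N ^ n) h) c
    refine ⟨c', ?_⟩
    rw [pow_succ']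
    calc ‖(D.N * D.N ^ n) h - c' • (1 : B)‖ ≤ D.κ * ‖(D.N ^ n) h - c • (1 : B)‖ := hc'
      _ ≤ D.κ * (D.κ ^ n * ‖h‖) := by gcongr; exact D.hκ0
      _ = D.κ ^ (n + 1) * ‖h‖ := by ring

theorem lam_pow (h : B) (n : ℕ) : D.lam ((D.N ^ n) h) = D.lam h := by
  induction n with
  | zero => simp
  | succ n ih =>
    rw [pow_succ']
    exact (D.lam_N _).trans ih

/-- Geometric convergence of the iterates to the constant `lam h`. -/
theorem pow_close (h : B) (n : ℕ) : ‖(D.N ^ n) h - D.lam h • (1 : B)‖ ≤ 2 * D.κ ^ n * ‖h‖ := by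
  obtain ⟨c, hc⟩ := D.exists_const_pow h n
  have e : c - D.lam h = D.lam (c • (1 : B) - (D.N ^ n) h) := by
    rw [map_sub, map_smul, D.lam_one, D.lam_pow, smul_eq_mul, mul_one]
  have h1 : ‖c - D.lam h‖ ≤ D.κ ^ n * ‖h‖ := by
    rw [e]
    refine (D.norm_lam_apply_le _).trans ?_
    rw [norm_sub_rev]
    exact hc
  have h2 : (D.N ^ n) h - D.lam h • (1 : B) = ((D.N ^ n) h - c • (1 : B)) + (c - D.lam h) • (1 : B) := by
    rw [sub_smul]
    abel
  rw [h2]
  calc _ ≤ ‖(D.N ^ n) h - c • (1 : B)‖ + ‖(c - D.lam h) • (1 : B)‖ := norm_add_le _ _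
    _ ≤ D.κ ^ n * ‖h‖ + D.κ ^ n * ‖h‖ := by
        gcongr
        rw [norm_smul, norm_one_B, mul_one]
        exact h1
    _ = _ := by ring

/-- Monotonicity of `lam` on real valued functions. -/
theorem lam_mono {u v : B} (h : Pos (v - u)) : (D.lam u).re ≤ (D.lam v).re := by
  have := (D.lam_pos h).2
  rw [map_sub, Complex.sub_re] at this
  linarith

/-- Pointwise Jensen inequality `|N h|² ≤ N |h|²`. -/
theorem jensen_pointwise (h : B) (t : ℝ) :
    Complex.normSq (D.N h t) ≤ (D.N (star h * h) t).re := by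
  set c : ℂ := D.N h t with hc
  have hp := D.N_Pos (pos_star_mul_self (h - c • (1 : B)))
  have e : star (h - c • (1 : B)) * (h - c • (1 : B))
      = star h * h - (conj c) • h - c • star h + ((Complex.normSq c : ℝ) : ℂ) • (1 : B) := by
    ext s
    simp only [BoundedContinuousFunction.coe_mul, Pi.mul_apply, BoundedContinuousFunction.star_apply,
      BoundedContinuousFunction.coe_sub, Pi.sub_apply, BoundedContinuousFunction.coe_smul,
      smul_eq_mul, BoundedContinuousFunction.coe_one, Pi.one_apply, mul_one, BoundedContinuousFunction.coe_add,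
      Pi.add_apply, star_sub, Complex.star_def, Complex.normSq_eq_conj_mul_self]
    ring
  rw [e, map_add, map_sub, map_sub, map_smul, map_smul, map_smul, D.N_star, D.N_one] at hp
  have h3 := (hp t).2
  simp only [BoundedContinuousFunction.coe_add, BoundedContinuousFunction.coe_sub,
    BoundedContinuousFunction.coe_smul, Pi.add_apply, Pi.sub_apply, smul_eq_mul,
    BoundedContinuousFunction.star_apply, BoundedContinuousFunction.coe_one, Pi.one_apply, mul_one,
    Complex.add_re, Complex.sub_re, Complex.ofReal_re] at h3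
  rw [← hc, Complex.star_def] at h3
  have h4 : (conj c * c).re = Complex.normSq c := by
    rw [← Complex.normSq_eq_conj_mul_self, Complex.ofReal_re]
  have h5 : (c * conj c).re = Complex.normSq c := by
    rw [mul_comm, h4]
  rw [h4, h5] at h3
  linarith

/-- Integrated Jensen inequality. -/
theorem lam_jensen (h : B) :
    (D.lam (star (D.N h) * D.N h)).re ≤ (D.lam (star h * h)).re := by
  rw [← D.lam_N (star h * h)]
  refine D.lam_mono fun t => ?_
  have hp := D.N_Pos (pos_star_mul_self h) t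
  have e : (star (D.N h) * D.N h) t = ((Complex.normSq (D.N h t) : ℝ) : ℂ) := by
    simp only [BoundedContinuousFunction.coe_mul, Pi.mul_apply, BoundedContinuousFunction.star_apply]
    rw [Complex.star_def, Complex.normSq_eq_conj_mul_self]
  simp only [BoundedContinuousFunction.coe_sub, Pi.sub_apply, e, Complex.sub_im, Complex.sub_re,
    Complex.ofReal_im, Complex.ofReal_re]
  exact ⟨by rw [hp.1, sub_zero], sub_nonneg.2 (D.jensen_pointwise h t)⟩

/-- `lam |h|²` is real and nonnegative. -/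
theorem lam_normSq (h : B) : (D.lam (star h * h)).im = 0 ∧ 0 ≤ (D.lam (star h * h)).re :=
  D.lam_pos (pos_star_mul_self h)

/-- Elementary quadratic lemma behind Cauchy-Schwarz. -/
theorem quad_lemma (A E : ℝ) (b : ℂ) (h : ∀ c : ℂ, 0 ≤ A - 2 * (conj c * b).re + Complex.normSq c * E)
    (hE : 0 ≤ E) : Complex.normSq b ≤ A * E := by
  have hA : 0 ≤ A := by simpa using h 0
  rcases hE.eq_or_lt with hE0 | hE0
  · -- `E = 0`: linear in `t`, so `b = 0`.
    by_contra hcon
    push Not at hcon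
    rw [← hE0, mul_zero] at hcon
    have h1 := h (((A + 1) / (2 * Complex.normSq b) : ℝ) • b)
    have e : (conj (((A + 1) / (2 * Complex.normSq b) : ℝ) • b) * b).re = (A + 1) / 2 := by
      rw [Complex.real_smul, map_mul, Complex.conj_ofReal, mul_assoc,
        ← Complex.normSq_eq_conj_mul_self, ← Complex.ofReal_mul, Complex.ofReal_re]
      field_simp
    rw [e, ← hE0, mul_zero] at h1
    linarith
  · have h1 := h ((E⁻¹ : ℝ) • b)
    have e : (conj ((E⁻¹ : ℝ) • b) * b).re = E⁻¹ * Complex.normSq b := by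
      rw [Complex.real_smul, map_mul, Complex.conj_ofReal, mul_assoc,
        ← Complex.normSq_eq_conj_mul_self, ← Complex.ofReal_mul, Complex.ofReal_re]
    have e2 : Complex.normSq ((E⁻¹ : ℝ) • b) * E = E⁻¹ * Complex.normSq b := by
      rw [Complex.real_smul, Complex.normSq_mul, Complex.normSq_ofReal]
      field_simp
    rw [e, e2] at h1
    have h2 : E⁻¹ * Complex.normSq b ≤ A := by linarith
    have h3 := mul_le_mul_of_nonneg_right h2 hE0.le
    have h4 : E⁻¹ * Complex.normSq b * E = Complex.normSq b := by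
      field_simp
    linarith

/-- Cauchy-Schwarz for the positive functional `lam`: `|lam (k̄ h)|² ≤ lam |h|² lam |k|²`. -/
theorem lam_cauchy_schwarz (h k : B) :
    Complex.normSq (D.lam (star k * h)) ≤ (D.lam (star h * h)).re * (D.lam (star k * k)).re := by
  refine quad_lemma _ _ _ (fun c => ?_) (D.lam_normSq k).2
  have hp := (D.lam_normSq (h - c • k)).2
  have e : star (h - c • k) * (h - c • k) = star h * h - c • (star h * k) - (conj c) • (star k * h)
      + ((Complex.normSq c : ℝ) : ℂ) • (star k * k) := by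
    ext s
    simp only [BoundedContinuousFunction.coe_mul, Pi.mul_apply, BoundedContinuousFunction.star_apply,
      BoundedContinuousFunction.coe_sub, Pi.sub_apply, BoundedContinuousFunction.coe_smul,
      smul_eq_mul, BoundedContinuousFunction.coe_add,
      Pi.add_apply, star_sub, star_mul', Complex.star_def, Complex.normSq_eq_conj_mul_self]
    ring
  have e2 : star h * k = star (star k * h) := by
    rw [star_mul, star_star]
  rw [e, e2, map_add, map_sub, map_sub, map_smul, map_smul, map_smul, D.lam_star] at hp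
  simp only [smul_eq_mul, Complex.add_re, Complex.sub_re, Complex.re_ofReal_mul] at hp
  have e3 : (c * conj (D.lam (star k * h))).re = (conj c * D.lam (star k * h)).re := by
    rw [← Complex.conj_re, map_mul, Complex.conj_conj]
  rw [e3] at hp
  linarith

/-- The resolvent of `-N1`. -/
noncomputable def ResP : B →L[ℂ] B := ∑' n : ℕ, (-D.N1) ^ n

theorem neg_N1_norm_lt : ‖-D.N1‖ < 1 := by rw [norm_neg]; exact D.N1_norm_lt

theorem ResP_add (h : B) : D.ResP h + D.N1 (D.ResP h) = h := by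
  have e := congrArg (fun T : B →L[ℂ] B => T h) (mul_neg_geom_series (-D.N1) D.neg_N1_norm_lt)
  simpa [ResP, sub_neg_eq_add] using e

theorem ResP_norm_le (h : B) : ‖D.ResP h‖ ≤ ‖h‖ / (1 - D.κ) := by
  rw [le_div_iff₀ D.κlt]
  have e := D.ResP_add h
  have h1 : ‖D.ResP h‖ ≤ ‖h‖ + D.κ * ‖D.ResP h‖ := by
    calc ‖D.ResP h‖ = ‖h - D.N1 (D.ResP h)‖ := congrArg norm (eq_sub_of_add_eq e)
      _ ≤ ‖h‖ + ‖D.N1 (D.ResP h)‖ := norm_sub_le _ _
      _ ≤ ‖h‖ + ‖D.N1‖ * ‖D.ResP h‖ := by gcongr; exact D.N1.le_opNorm _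
      _ ≤ ‖h‖ + D.κ * ‖D.ResP h‖ := by gcongr; exact D.hN1norm
  linarith

/-- A solution of `ψ + N ψ = α`: `ψ = (1 + N1)⁻¹ α - (a ((1 + N1)⁻¹ α) / 2) • 1`. -/
noncomputable def solve (α : B) : B := D.ResP α - (D.a (D.ResP α) / 2) • (1 : B)

theorem solve_add_N (α : B) : D.solve α + D.N (D.solve α) = α := by
  set u := D.ResP α with hu
  have h1 : D.N (D.solve α) = D.N u - (D.a u / 2) • (1 : B) := by
    rw [solve, map_sub, map_smul, D.N_one]
  rw [h1, D.hN, solve]
  have h2 : u + D.N1 u = α := D.ResP_add α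
  have h3 : u - (D.a u / 2) • (1 : B) + (D.N1 u + D.a u • (1 : B) - (D.a u / 2) • (1 : B))
      = (u + D.N1 u) + (D.a u - D.a u / 2 - D.a u / 2) • (1 : B) := by
    rw [sub_smul, sub_smul]
    abel
  rw [h3, h2]
  have h4 : D.a u - D.a u / 2 - D.a u / 2 = 0 := by ring
  rw [h4, zero_smul, add_zero]

theorem solve_norm_le (α : B) : ‖D.solve α‖ ≤ 2 * ‖α‖ / (1 - D.κ) := by
  have h1 := D.ResP_norm_le α
  have h2 : ‖D.a (D.ResP α)‖ ≤ (1 - D.κ) * ‖D.ResP α‖ :=
    (D.a.le_opNorm _).trans (by gcongr; exact D.hanorm)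
  have h3 : ‖D.a (D.ResP α)‖ ≤ ‖α‖ := by
    calc _ ≤ (1 - D.κ) * (‖α‖ / (1 - D.κ)) := h2.trans (by gcongr; exact D.κlt.le)
      _ = ‖α‖ := by field_simp [D.κlt.ne']
  have h4 : ‖(D.a (D.ResP α) / 2) • (1 : B)‖ ≤ ‖α‖ / 2 := by
    rw [norm_smul, norm_one_B, mul_one, norm_div]
    simpa using div_le_div_of_nonneg_right h3 (by norm_num : (0 : ℝ) ≤ 2)
  have h5 : ‖α‖ / 2 ≤ ‖α‖ / (1 - D.κ) := by
    apply div_le_div_of_nonneg_left (norm_nonneg _) D.κlt
    linarith [D.hκ0]
  calc ‖D.solve α‖ ≤ ‖D.ResP α‖ + ‖(D.a (D.ResP α) / 2) • (1 : B)‖ := norm_sub_le _ _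
    _ ≤ ‖α‖ / (1 - D.κ) + ‖α‖ / (1 - D.κ) := add_le_add h1 (h4.trans h5)
    _ = _ := by ring

end Data

end Vale.Agent.Lib.P123C.Doeblin
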