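import Mathlib

/-!
# Doeblin functional for a Markov kernel on the circle (route of helper89, module LAM)

Raw data: a kernel `n t0 t`, with `c1 ≤ n t0 t` almost everywhere on `(0, 2π]`, mass one, mapping
bounded continuous functions to bounded continuous functions.  Then `N = N1 + a(·) 1`, with
`a h = c1 ∫ h`, `‖N1‖ ≤ κ = 1 - 2π c1 < 1`, and `lam = a ∘ (1 - N1)⁻¹` is the unique invariant
functional.
-/

open MeasureTheory Real Set Filter Topology
open scoped BoundedContinuousFunction Interval ComplexConjugate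

namespace Vale.Agent.Lib.P123C.Lam

/-- The Banach algebra of bounded continuous functions (periodic ones form a closed subalgebra). -/
abbrev B := ℝ →ᵇ ℂ

/-- Raw kernel hypotheses. -/
structure Kernel (n : ℝ → ℝ → ℝ) (c1 : ℝ) : Prop where
  c1_pos : 0 < c1
  int : ∀ t0, IntervalIntegrable (n t0) volume 0 (2 * π)
  low : ∀ t0, ∀ᵐ t ∂volume, t ∈ Ioc 0 (2 * π) → c1 ≤ n t0 t
  mass : ∀ t0, ∫ t in (0 : ℝ)..(2 * π), n t0 t = 1
  cont : ∀ h : B, Continuous fun t0 => ∫ t in (0 : ℝ)..(2 * π), (n t0 t : ℂ) * h t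

/-- The contraction constant. -/
noncomputable def kap (c1 : ℝ) : ℝ := 1 - 2 * π * c1

/-- Nonnegative (real) complex number. -/
def NonnegC (z : ℂ) : Prop := 0 ≤ z.re ∧ z.im = 0

/-- Nonnegative (real valued) function. -/
def IsNonneg (h : B) : Prop := ∀ t, NonnegC (h t)

theorem two_pi_nonneg : (0 : ℝ) ≤ 2 * π := by positivity

section integrals

variable {n : ℝ → ℝ → ℝ} {c1 : ℝ}

theorem int_nonneg_of_ae {f : ℝ → ℝ} (hf : ∀ᵐ t ∂volume, t ∈ Ioc 0 (2 * π) → 0 ≤ f t) :
    0 ≤ ∫ t in (0 : ℝ)..(2 * π), f t := by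
  rw [intervalIntegral.integral_of_le two_pi_nonneg]
  apply integral_nonneg_of_ae
  exact (ae_restrict_iff' measurableSet_Ioc).2 hf

theorem Kernel.intC (K : Kernel n c1) (t0 : ℝ) :
    IntervalIntegrable (fun t => (n t0 t : ℂ)) volume 0 (2 * π) :=
  ⟨(K.int t0).1.ofReal, (K.int t0).2.ofReal⟩

theorem Kernel.int_mul (K : Kernel n c1) (t0 : ℝ) (h : B) :
    IntervalIntegrable (fun t => (n t0 t : ℂ) * h t) volume 0 (2 * π) :=
  (K.intC t0).mul_continuousOn h.continuous.continuousOn

theorem intB (h : B) : IntervalIntegrable (fun t => h t) volume 0 (2 * π) :=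
  h.continuous.intervalIntegrable _ _

theorem Kernel.low_nonneg (K : Kernel n c1) (t0 : ℝ) :
    ∀ᵐ t ∂volume, t ∈ Ioc 0 (2 * π) → 0 ≤ n t0 t - c1 := by
  filter_upwards [K.low t0] with t ht ht'
  linarith [ht ht']

theorem Kernel.int_sub (K : Kernel n c1) (t0 : ℝ) :
    ∫ t in (0 : ℝ)..(2 * π), (n t0 t - c1) = kap c1 := by
  rw [intervalIntegral.integral_sub (K.int t0) (by simp), K.mass t0]
  simp [kap]

theorem Kernel.kap_nonneg (K : Kernel n c1) : 0 ≤ kap c1 := by
  rw [← K.int_sub 0]
  exact int_nonneg_of_ae (K.low_nonneg 0)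

theorem Kernel.kap_lt_one (K : Kernel n c1) : kap c1 < 1 := by
  have := K.c1_pos
  have hp := Real.pi_pos
  unfold kap
  nlinarith [mul_pos hp this]

/-- Integral bound for a kernel with nonnegative part. -/
theorem Kernel.norm_int_sub_le (K : Kernel n c1) (t0 : ℝ) (h : B) :
    ‖∫ t in (0 : ℝ)..(2 * π), ((n t0 t - c1 : ℝ) : ℂ) * h t‖ ≤ kap c1 * ‖h‖ := by
  have hI : IntervalIntegrable (fun t => (n t0 t - c1) * ‖h‖) volume 0 (2 * π) :=
    ((K.int t0).sub (by simp)).mul_const _
  have := intervalIntegral.norm_integral_le_of_norm_le (f := fun t => ((n t0 t - c1 : ℝ) : ℂ) * h t)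
    (g := fun t => (n t0 t - c1) * ‖h‖) two_pi_nonneg ?_ hI
  · refine this.trans (le_of_eq ?_)
    rw [intervalIntegral.integral_mul_const, K.int_sub]
  · filter_upwards [K.low_nonneg t0] with t ht ht'
    have h0 := ht ht'
    rw [norm_mul, Complex.norm_real, Real.norm_of_nonneg h0]
    exact mul_le_mul_of_nonneg_left (h.norm_coe_le_norm t) h0

theorem Kernel.int_split (K : Kernel n c1) (t0 : ℝ) (h : B) :
    ∫ t in (0 : ℝ)..(2 * π), (n t0 t : ℂ) * h t =
      (∫ t in (0 : ℝ)..(2 * π), ((n t0 t - c1 : ℝ) : ℂ) * h t) + c1 * ∫ t in (0 : ℝ)..(2 * π), h t := by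
  rw [← intervalIntegral.integral_const_mul]
  rw [← intervalIntegral.integral_add]
  · congr 1
    funext t
    push_cast
    ring
  · simp only [Complex.ofReal_sub]
    have : (fun t => ((n t0 t : ℂ) - c1) * h t) = fun t => (n t0 t : ℂ) * h t - c1 * h t := by
      funext t; ring
    rw [this]
    exact (K.int_mul t0 h).sub ((intB h).const_mul _)
  · exact (intB h).const_mul _

end integrals

section operators

variable {n : ℝ → ℝ → ℝ} {c1 : ℝ}

theorem pow_succ_apply (T : B →L[ℂ] B) (k : ℕ) (h : B) : (T ^ (k + 1)) h = T ((T ^ k) h) := by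
  rw [pow_succ']
  rfl

/-- The functional `a h = c1 ∫ h`. -/
noncomputable def aaFun (c1 : ℝ) : B →ₗ[ℂ] ℂ where
  toFun h := c1 * ∫ t in (0 : ℝ)..(2 * π), h t
  map_add' f g := by
    simp only [BoundedContinuousFunction.coe_add, Pi.add_apply]
    rw [intervalIntegral.integral_add (intB f) (intB g)]
    ring
  map_smul' c f := by
    simp only [BoundedContinuousFunction.coe_smul, smul_eq_mul, RingHom.id_apply]
    rw [intervalIntegral.integral_const_mul]
    ring

theorem norm_aaFun_le (hc : 0 < c1) (h : B) :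
    ‖aaFun c1 h‖ ≤ (2 * π * c1) * ‖h‖ := by
  change ‖(c1 : ℂ) * ∫ t in (0 : ℝ)..(2 * π), h t‖ ≤ _
  rw [norm_mul, Complex.norm_real, Real.norm_of_nonneg hc.le]
  have := intervalIntegral.norm_integral_le_of_norm_le_const (a := 0) (b := 2 * π) (f := fun t => h t)
    (C := ‖h‖) (fun t _ => h.norm_coe_le_norm t)
  rw [sub_zero, abs_of_nonneg two_pi_nonneg] at this
  nlinarith

/-- The functional `a` as a continuous linear map. -/
noncomputable def aa (hc : 0 < c1) : B →L[ℂ] ℂ :=
  (aaFun c1).mkContinuous (2 * π * c1) (norm_aaFun_le hc)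

theorem aa_apply (hc : 0 < c1) (h : B) : aa hc h = c1 * ∫ t in (0 : ℝ)..(2 * π), h t := rfl

/-- `N h` as a bounded continuous function. -/
noncomputable def NFun (K : Kernel n c1) (h : B) : B :=
  BoundedContinuousFunction.ofNormedAddCommGroup
    (fun t0 => ∫ t in (0 : ℝ)..(2 * π), (n t0 t : ℂ) * h t) (K.cont h) ‖h‖ (by
      intro t0
      have hm := K.int_split t0 h
      have h1 := K.norm_int_sub_le t0 h
      have h2 := norm_aaFun_le K.c1_pos h
      change _ ≤ _ at h2
      rw [hm]
      refine (norm_add_le _ _).trans ?_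
      have h3 : ‖(c1 : ℂ) * ∫ t in (0 : ℝ)..(2 * π), h t‖ ≤ (2 * π * c1) * ‖h‖ := h2
      have : kap c1 * ‖h‖ + (2 * π * c1) * ‖h‖ = ‖h‖ := by unfold kap; ring
      linarith)

theorem NFun_apply (K : Kernel n c1) (h : B) (t0 : ℝ) :
    NFun K h t0 = ∫ t in (0 : ℝ)..(2 * π), (n t0 t : ℂ) * h t := rfl

/-- The Markov operator `N`. -/
noncomputable def NN (K : Kernel n c1) : B →L[ℂ] B :=
  LinearMap.mkContinuous
    { toFun := NFun K
      map_add' := fun f g => by
        ext t0
        simp only [NFun_apply, BoundedContinuousFunction.coe_add, Pi.add_apply, mul_add]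
        exact intervalIntegral.integral_add (K.int_mul t0 f) (K.int_mul t0 g)
      map_smul' := fun c f => by
        ext t0
        simp only [NFun_apply, BoundedContinuousFunction.coe_smul, smul_eq_mul, RingHom.id_apply]
        rw [← intervalIntegral.integral_const_mul]
        congr 1
        funext t
        ring }
    1 (fun h => by
      rw [one_mul]
      change ‖NFun K h‖ ≤ ‖h‖
      exact (BoundedContinuousFunction.norm_ofNormedAddCommGroup_le _ (norm_nonneg _) _))

theorem NN_apply (K : Kernel n c1) (h : B) (t0 : ℝ) :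
    NN K h t0 = ∫ t in (0 : ℝ)..(2 * π), (n t0 t : ℂ) * h t := rfl

/-- `N1 = N - a(·) 1`. -/
noncomputable def N1 (K : Kernel n c1) : B →L[ℂ] B :=
  NN K - (aa K.c1_pos).smulRight (1 : B)

theorem N1_apply (K : Kernel n c1) (h : B) (t0 : ℝ) :
    N1 K h t0 = ∫ t in (0 : ℝ)..(2 * π), ((n t0 t - c1 : ℝ) : ℂ) * h t := by
  simp only [N1, ContinuousLinearMap.sub_apply, ContinuousLinearMap.smulRight_apply,
    BoundedContinuousFunction.coe_sub, Pi.sub_apply, BoundedContinuousFunction.coe_smul,
    NN_apply, aa_apply, K.int_split t0 h, BoundedContinuousFunction.coe_one, Pi.one_apply,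
    smul_eq_mul, mul_one]
  ring

theorem norm_N1_apply_le (K : Kernel n c1) (h : B) : ‖N1 K h‖ ≤ kap c1 * ‖h‖ := by
  rw [BoundedContinuousFunction.norm_le (mul_nonneg K.kap_nonneg (norm_nonneg _))]
  intro t0
  rw [N1_apply]
  exact K.norm_int_sub_le t0 h

theorem norm_N1_lt_one (K : Kernel n c1) : ‖N1 K‖ < 1 :=
  lt_of_le_of_lt (ContinuousLinearMap.opNorm_le_bound _ K.kap_nonneg (norm_N1_apply_le K)) K.kap_lt_one

/-- The resolvent `G = (1 - N1)⁻¹`. -/
noncomputable def GG (K : Kernel n c1) : B →L[ℂ] B := ∑' k : ℕ, (N1 K) ^ k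

theorem GG_mul (K : Kernel n c1) : GG K * (1 - N1 K) = 1 := by
  unfold GG
  exact geom_series_mul_neg (N1 K) (norm_N1_lt_one K)

theorem mul_GG (K : Kernel n c1) : (1 - N1 K) * GG K = 1 := by
  unfold GG
  exact mul_neg_geom_series (N1 K) (norm_N1_lt_one K)

theorem GG_eq (K : Kernel n c1) (h : B) : GG K h = h + N1 K (GG K h) := by
  have h1 := congrArg (fun T : B →L[ℂ] B => T h) (mul_GG K)
  have h2 : GG K h - N1 K (GG K h) = h := h1
  exact sub_eq_iff_eq_add.mp h2

theorem GG_eq' (K : Kernel n c1) (h : B) : GG K h = h + GG K (N1 K h) := by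
  have h1 := congrArg (fun T : B →L[ℂ] B => T h) (GG_mul K)
  have h2 : GG K (h - N1 K h) = h := h1
  rw [map_sub] at h2
  exact sub_eq_iff_eq_add.mp h2

theorem norm_GG_le (K : Kernel n c1) (h : B) : (1 - kap c1) * ‖GG K h‖ ≤ ‖h‖ := by
  have h1 := GG_eq K h
  have h2 : ‖GG K h‖ ≤ ‖h‖ + kap c1 * ‖GG K h‖ := by
    calc ‖GG K h‖ = ‖h + N1 K (GG K h)‖ := by rw [← h1]
      _ ≤ ‖h‖ + ‖N1 K (GG K h)‖ := norm_add_le _ _
      _ ≤ _ := by linarith [norm_N1_apply_le K (GG K h)]
  linarith

theorem hasSum_GG (K : Kernel n c1) (h : B) :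
    HasSum (fun k : ℕ => ((N1 K) ^ k) h) (GG K h) := by
  have hs : Summable (fun k : ℕ => (N1 K) ^ k) :=
    summable_geometric_of_norm_lt_one (x := N1 K) (norm_N1_lt_one K)
  have h2 : HasSum (fun k : ℕ => (N1 K) ^ k) (GG K) := hs.hasSum
  have h3 := (ContinuousLinearMap.apply ℂ (ℝ →ᵇ ℂ) h).hasSum h2
  exact h3

/-- The invariant functional. -/
noncomputable def lam (K : Kernel n c1) : B →L[ℂ] ℂ := (aa K.c1_pos).comp (GG K)

theorem lam_apply (K : Kernel n c1) (h : B) : lam K h = aa K.c1_pos (GG K h) := rfl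

theorem aa_one (hc : 0 < c1) : aa hc (1 : B) = ((1 - kap c1 : ℝ) : ℂ) := by
  rw [aa_apply]
  simp only [BoundedContinuousFunction.coe_one, Pi.one_apply]
  simp [kap]
  ring

theorem N_one (K : Kernel n c1) : NN K (1 : B) = 1 := by
  ext t0
  rw [NN_apply]
  simp only [BoundedContinuousFunction.coe_one, Pi.one_apply, mul_one]
  rw [intervalIntegral.integral_ofReal, K.mass]
  simp

theorem N1_one (K : Kernel n c1) : N1 K (1 : B) = (kap c1 : ℂ) • (1 : B) := by
  have h0 : N1 K (1 : B) = NN K 1 - (aa K.c1_pos 1) • (1 : B) := rfl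
  rw [h0, N_one, aa_one]
  ext t0
  simp

theorem GG_one (K : Kernel n c1) : GG K (1 : B) = ((1 - kap c1 : ℝ) : ℂ)⁻¹ • (1 : B) := by
  have hk : (1 - kap c1 : ℝ) ≠ 0 := by linarith [K.kap_lt_one] |> ne_of_gt
  have hk' : ((1 - kap c1 : ℝ) : ℂ) ≠ 0 := by exact_mod_cast hk
  have h1 : GG K ((1 - N1 K) (1 : B)) = (1 : B) := by
    have := congrArg (fun T : B →L[ℂ] B => T (1 : B)) (GG_mul K)
    exact this
  have h2 : (1 - N1 K) (1 : B) = ((1 - kap c1 : ℝ) : ℂ) • (1 : B) := by
    have h3 : (1 - N1 K) (1 : B) = (1 : B) - N1 K 1 := rfl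
    rw [h3, N1_one]
    ext t0
    simp
  rw [h2, map_smul] at h1
  rw [eq_inv_smul_iff₀ hk']
  exact h1

theorem lam_one (K : Kernel n c1) : lam K (1 : B) = 1 := by
  have hk : (1 - kap c1 : ℝ) ≠ 0 := by linarith [K.kap_lt_one] |> ne_of_gt
  have hk' : ((1 - kap c1 : ℝ) : ℂ) ≠ 0 := by exact_mod_cast hk
  rw [lam_apply, GG_one, map_smul, aa_one, smul_eq_mul, inv_mul_cancel₀ hk']

theorem N_eq (K : Kernel n c1) (h : B) : NN K h = N1 K h + (aa K.c1_pos h) • (1 : B) := by
  have h0 : N1 K h = NN K h - (aa K.c1_pos h) • (1 : B) := rfl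
  rw [h0]
  abel

/-- Invariance. -/
theorem lam_N (K : Kernel n c1) (h : B) : lam K (NN K h) = lam K h := by
  rw [N_eq, map_add, map_smul, lam_one, smul_eq_mul, mul_one]
  have h1 : lam K (N1 K h) = aa K.c1_pos (GG K (N1 K h)) := rfl
  have h2 : lam K h = aa K.c1_pos (GG K h) := rfl
  rw [h1, h2, GG_eq' K h, map_add]
  ring

theorem norm_lam_le (K : Kernel n c1) (h : B) : ‖lam K h‖ ≤ ‖h‖ := by
  have h1 := norm_aaFun_le K.c1_pos (GG K h)
  have h2 := norm_GG_le K h
  have h3 : 1 - kap c1 = 2 * π * c1 := by unfold kap; ring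
  rw [h3] at h2
  exact h1.trans h2

/-! ### conjugation -/

theorem star_ofReal_mul (r : ℝ) (z : ℂ) : star ((r : ℂ) * z) = (r : ℂ) * star z := by
  simp

theorem intervalIntegral_star (f : ℝ → ℂ) :
    ∫ t in (0 : ℝ)..(2 * π), star (f t) = star (∫ t in (0 : ℝ)..(2 * π), f t) := by
  rw [intervalIntegral.integral_of_le two_pi_nonneg, intervalIntegral.integral_of_le two_pi_nonneg]
  exact integral_conj

theorem aa_star (hc : 0 < c1) (h : B) : aa hc (star h) = star (aa hc h) := by
  rw [aa_apply, aa_apply, star_mul']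
  simp only [BoundedContinuousFunction.star_apply]
  rw [intervalIntegral_star]
  simp

theorem N1_star (K : Kernel n c1) (h : B) : N1 K (star h) = star (N1 K h) := by
  ext t0
  rw [BoundedContinuousFunction.star_apply, N1_apply, N1_apply, ← intervalIntegral_star]
  congr 1
  funext t
  rw [BoundedContinuousFunction.star_apply, star_ofReal_mul]

theorem N_star (K : Kernel n c1) (h : B) : NN K (star h) = star (NN K h) := by
  ext t0
  rw [BoundedContinuousFunction.star_apply, NN_apply, NN_apply, ← intervalIntegral_star]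
  congr 1
  funext t
  rw [BoundedContinuousFunction.star_apply, star_ofReal_mul]

theorem N1_pow_star (K : Kernel n c1) (k : ℕ) (h : B) :
    ((N1 K) ^ k) (star h) = star (((N1 K) ^ k) h) := by
  induction k with
  | zero => simp
  | succ k ih =>
    rw [pow_succ_apply, pow_succ_apply, ih, N1_star]

theorem GG_star (K : Kernel n c1) (h : B) : GG K (star h) = star (GG K h) := by
  have h1 := hasSum_GG K (star h)
  have h2 := (hasSum_GG K h).star
  simp only [N1_pow_star] at h1
  exact h1.unique h2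

/-- Real structure. -/
theorem lam_star (K : Kernel n c1) (h : B) : lam K (star h) = star (lam K h) := by
  rw [lam_apply, lam_apply, GG_star, aa_star]

/-! ### positivity -/

theorem N1_nonneg (K : Kernel n c1) {h : B} (hh : IsNonneg h) : IsNonneg (N1 K h) := by
  intro t0
  have hI : ∫ t in (0 : ℝ)..(2 * π), ((n t0 t - c1 : ℝ) : ℂ) * h t
      = ((∫ t in (0 : ℝ)..(2 * π), (n t0 t - c1) * (h t).re : ℝ) : ℂ) := by
    rw [← intervalIntegral.integral_ofReal]
    congr 1
    funext t
    have h1 : h t = ((h t).re : ℂ) := by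
      apply Complex.ext <;> simp [(hh t).2]
    rw [h1]
    simp
  rw [N1_apply, hI]
  refine ⟨?_, by simp⟩
  rw [Complex.ofReal_re]
  apply int_nonneg_of_ae
  filter_upwards [K.low_nonneg t0] with t ht ht'
  exact mul_nonneg (ht ht') (hh t).1

theorem N1_pow_nonneg (K : Kernel n c1) (k : ℕ) {h : B} (hh : IsNonneg h) :
    IsNonneg (((N1 K) ^ k) h) := by
  induction k with
  | zero => simpa using hh
  | succ k ih =>
    rw [pow_succ_apply]
    exact N1_nonneg K ih

theorem GG_nonneg (K : Kernel n c1) {h : B} (hh : IsNonneg h) : IsNonneg (GG K h) := by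
  intro t0
  have h1 := (BoundedContinuousFunction.evalCLM ℂ t0).hasSum (hasSum_GG K h)
  have h2 : HasSum (fun k : ℕ => (((N1 K) ^ k) h) t0) (GG K h t0) := h1
  constructor
  · exact HasSum.nonneg (fun k => (N1_pow_nonneg K k hh t0).1) (Complex.hasSum_re h2)
  · have h3 := Complex.hasSum_im h2
    have h4 : (fun k : ℕ => ((((N1 K) ^ k) h) t0).im) = fun _ => 0 := by
      funext k
      exact (N1_pow_nonneg K k hh t0).2
    rw [h4] at h3
    exact h3.unique hasSum_zero

theorem int_nonnegC {h : B} (hh : IsNonneg h) : NonnegC (∫ t in (0 : ℝ)..(2 * π), h t) := by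
  have hI : ∫ t in (0 : ℝ)..(2 * π), h t = ((∫ t in (0 : ℝ)..(2 * π), (h t).re : ℝ) : ℂ) := by
    rw [← intervalIntegral.integral_ofReal]
    congr 1
    funext t
    apply Complex.ext <;> simp [(hh t).2]
  rw [hI]
  refine ⟨?_, by simp⟩
  rw [Complex.ofReal_re]
  apply int_nonneg_of_ae
  exact Eventually.of_forall fun t _ => (hh t).1

theorem mul_nonnegC {r : ℝ} (hr : 0 ≤ r) {z : ℂ} (hz : NonnegC z) : NonnegC ((r : ℂ) * z) := by
  refine ⟨?_, ?_⟩
  · simp [hr, hz.1, mul_nonneg]
  · simp [hz.2]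

theorem aa_nonneg (hc : 0 < c1) {h : B} (hh : IsNonneg h) : NonnegC (aa hc h) := by
  rw [aa_apply]
  exact mul_nonnegC hc.le (int_nonnegC hh)

/-- Positivity of `lam`. -/
theorem lam_nonneg (K : Kernel n c1) {h : B} (hh : IsNonneg h) : NonnegC (lam K h) :=
  aa_nonneg K.c1_pos (GG_nonneg K hh)

/-- Lower bound: `lam h ≥ c1 ∫ h` for `h ≥ 0`. -/
theorem lam_ge (K : Kernel n c1) {h : B} (hh : IsNonneg h) :
    (aa K.c1_pos h).re ≤ (lam K h).re := by
  have h1 : lam K h = aa K.c1_pos h + lam K (N1 K h) := by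
    have h3 : lam K (N1 K h) = aa K.c1_pos (GG K (N1 K h)) := rfl
    rw [lam_apply, GG_eq' K h, map_add, h3]
  rw [h1, Complex.add_re]
  linarith [(lam_nonneg K (N1_nonneg K hh)).1]

theorem N_nonneg (K : Kernel n c1) {h : B} (hh : IsNonneg h) : IsNonneg (NN K h) := by
  intro t0
  rw [N_eq]
  have h1 := N1_nonneg K hh t0
  have h2 := aa_nonneg K.c1_pos hh
  have h3 : (N1 K h + aa K.c1_pos h • (1 : B)) t0 = N1 K h t0 + aa K.c1_pos h := by simp
  rw [h3]
  exact ⟨by rw [Complex.add_re]; linarith [h1.1, h2.1], by rw [Complex.add_im, h1.2, h2.2]; ring⟩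

/-! ### uniform convergence of the iterates -/

theorem exists_const_approx (K : Kernel n c1) (h : B) (k : ℕ) :
    ∃ c : ℂ, ‖((NN K) ^ k) h - c • (1 : B)‖ ≤ kap c1 ^ k * ‖h‖ := by
  induction k with
  | zero =>
    refine ⟨0, by simp⟩
  | succ k ih =>
    obtain ⟨c, hc⟩ := ih
    set g := ((NN K) ^ k) h - c • (1 : B) with hg
    refine ⟨aa K.c1_pos g + c, ?_⟩
    have h1 : ((NN K) ^ (k + 1)) h - (aa K.c1_pos g + c) • (1 : B) = N1 K g := by
      have h2 : ((NN K) ^ k) h = g + c • (1 : B) := by rw [hg]; abel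
      rw [pow_succ_apply, h2, map_add, map_smul, N_one, N_eq K g, add_smul]
      abel
    rw [h1, pow_succ, mul_assoc, mul_comm (kap c1), ← mul_assoc]
    have h3 := norm_N1_apply_le K g
    have h4 : kap c1 * ‖g‖ ≤ kap c1 * (kap c1 ^ k * ‖h‖) :=
      mul_le_mul_of_nonneg_left hc K.kap_nonneg
    calc ‖N1 K g‖ ≤ kap c1 * ‖g‖ := h3
      _ ≤ kap c1 * (kap c1 ^ k * ‖h‖) := h4
      _ = _ := by ring

theorem lam_Npow (K : Kernel n c1) (k : ℕ) (h : B) : lam K (((NN K) ^ k) h) = lam K h := by
  induction k with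
  | zero => simp
  | succ k ih => rw [pow_succ_apply, lam_N, ih]

/-- Doeblin: the iterates converge uniformly, geometrically, to the constant `lam h`. -/
theorem norm_Npow_sub_le (K : Kernel n c1) (h : B) (k : ℕ) :
    ‖((NN K) ^ k) h - (lam K h) • (1 : B)‖ ≤ 2 * (kap c1 ^ k * ‖h‖) := by
  obtain ⟨c, hc⟩ := exists_const_approx K h k
  set g := ((NN K) ^ k) h - c • (1 : B) with hg
  have h1 : lam K g = lam K h - c := by
    rw [hg, map_sub, lam_Npow, map_smul, lam_one, smul_eq_mul, mul_one]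
  have h2 : ‖lam K h - c‖ ≤ kap c1 ^ k * ‖h‖ := by
    rw [← h1]
    exact (norm_lam_le K g).trans hc
  have h3 : ((NN K) ^ k) h - (lam K h) • (1 : B) = g - (lam K h - c) • (1 : B) := by
    rw [hg, sub_smul]
    abel
  rw [h3]
  have h4 : ‖(lam K h - c) • (1 : B)‖ ≤ kap c1 ^ k * ‖h‖ := by
    rw [norm_smul]
    have : ‖(1 : B)‖ ≤ 1 := by
      rw [BoundedContinuousFunction.norm_le (by norm_num)]
      intro x
      simp
    nlinarith [norm_nonneg (lam K h - c)]
  calc _ ≤ ‖g‖ + ‖(lam K h - c) • (1 : B)‖ := norm_sub_le _ _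
    _ ≤ _ := by linarith

theorem tendsto_Npow (K : Kernel n c1) (h : B) :
    Tendsto (fun k : ℕ => ((NN K) ^ k) h) atTop (𝓝 ((lam K h) • (1 : B))) := by
  rw [tendsto_iff_norm_sub_tendsto_zero]
  have h1 : Tendsto (fun k : ℕ => 2 * (kap c1 ^ k * ‖h‖)) atTop (𝓝 0) := by
    have := (tendsto_pow_atTop_nhds_zero_of_lt_one K.kap_nonneg K.kap_lt_one).mul_const ‖h‖
    simpa using this.const_mul 2
  exact squeeze_zero (fun _ => norm_nonneg _) (norm_Npow_sub_le K h) h1

/-! ### quadratic forms: Cauchy-Schwarz and Jensen -/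

theorem absSq_nonneg (h : B) : IsNonneg (h * star h) := by
  intro t
  have h1 : (h * star h) t = h t * star (h t) := by
    rw [BoundedContinuousFunction.mul_apply, BoundedContinuousFunction.star_apply]
  rw [h1]
  have h2 : h t * star (h t) = ((Complex.normSq (h t) : ℝ) : ℂ) := by
    exact Complex.mul_conj _
  rw [h2]
  exact ⟨by simpa using Complex.normSq_nonneg _, by simp⟩

/-- The sesquilinear form attached to `lam`. -/
noncomputable def SS (K : Kernel n c1) (h k : B) : ℂ := lam K (h * star k)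

theorem SS_symm (K : Kernel n c1) (h k : B) : SS K k h = star (SS K h k) := by
  unfold SS
  rw [← lam_star, star_mul, star_star]

theorem SS_self_im (K : Kernel n c1) (h : B) : (SS K h h).im = 0 := (lam_nonneg K (absSq_nonneg h)).2

theorem SS_self_re (K : Kernel n c1) (h : B) : 0 ≤ (SS K h h).re := (lam_nonneg K (absSq_nonneg h)).1

/-- Cauchy-Schwarz for `lam`. -/
theorem lam_cs (K : Kernel n c1) (h k : B) :
    ‖lam K (h * star k)‖ ^ 2 ≤ (lam K (h * star h)).re * (lam K (k * star k)).re := by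
  change ‖SS K h k‖ ^ 2 ≤ (SS K h h).re * (SS K k k).re
  -- unit phase
  obtain ⟨w, hw1, hw2⟩ : ∃ w : ℂ, ‖w‖ = 1 ∧ w * SS K h k = (‖SS K h k‖ : ℂ) := by
    by_cases h0 : SS K h k = 0
    · exact ⟨1, by simp, by simp [h0]⟩
    · have hn : (‖SS K h k‖ : ℂ) ≠ 0 := by
        simpa using h0
      refine ⟨(‖SS K h k‖ : ℂ) / SS K h k, ?_, ?_⟩
      · rw [norm_div, Complex.norm_real, norm_norm, div_self (by simpa using h0)]
      · field_simp
  set S := SS K h k with hS
  have hq : ∀ t : ℝ, 0 ≤ (SS K k k).re * (t * t) + (2 * ‖S‖) * t + (SS K h h).re := by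
    intro t
    set z : ℂ := (t : ℂ) * star w with hz
    have h1 := SS_self_re K (h + z • k)
    have h2 : SS K (h + z • k) (h + z • k) =
        SS K h h + star z * SS K h k + z * SS K k h + z * star z * SS K k k := by
      unfold SS
      rw [star_add, star_smul, add_mul, mul_add, mul_add, map_add, map_add, map_add]
      have e1 : h * (star z • star k) = star z • (h * star k) := by
        rw [mul_smul_comm]
      have e2 : (z • k) * star h = z • (k * star h) := by
        rw [smul_mul_assoc]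
      have e3 : (z • k) * (star z • star k) = (z * star z) • (k * star k) := by
        rw [smul_mul_smul_comm]
      rw [e1, e2, e3, map_smul, map_smul, map_smul]
      simp only [smul_eq_mul]
      ring
    have h3 : star z * S = (t : ℂ) * (‖S‖ : ℂ) := by
      rw [hz, star_mul', star_star]
      have : star (t : ℂ) = (t : ℂ) := by simp
      rw [this, mul_assoc, hw2]
    have h4 : z * SS K k h = (t : ℂ) * (‖S‖ : ℂ) := by
      rw [SS_symm K h k, ← hS]
      have : z * star S = star (star z * S) := by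
        rw [star_mul', star_star]
      rw [this, h3, star_mul']
      simp
    have h5 : z * star z = ((t * t : ℝ) : ℂ) := by
      rw [hz, star_mul', star_star]
      have hww : star w * w = 1 := by
        have := Complex.mul_conj' w
        rw [hw1] at this
        simpa [mul_comm] using this
      have : star (t : ℂ) = (t : ℂ) := by simp
      rw [this]
      calc (t : ℂ) * star w * ((t : ℂ) * w) = (t : ℂ) * (t : ℂ) * (star w * w) := by ring
        _ = _ := by rw [hww]; push_cast; ring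
    rw [h2, ← hS, h3, h4, h5] at h1
    have hk0 := SS_self_im K k
    simp only [Complex.add_re, Complex.mul_re, Complex.ofReal_re, Complex.ofReal_im, hk0] at h1
    nlinarith
  have hd := discrim_le_zero (a := (SS K k k).re) (b := 2 * ‖S‖) (c := (SS K h h).re) (by
    intro t
    have := hq t
    nlinarith)
  unfold discrim at hd
  nlinarith

/-- `lam (|h|^2)` written as a real number. -/
noncomputable def lamSq (K : Kernel n c1) (h : B) : ℝ := (lam K (h * star h)).re

theorem lamSq_nonneg (K : Kernel n c1) (h : B) : 0 ≤ lamSq K h := SS_self_re K h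

theorem lam_absSq_eq (K : Kernel n c1) (h : B) : lam K (h * star h) = (lamSq K h : ℂ) := by
  apply Complex.ext
  · simp [lamSq]
  · rw [Complex.ofReal_im]
    exact SS_self_im K h

/-- Bound of `lam h` by the root mean square. -/
theorem norm_lam_sq_le (K : Kernel n c1) (h : B) : ‖lam K h‖ ^ 2 ≤ lamSq K h := by
  have h1 := lam_cs K h 1
  have h2 : h * star (1 : B) = h := by
    simp
  rw [h2] at h1
  have h3 : (1 : B) * star (1 : B) = 1 := by simp
  rw [h3, lam_one] at h1
  simpa [lamSq] using h1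

theorem NonnegC.add {z w : ℂ} (hz : NonnegC z) (hw : NonnegC w) : NonnegC (z + w) :=
  ⟨by rw [Complex.add_re]; linarith [hz.1, hw.1], by rw [Complex.add_im, hz.2, hw.2]; ring⟩

/-- Pointwise Jensen inequality for `N`: `|N h|^2 ≤ N (|h|^2)`. -/
theorem jensen_point (K : Kernel n c1) (h : B) (t0 : ℝ) :
    ‖NN K h t0‖ ^ 2 ≤ (NN K (h * star h) t0).re := by
  set c := NN K h t0 with hc
  set g : B := h - c • (1 : B) with hg
  have h1 := N_nonneg K (absSq_nonneg g) t0
  have h2 : g * star g = h * star h - star c • h - c • star h + (c * star c) • (1 : B) := by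
    rw [hg, star_sub, star_smul, star_one]
    ext t
    simp only [BoundedContinuousFunction.coe_sub, BoundedContinuousFunction.coe_add,
      BoundedContinuousFunction.coe_mul, BoundedContinuousFunction.coe_smul, Pi.sub_apply,
      Pi.mul_apply, BoundedContinuousFunction.coe_one, Pi.one_apply, smul_eq_mul, Pi.add_apply,
      mul_one]
    ring
  rw [h2, map_add, map_sub, map_sub, map_smul, map_smul, map_smul, N_one, N_star] at h1
  have h3 : (NN K (h * star h) - star c • NN K h - c • star (NN K h) + (c * star c) • (1 : B)) t0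
      = NN K (h * star h) t0 - c * star c := by
    simp only [BoundedContinuousFunction.coe_sub, BoundedContinuousFunction.coe_add,
      BoundedContinuousFunction.coe_smul, Pi.sub_apply, BoundedContinuousFunction.coe_one,
      Pi.one_apply, smul_eq_mul, Pi.add_apply, mul_one, BoundedContinuousFunction.star_apply, ← hc]
    ring
  rw [h3] at h1
  have h4 : c * star c = ((‖c‖ ^ 2 : ℝ) : ℂ) := by
    have := Complex.mul_conj' c
    simpa using this
  have h5 := h1.1
  rw [h4, Complex.sub_re, Complex.ofReal_re] at h5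
  linarith

/-- Monotonicity of `lam` on real functions (difference nonnegative). -/
theorem lam_re_mono (K : Kernel n c1) {f g : B} (h : IsNonneg (g - f)) : (lam K f).re ≤ (lam K g).re := by
  have h1 := (lam_nonneg K h).1
  rw [map_sub, Complex.sub_re] at h1
  linarith

/-- Jensen for `lam`: `lam |N h|^2 ≤ lam |h|^2`. -/
theorem lamSq_N_le (K : Kernel n c1) (h : B) : lamSq K (NN K h) ≤ lamSq K h := by
  have h1 : (lam K (NN K h * star (NN K h))).re ≤ (lam K (NN K (h * star h))).re := by
    apply lam_re_mono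
    intro t
    have h2 := jensen_point K h t
    have h3 := N_nonneg K (absSq_nonneg h) t
    have h4 : (NN K (h * star h) - NN K h * star (NN K h)) t
        = NN K (h * star h) t - ((‖NN K h t‖ ^ 2 : ℝ) : ℂ) := by
      have h5 := Complex.mul_conj' (NN K h t)
      simp only [BoundedContinuousFunction.coe_sub, Pi.sub_apply, BoundedContinuousFunction.coe_mul,
        Pi.mul_apply, BoundedContinuousFunction.star_apply]
      congr 1
      simpa using h5
    rw [h4]
    refine ⟨?_, ?_⟩
    · rw [Complex.sub_re, Complex.ofReal_re]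
      linarith
    · rw [Complex.sub_im, Complex.ofReal_im, h3.2]
      ring
  rw [lam_N] at h1
  exact h1

/-! ### modulus -/

/-- The modulus `|h|` as an element of `B`. -/
noncomputable def absB (h : B) : B :=
  BoundedContinuousFunction.ofNormedAddCommGroup (fun t => ((‖h t‖ : ℝ) : ℂ))
    (by have := h.continuous; fun_prop) ‖h‖ (fun t => by
      rw [Complex.norm_real, norm_norm]
      exact h.norm_coe_le_norm t)

theorem absB_apply (h : B) (t : ℝ) : absB h t = ((‖h t‖ : ℝ) : ℂ) := rfl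

theorem absB_nonneg (h : B) : IsNonneg (absB h) := fun t => by
  rw [absB_apply]
  exact ⟨by simp, by simp⟩

/-- `lam |h|` dominates the Lebesgue integral of `|h|`. -/
theorem lam_abs_ge (K : Kernel n c1) (h : B) :
    c1 * ∫ t in (0 : ℝ)..(2 * π), ‖h t‖ ≤ (lam K (absB h)).re := by
  have h1 := lam_ge K (absB_nonneg h)
  rw [aa_apply] at h1
  simp only [absB_apply] at h1
  rw [intervalIntegral.integral_ofReal] at h1
  have h2 : ((c1 : ℂ) * ((∫ t in (0 : ℝ)..(2 * π), ‖h t‖ : ℝ) : ℂ)).re
      = c1 * ∫ t in (0 : ℝ)..(2 * π), ‖h t‖ := by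
    rw [← Complex.ofReal_mul, Complex.ofReal_re]
  rw [h2] at h1
  exact h1

theorem absB_sq (h : B) : absB h * star (absB h) = h * star h := by
  ext t
  simp only [BoundedContinuousFunction.coe_mul, Pi.mul_apply, BoundedContinuousFunction.star_apply,
    absB_apply]
  have h1 := Complex.mul_conj' (h t)
  simp only [Complex.star_def, Complex.conj_ofReal]
  rw [h1]
  ring

/-- `(lam |h|)^2 ≤ lam |h|^2`. -/
theorem lam_abs_sq_le (K : Kernel n c1) (h : B) : ((lam K (absB h)).re) ^ 2 ≤ lamSq K h := by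
  have h1 := norm_lam_sq_le K (absB h)
  have h2 : lamSq K (absB h) = lamSq K h := by
    unfold lamSq
    rw [absB_sq]
  rw [h2] at h1
  have h3 : |(lam K (absB h)).re| ≤ ‖lam K (absB h)‖ := Complex.abs_re_le_norm _
  have h4 := sq_abs ((lam K (absB h)).re)
  nlinarith [abs_nonneg (lam K (absB h)).re]

/-- Lebesgue `L1` bound by `lam`-root-mean-square. -/
theorem int_abs_le (K : Kernel n c1) (h : B) :
    c1 * ∫ t in (0 : ℝ)..(2 * π), ‖h t‖ ≤ Real.sqrt (lamSq K h) := by
  have h1 := lam_abs_ge K h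
  have h2 := lam_abs_sq_le K h
  exact h1.trans (Real.le_sqrt_of_sq_le h2)

/-- `|lam h| ≤ lam |h|`. -/
theorem norm_lam_le_abs (K : Kernel n c1) (h : B) : ‖lam K h‖ ≤ (lam K (absB h)).re := by
  -- unit phase
  obtain ⟨w, hw1, hw2⟩ : ∃ w : ℂ, ‖w‖ = 1 ∧ w * lam K h = (‖lam K h‖ : ℂ) := by
    by_cases h0 : lam K h = 0
    · exact ⟨1, by simp, by simp [h0]⟩
    · have hn : (‖lam K h‖ : ℂ) ≠ 0 := by
        simpa using h0
      refine ⟨(‖lam K h‖ : ℂ) / lam K h, ?_, ?_⟩
      · rw [norm_div, Complex.norm_real, norm_norm, div_self (by simpa using h0)]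
      · field_simp
  set f : B := w • h with hf
  have h1 : lam K f = (‖lam K h‖ : ℂ) := by
    rw [hf, map_smul, smul_eq_mul, hw2]
  -- real part of `f`
  set g : B := ((1 / 2 : ℂ)) • (f + star f) with hg
  have h2 : lam K g = (‖lam K h‖ : ℂ) := by
    rw [hg, map_smul, map_add, lam_star, h1]
    simp only [smul_eq_mul, Complex.star_def, Complex.conj_ofReal]
    ring
  have h3 : IsNonneg (absB h - g) := by
    intro t
    have h4 : (absB h - g) t = ((‖h t‖ - (w * h t).re : ℝ) : ℂ) := by
      have h5 : g t = (((w * h t).re : ℝ) : ℂ) := by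
        simp only [hg, hf, BoundedContinuousFunction.coe_smul, BoundedContinuousFunction.coe_add,
          Pi.add_apply, BoundedContinuousFunction.star_apply, smul_eq_mul]
        rw [Complex.star_def, Complex.add_conj]
        push_cast
        ring
      simp only [BoundedContinuousFunction.coe_sub, Pi.sub_apply, absB_apply, h5]
      push_cast
      ring
    rw [h4]
    refine ⟨?_, by simp⟩
    rw [Complex.ofReal_re]
    have h6 : (w * h t).re ≤ ‖w * h t‖ := Complex.re_le_norm _
    rw [norm_mul, hw1, one_mul] at h6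
    linarith
  have h7 := lam_re_mono K h3
  rw [h2, Complex.ofReal_re] at h7
  exact h7

/-! ### solving `ψ + N ψ = α` -/

/-- The resolvent `(1 + N1)⁻¹`. -/
noncomputable def HH (K : Kernel n c1) : B →L[ℂ] B := ∑' k : ℕ, (-(N1 K)) ^ k

theorem mul_HH (K : Kernel n c1) : (1 - (-(N1 K))) * HH K = 1 := by
  unfold HH
  refine mul_neg_geom_series (-(N1 K)) ?_
  rw [norm_neg]
  exact norm_N1_lt_one K

theorem HH_eq (K : Kernel n c1) (h : B) : HH K h + N1 K (HH K h) = h := by
  have h1 := congrArg (fun T : B →L[ℂ] B => T h) (mul_HH K)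
  have h2 : HH K h - (-(N1 K)) (HH K h) = h := h1
  have h3 : (-(N1 K)) (HH K h) = - N1 K (HH K h) := rfl
  rw [h3, sub_neg_eq_add] at h2
  exact h2

theorem norm_HH_le (K : Kernel n c1) (h : B) : (1 - kap c1) * ‖HH K h‖ ≤ ‖h‖ := by
  have h1 := HH_eq K h
  have h2 : ‖HH K h‖ ≤ ‖h‖ + kap c1 * ‖HH K h‖ := by
    have h3 : HH K h = h - N1 K (HH K h) := eq_sub_of_add_eq h1
    calc ‖HH K h‖ = ‖h - N1 K (HH K h)‖ := by rw [← h3]
      _ ≤ ‖h‖ + ‖N1 K (HH K h)‖ := norm_sub_le _ _
      _ ≤ _ := by linarith [norm_N1_apply_le K (HH K h)]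
  linarith

/-- The explicit solution of `ψ + N ψ = α`. -/
noncomputable def solveN (K : Kernel n c1) (α : B) : B :=
  HH K α - ((aa K.c1_pos (HH K α)) / 2) • (1 : B)

theorem solveN_spec (K : Kernel n c1) (α : B) : solveN K α + NN K (solveN K α) = α := by
  unfold solveN
  rw [map_sub, map_smul, N_one, N_eq K (HH K α)]
  have h1 := HH_eq K α
  have h2 : ∀ x y c : B, ∀ z : ℂ, (x - (z / 2) • c) + (y + z • c - (z / 2) • c) = x + y := by
    intro x y c z
    have : z • c = (z / 2) • c + (z / 2) • c := by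
      rw [← add_smul]; congr 1; ring
    rw [this]
    abel
  rw [h2, h1]

/-- Any solution of `ψ + N ψ = α` which is periodic for periodic data. -/
theorem Kernel.NN_periodic (K : Kernel n c1) (hper : ∀ t0 t, n (t0 + 2 * π) t = n t0 t) (h : B) :
    Function.Periodic (NN K h) (2 * π) := by
  intro t0
  rw [NN_apply, NN_apply]
  simp only [hper]

theorem Kernel.N1_periodic (K : Kernel n c1) (hper : ∀ t0 t, n (t0 + 2 * π) t = n t0 t) (h : B) :
    Function.Periodic (N1 K h) (2 * π) := by
  intro t0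
  rw [N1_apply, N1_apply]
  simp only [hper]

theorem Kernel.solveN_periodic (K : Kernel n c1) (hper : ∀ t0 t, n (t0 + 2 * π) t = n t0 t) {α : B}
    (hα : Function.Periodic α (2 * π)) : Function.Periodic (solveN K α) (2 * π) := by
  intro t0
  have h1 := HH_eq K α
  have h2 : ∀ t, HH K α t = α t - N1 K (HH K α) t := by
    intro t
    have h3 : HH K α = α - N1 K (HH K α) := eq_sub_of_add_eq h1
    exact congrArg (fun f : B => f t) h3
  have h3 : HH K α (t0 + 2 * π) = HH K α t0 := by
    rw [h2, h2, hα t0, K.N1_periodic hper _ t0]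
  unfold solveN
  simp [h3]

end operators

/-! ### convenience: continuity hypothesis from a dominated kernel -/

/-- `Kernel` from two-sided bounds and pointwise continuity off a null set. -/
theorem Kernel.mk_of_bounds {n : ℝ → ℝ → ℝ} {c1 c2 : ℝ} (hc1 : 0 < c1)
    (hmeas : ∀ t0, Measurable (n t0))
    (hlow : ∀ t0, ∀ᵐ t ∂volume, t ∈ Ioc 0 (2 * π) → c1 ≤ n t0 t)
    (hupp : ∀ t0, ∀ᵐ t ∂volume, t ∈ Ioc 0 (2 * π) → n t0 t ≤ c2)
    (hmass : ∀ t0, ∫ t in (0 : ℝ)..(2 * π), n t0 t = 1)
    (hcont : ∀ t0, ∀ᵐ t ∂volume, t ∈ Ioc 0 (2 * π) → ContinuousAt (fun u => n u t) t0) :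
    Kernel n c1 := by
  have hb : ∀ t0, ∀ᵐ t ∂volume, t ∈ Ioc (0 : ℝ) (2 * π) → ‖n t0 t‖ ≤ c2 := by
    intro t0
    filter_upwards [hlow t0, hupp t0] with t h1 h2 ht
    have h3 := h1 ht
    have h4 := h2 ht
    rw [Real.norm_eq_abs, abs_of_nonneg (by linarith)]
    exact h4
  have hint : ∀ t0, IntervalIntegrable (n t0) volume 0 (2 * π) := by
    intro t0
    refine ⟨?_, ?_⟩
    · apply Integrable.mono' (g := fun _ => c2) (by simp)
        (hmeas t0).aestronglyMeasurable
      rw [ae_restrict_iff' measurableSet_Ioc]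
      exact hb t0
    · rw [Ioc_eq_empty_of_le two_pi_nonneg]
      simp
  refine ⟨hc1, hint, hlow, hmass, ?_⟩
  intro h
  rw [continuous_iff_continuousAt]
  intro t0
  apply intervalIntegral.continuousAt_of_dominated_interval (bound := fun _ => c2 * ‖h‖)
  · refine Eventually.of_forall fun u => ?_
    exact ((Complex.measurable_ofReal.comp (hmeas u)).aestronglyMeasurable).mul
      h.continuous.aestronglyMeasurable
  · refine Eventually.of_forall fun u => ?_
    filter_upwards [hb u, hlow u] with t ht ht1 ht'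
    rw [uIoc_of_le two_pi_nonneg] at ht'
    rw [norm_mul, Complex.norm_real]
    exact mul_le_mul (ht ht') (h.norm_coe_le_norm t) (norm_nonneg _)
      ((norm_nonneg _).trans (ht ht'))
  · exact intervalIntegrable_const
  · filter_upwards [hcont t0] with t ht ht'
    rw [uIoc_of_le two_pi_nonneg] at ht'
    have h1 := ht ht'
    exact (Complex.continuous_ofReal.continuousAt.comp h1).mul continuousAt_const

end Vale.Agent.Lib.P123C.Lam
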