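import Vale.Agent.Lib.P123C.Geom
import Vale.Agent.Lib.P123C.Doeblin
import Vale.Agent.Lib.P123C.Lam

/-!
# The double layer kernel of the curve as a Doeblin operator

`N h t0 = ∫₀^{2π} Pk (σ t0) t * h t dt`, `a h = c₁ ∫₀^{2π} h`, `N₁ = N - a(·) 1`.
The only inputs are the two sided bounds of `Pk` (from `Geom`) and the mass one identity.
-/

open Complex Set Filter Topology MeasureTheory
open scoped Real ComplexConjugate BoundedContinuousFunction Interval

namespace Vale.Agent.Lib.P123C.CrvData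

open Vale.Agent.Lib.P123C.Geom
open Vale.Agent.Lib.P123C.Doeblin

noncomputable section

theorem vol_ne_top (a b : ℝ) : (volume : Measure ℝ) (Ι a b) ≠ ⊤ := by
  rw [Set.uIoc, Real.volume_Ioc]
  exact ENNReal.ofReal_ne_top

/-- Curve data, raw form. -/
structure Crv where
  s : ℝ → ℝ
  s1 : ℝ → ℝ
  R : ℝ → ℝ
  hs : ∀ t, HasDerivAt s (s1 t) t
  hs1 : ∀ t, HasDerivAt s1 (R t - s t) t
  hper : ∀ t, s (t + 2 * π) = s t
  hper1 : ∀ t, s1 (t + 2 * π) = s1 t
  hRc : Continuous R
  rmin : ℝ
  rmax : ℝ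
  hr0 : 0 < rmin
  hmin : ∀ t, rmin ≤ R t
  hmax : ∀ t, R t ≤ rmax
  hRper : ∀ t, R (t + 2 * π) = R t

namespace Crv

variable (c : Crv)

/-- The kernel `n t0 t = Pk (σ t0) t`. -/
def n (t0 t : ℝ) : ℝ := Pk c.s c.s1 c.R (sig c.s c.s1 t0) t

/-- Lower bound of the kernel. -/
def c1 : ℝ := 2 * c.rmin ^ 2 / (π ^ 3 * c.rmax ^ 2)

/-- Upper bound of the kernel. -/
def c2 : ℝ := c.rmax ^ 2 / (2 * π * c.rmin ^ 2)

/-- Mass one of the double layer kernel. -/
theorem hmass (t0 : ℝ) : ∫ t in (0 : ℝ)..(2 * π), Pk c.s c.s1 c.R (sig c.s c.s1 t0) t = 1 :=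
  mass_one c.hs c.hs1 c.hper c.hper1 c.hRper c.hRc c.hr0 c.hmin c.hmax t0

theorem rmax_pos : 0 < c.rmax := c.hr0.trans_le ((c.hmin 0).trans (c.hmax 0))

theorem c1_pos : 0 < c.c1 := by
  have := c.hr0; have := c.rmax_pos; have := Real.pi_pos
  unfold c1; positivity

theorem c2_pos : 0 < c.c2 := by
  have := c.hr0; have := c.rmax_pos; have := Real.pi_pos
  unfold c2; positivity

theorem n_nonneg (t0 t : ℝ) : 0 ≤ c.n t0 t :=
  (Pk_sig_abs_le c.hs c.hs1 c.hper c.hper1 c.hr0 c.hmin c.hmax t t0).1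

theorem n_le (t0 t : ℝ) : c.n t0 t ≤ c.c2 :=
  (Pk_sig_abs_le c.hs c.hs1 c.hper c.hper1 c.hr0 c.hmin c.hmax t t0).2

theorem c1_le_n {t0 t : ℝ} (h : Real.cos (t - t0) ≠ 1) : c.c1 ≤ c.n t0 t :=
  (Pk_sig_bounds c.hs c.hs1 c.hper c.hper1 c.hr0 c.hmin c.hmax h).1

theorem continuous_sig : Continuous (sig c.s c.s1) := Geom.continuous_sig c.hs c.hs1

theorem ae_cos_ne (t0 : ℝ) : ∀ᵐ t : ℝ, Real.cos (t - t0) ≠ 1 := by
  have hc : ({t : ℝ | Real.cos (t - t0) = 1}).Countable := by
    have : {t : ℝ | Real.cos (t - t0) = 1} ⊆ Set.range (fun n : ℤ => (n : ℝ) * (2 * π) + t0) := by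
      intro t ht
      obtain ⟨n, hn⟩ := (Real.cos_eq_one_iff _).1 ht
      exact ⟨n, by simp only; linarith⟩
    exact (Set.countable_range _).mono this
  have := hc.ae_notMem (volume : Measure ℝ)
  filter_upwards [this] with t ht
  exact ht

theorem continuous_s : Continuous c.s :=
  continuous_iff_continuousAt.2 fun t => (c.hs t).continuousAt

theorem measurable_n (t0 : ℝ) : Measurable (c.n t0) := by
  unfold n Pk hh
  have h1 : Continuous fun t : ℝ => c.R t * (c.s t - ((starRingEnd ℂ) (e t) * sig c.s c.s1 t0).re) := by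
    have := c.hRc
    have := c.continuous_s
    have := Geom.continuous_e
    fun_prop
  have h2 : Continuous fun t : ℝ => ‖sig c.s c.s1 t - sig c.s c.s1 t0‖ ^ 2 := by
    have := c.continuous_sig
    fun_prop
  exact (h1.measurable.div h2.measurable).const_mul _

/-- A bounded measurable kernel times a continuous function is interval integrable. -/
theorem intervalIntegrable_n (t0 : ℝ) {g : ℝ → ℂ} (hg : Continuous g) (a b : ℝ) :
    IntervalIntegrable (fun t => (c.n t0 t : ℂ) * g t) volume a b := by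
  have h1 : IntervalIntegrable (fun t => ((c.n t0 t : ℝ) : ℂ)) volume a b := by
    rw [intervalIntegrable_iff]
    refine Measure.integrableOn_of_bounded (M := c.c2) (vol_ne_top _ _)
      (c.measurable_n t0).complex_ofReal.aestronglyMeasurable ?_
    refine Eventually.of_forall fun t => ?_
    rw [Complex.norm_real, Real.norm_eq_abs, abs_of_nonneg (c.n_nonneg t0 t)]
    exact c.n_le t0 t
  exact h1.mul_continuousOn hg.continuousOn

/-- The double layer integral. -/
def Nf (h : ℝ → ℂ) (t0 : ℝ) : ℂ := ∫ t in (0 : ℝ)..(2 * π), (c.n t0 t : ℂ) * h t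

theorem hpi2 : (0 : ℝ) ≤ 2 * π := by positivity

theorem tendsto_n {t0 t : ℝ} (h : Real.cos (t - t0) ≠ 1) :
    Tendsto (fun u => c.n u t) (𝓝 t0) (𝓝 (c.n t0 t)) := by
  have hs := c.continuous_sig
  have hne : ‖sig c.s c.s1 t - sig c.s c.s1 t0‖ ^ 2 ≠ 0 := by
    have h1 := chord_lower c.hs c.hs1 c.hper c.hper1 c.hr0.le c.hmin t t0
    have hv : 0 < 1 - Real.cos (t - t0) := by
      have := Real.cos_le_one (t - t0)
      rcases this.lt_or_eq with h' | h'
      · linarith
      · exact absurd h' h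
    have hr := c.hr0
    have : 0 < ‖sig c.s c.s1 t - sig c.s c.s1 t0‖ ^ 2 := lt_of_lt_of_le (by positivity) h1
    exact this.ne'
  have h2 : ContinuousAt (fun u => c.n u t) t0 := by
    unfold n Pk hh
    have hc1 : Continuous fun u : ℝ => c.R t * (c.s t - ((starRingEnd ℂ) (e t) * sig c.s c.s1 u).re) := by
      exact continuous_const.mul (continuous_const.sub (Complex.continuous_re.comp (continuous_const.mul hs)))
    have hc2 : Continuous fun u : ℝ => ‖sig c.s c.s1 t - sig c.s c.s1 u‖ ^ 2 := by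
      fun_prop
    exact (hc1.continuousAt.div hc2.continuousAt hne).const_mul _
  exact h2.tendsto

theorem sig_periodic (t : ℝ) : sig c.s c.s1 (t + 2 * π) = sig c.s c.s1 t :=
  Geom.sig_periodic c.hper c.hper1 t

theorem n_periodic (t0 t : ℝ) : c.n (t0 + 2 * π) t = c.n t0 t := by
  unfold n
  rw [c.sig_periodic]

theorem Nf_periodic (h : ℝ → ℂ) (t0 : ℝ) : c.Nf h (t0 + 2 * π) = c.Nf h t0 := by
  unfold Nf
  simp_rw [c.n_periodic]

theorem continuous_Nf {h : ℝ → ℂ} (hc : Continuous h) {C : ℝ} (hC : ∀ t, ‖h t‖ ≤ C) :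
    Continuous (c.Nf h) := by
  rw [continuous_iff_continuousAt]
  intro t0
  unfold ContinuousAt Nf
  apply intervalIntegral.tendsto_integral_filter_of_dominated_convergence (fun _ => c.c2 * C)
  · refine Eventually.of_forall fun u => ?_
    exact ((c.measurable_n u).complex_ofReal.mul hc.measurable).aestronglyMeasurable
  · refine Eventually.of_forall fun u => ?_
    refine Eventually.of_forall fun t _ => ?_
    rw [norm_mul, Complex.norm_real, Real.norm_eq_abs, abs_of_nonneg (c.n_nonneg u t)]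
    exact mul_le_mul (c.n_le u t) (hC t) (norm_nonneg _) c.c2_pos.le
  · exact intervalIntegrable_const
  · filter_upwards [ae_cos_ne t0] with t ht _
    exact ((Complex.continuous_ofReal.tendsto _).comp (c.tendsto_n ht)).mul_const _

theorem norm_Nf_le {h : ℝ → ℂ} (hc : Continuous h) {C : ℝ} (hC : ∀ t, ‖h t‖ ≤ C) (t0 : ℝ) :
    ‖c.Nf h t0‖ ≤ C := by
  unfold Nf
  have h1 := intervalIntegral.norm_integral_le_of_norm_le (a := 0) (b := 2 * π) (μ := volume)
    (f := fun t => (c.n t0 t : ℂ) * h t) (g := fun t => c.n t0 t * C) hpi2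
    (Eventually.of_forall fun t _ => by
      rw [norm_mul, Complex.norm_real, Real.norm_eq_abs, abs_of_nonneg (c.n_nonneg t0 t)]
      exact mul_le_mul_of_nonneg_left (hC t) (c.n_nonneg t0 t))
    ?_
  · refine h1.trans (le_of_eq ?_)
    rw [intervalIntegral.integral_mul_const]
    have := c.hmass t0
    unfold n
    rw [this, one_mul]
  · have hm := c.hmass t0
    have : IntervalIntegrable (fun t => c.n t0 t) volume 0 (2 * π) := by
      rw [intervalIntegrable_iff]
      refine Measure.integrableOn_of_bounded (M := c.c2) (vol_ne_top _ _)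
        (c.measurable_n t0).aestronglyMeasurable ?_
      refine Eventually.of_forall fun t => ?_
      rw [Real.norm_eq_abs, abs_of_nonneg (c.n_nonneg t0 t)]
      exact c.n_le t0 t
    exact this.mul_const _

/-- The operator `N` on functions in `B`. -/
def NB (h : B) : B :=
  BoundedContinuousFunction.ofNormedAddCommGroup (c.Nf h)
    (c.continuous_Nf h.continuous (fun t => h.norm_coe_le_norm t)) ‖h‖
    (fun t => c.norm_Nf_le h.continuous (fun t => h.norm_coe_le_norm t) t)

@[simp] theorem NB_apply (h : B) (t0 : ℝ) : c.NB h t0 = c.Nf h t0 := rfl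

theorem Nf_add {h k : ℝ → ℂ} (hh : Continuous h) (hk : Continuous k) (t0 : ℝ) :
    c.Nf (h + k) t0 = c.Nf h t0 + c.Nf k t0 := by
  unfold Nf
  rw [← intervalIntegral.integral_add (c.intervalIntegrable_n t0 hh _ _)
    (c.intervalIntegrable_n t0 hk _ _)]
  congr 1
  ext t
  simp [mul_add]

theorem Nf_smul (a : ℂ) (h : ℝ → ℂ) (t0 : ℝ) : c.Nf (a • h) t0 = a * c.Nf h t0 := by
  unfold Nf
  rw [← intervalIntegral.integral_const_mul]
  congr 1
  ext t
  simp only [Pi.smul_apply, smul_eq_mul]
  ring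

/-- `N` as a continuous linear map on `B`. -/
def NL : B →L[ℂ] B :=
  LinearMap.mkContinuous
    { toFun := c.NB
      map_add' := fun h k => by
        ext t0
        simpa using c.Nf_add h.continuous k.continuous t0
      map_smul' := fun a h => by
        ext t0
        exact c.Nf_smul a h t0 }
    1 (fun h => by
      rw [one_mul]
      exact (BoundedContinuousFunction.norm_le (norm_nonneg _)).2
        (fun t => c.norm_Nf_le h.continuous (fun t => h.norm_coe_le_norm t) t))

@[simp] theorem NL_apply (h : B) (t0 : ℝ) : c.NL h t0 = c.Nf h t0 := rfl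

theorem norm_integral_le (h : B) : ‖∫ t in (0 : ℝ)..(2 * π), h t‖ ≤ 2 * π * ‖h‖ := by
  have h1 := intervalIntegral.norm_integral_le_of_norm_le_const (a := 0) (b := 2 * π)
    (f := fun t => h t) (C := ‖h‖) (fun t _ => h.norm_coe_le_norm t)
  simpa [abs_of_pos Real.pi_pos, mul_comm] using h1

/-- The functional `a h = c₁ ∫₀^{2π} h`. -/
def aL : B →L[ℂ] ℂ :=
  LinearMap.mkContinuous
    { toFun := fun h => (c.c1 : ℂ) * ∫ t in (0 : ℝ)..(2 * π), h t
      map_add' := fun h k => by
        simp only [BoundedContinuousFunction.coe_add, Pi.add_apply]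
        rw [intervalIntegral.integral_add (h.continuous.intervalIntegrable _ _)
          (k.continuous.intervalIntegrable _ _)]
        ring
      map_smul' := fun a h => by
        simp only [BoundedContinuousFunction.coe_smul, smul_eq_mul, RingHom.id_apply]
        rw [intervalIntegral.integral_const_mul]
        ring }
    (c.c1 * (2 * π)) (fun h => by
      simp only [LinearMap.coe_mk, AddHom.coe_mk, norm_mul, Complex.norm_real, Real.norm_eq_abs,
        abs_of_pos c.c1_pos]
      have := norm_integral_le h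
      have hc := c.c1_pos
      nlinarith)

@[simp] theorem aL_apply (h : B) : c.aL h = (c.c1 : ℂ) * ∫ t in (0 : ℝ)..(2 * π), h t := rfl

/-- The contraction factor. -/
def κ : ℝ := 1 - 2 * π * c.c1

theorem two_pi_c1_eq : 2 * π * c.c1 = 4 / π ^ 2 * (c.rmin / c.rmax) ^ 2 := by
  have := c.rmax_pos
  have := Real.pi_pos
  unfold c1
  field_simp
  ring

theorem κ_nonneg : 0 ≤ c.κ := by
  unfold κ
  have h0 := c.hr0
  have h1 := c.rmax_pos
  have hle : c.rmin ≤ c.rmax := (c.hmin 0).trans (c.hmax 0)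
  have h2 : c.rmin / c.rmax ≤ 1 := (div_le_one h1).2 hle
  have h3 : (c.rmin / c.rmax) ^ 2 ≤ 1 := by
    have : 0 ≤ c.rmin / c.rmax := by positivity
    nlinarith
  have hpi := Real.pi_gt_three
  have h4 : 4 / π ^ 2 ≤ 1 := by
    rw [div_le_one (by positivity)]
    nlinarith
  rw [two_pi_c1_eq]
  have h5 : 0 ≤ 4 / π ^ 2 := by positivity
  nlinarith [mul_le_mul h4 h3 (by positivity) (by norm_num : (0:ℝ) ≤ 1)]

theorem κ_lt : c.κ < 1 := by
  unfold κ
  have := c.c1_pos
  have := Real.pi_pos
  nlinarith [mul_pos Real.pi_pos c.c1_pos]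

/-- `N₁ = N - a(·) 1`. -/
def N1L : B →L[ℂ] B := c.NL - c.aL.smulRight (1 : B)

theorem N1L_eq (h : B) : c.N1L h = c.NL h - c.aL h • (1 : B) := rfl

/-- The kernel of `N₁`. -/
theorem N1L_apply (h : B) (t0 : ℝ) :
    c.N1L h t0 = ∫ t in (0 : ℝ)..(2 * π), (((c.n t0 t - c.c1 : ℝ)) : ℂ) * h t := by
  have e : ∀ t, ((c.n t0 t - c.c1 : ℝ) : ℂ) * h t = (c.n t0 t : ℂ) * h t - (c.c1 : ℂ) * h t := by
    intro t
    push_cast
    ring
  simp_rw [e]
  rw [intervalIntegral.integral_sub (c.intervalIntegrable_n t0 h.continuous _ _)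
    ((h.continuous.intervalIntegrable _ _).const_mul _), intervalIntegral.integral_const_mul]
  rw [N1L_eq]
  simp [Nf]

theorem ae_n_sub_nonneg (t0 : ℝ) : ∀ᵐ t : ℝ, 0 ≤ c.n t0 t - c.c1 := by
  filter_upwards [ae_cos_ne t0] with t ht
  linarith [c.c1_le_n ht]

theorem integrable_n (t0 : ℝ) : IntervalIntegrable (fun t => c.n t0 t) volume 0 (2 * π) := by
  rw [intervalIntegrable_iff]
  refine Measure.integrableOn_of_bounded (M := c.c2) (vol_ne_top _ _)
    (c.measurable_n t0).aestronglyMeasurable ?_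
  refine Eventually.of_forall fun t => ?_
  rw [Real.norm_eq_abs, abs_of_nonneg (c.n_nonneg t0 t)]
  exact c.n_le t0 t

theorem mass_n (t0 : ℝ) : ∫ t in (0 : ℝ)..(2 * π), c.n t0 t = 1 := c.hmass t0

theorem integral_n_sub (t0 : ℝ) : ∫ t in (0 : ℝ)..(2 * π), (c.n t0 t - c.c1) = c.κ := by
  rw [intervalIntegral.integral_sub (c.integrable_n t0) intervalIntegrable_const, c.mass_n,
    intervalIntegral.integral_const]
  simp only [sub_zero, smul_eq_mul]
  unfold κ
  ring

theorem norm_N1L_le : ‖c.N1L‖ ≤ c.κ := by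
  apply ContinuousLinearMap.opNorm_le_bound _ c.κ_nonneg
  intro h
  refine (BoundedContinuousFunction.norm_le (mul_nonneg c.κ_nonneg (norm_nonneg _))).2 fun t0 => ?_
  rw [N1L_apply]
  have h1 := intervalIntegral.norm_integral_le_of_norm_le (a := 0) (b := 2 * π)
    (f := fun t => ((c.n t0 t - c.c1 : ℝ) : ℂ) * h t) (g := fun t => (c.n t0 t - c.c1) * ‖h‖) hpi2
    (by
      filter_upwards [c.ae_n_sub_nonneg t0] with t ht _
      rw [norm_mul, Complex.norm_real, Real.norm_eq_abs, abs_of_nonneg ht]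
      exact mul_le_mul_of_nonneg_left (h.norm_coe_le_norm t) ht)
    (((c.integrable_n t0).sub intervalIntegrable_const).mul_const _)
  refine h1.trans (le_of_eq ?_)
  rw [intervalIntegral.integral_mul_const, c.integral_n_sub]

theorem aL_one : c.aL 1 = ((1 - c.κ : ℝ) : ℂ) := by
  rw [aL_apply]
  simp only [BoundedContinuousFunction.coe_one, Pi.one_apply, intervalIntegral.integral_const,
    sub_zero, κ]
  simp only [Complex.real_smul]
  push_cast
  ring

theorem NL_one : c.NL 1 = 1 := by
  ext t0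
  rw [NL_apply]
  unfold Nf
  simp only [BoundedContinuousFunction.coe_one, Pi.one_apply, mul_one]
  rw [intervalIntegral.integral_ofReal, c.mass_n]
  simp

theorem N1L_one : c.N1L 1 = ((c.κ : ℝ) : ℂ) • (1 : B) := by
  rw [N1L_eq, NL_one, aL_one]
  ext t0
  simp

theorem norm_aL_le : ‖c.aL‖ ≤ 1 - c.κ := by
  have hκ : 1 - c.κ = 2 * π * c.c1 := by unfold κ; ring
  rw [hκ]
  apply ContinuousLinearMap.opNorm_le_bound _ (by have := c.c1_pos; positivity)
  intro h
  rw [aL_apply, norm_mul, Complex.norm_real, Real.norm_eq_abs, abs_of_pos c.c1_pos]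
  have := norm_integral_le h
  have hc := c.c1_pos
  nlinarith

/-- A positive function is real. -/
theorem Pos.eq_ofReal {h : B} (hh : Pos h) (t : ℝ) : h t = (((h t).re : ℝ) : ℂ) := by
  apply Complex.ext <;> simp [(hh t).1]

theorem N1L_pos {h : B} (hh : Pos h) : Pos (c.N1L h) := by
  intro t0
  rw [N1L_apply]
  have e : ∀ t, ((c.n t0 t - c.c1 : ℝ) : ℂ) * h t = (((c.n t0 t - c.c1) * (h t).re : ℝ) : ℂ) := by
    intro t
    rw [Pos.eq_ofReal hh t]
    simp
  simp_rw [e]
  rw [intervalIntegral.integral_ofReal]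
  simp only [Complex.ofReal_im, Complex.ofReal_re, true_and]
  apply intervalIntegral.integral_nonneg_of_ae_restrict hpi2
  have := c.ae_n_sub_nonneg t0
  filter_upwards [ae_restrict_of_ae this] with t ht
  exact mul_nonneg ht (hh t).2

theorem aL_pos {h : B} (hh : Pos h) : (c.aL h).im = 0 ∧ 0 ≤ (c.aL h).re := by
  rw [aL_apply]
  have e : ∀ t, h t = (((h t).re : ℝ) : ℂ) := Pos.eq_ofReal hh
  have e2 : (∫ t in (0 : ℝ)..(2 * π), h t) = (((∫ t in (0 : ℝ)..(2 * π), (h t).re) : ℝ) : ℂ) := by
    rw [← intervalIntegral.integral_ofReal]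
    exact intervalIntegral.integral_congr fun t _ => e t
  rw [e2, ← Complex.ofReal_mul]
  simp only [Complex.ofReal_im, Complex.ofReal_re, true_and]
  apply mul_nonneg c.c1_pos.le
  exact intervalIntegral.integral_nonneg hpi2 fun t _ => (hh t).2

theorem integral_conj' (f : ℝ → ℂ) :
    ∫ t in (0 : ℝ)..(2 * π), conj (f t) = conj (∫ t in (0 : ℝ)..(2 * π), f t) := by
  rw [intervalIntegral.integral_of_le hpi2, intervalIntegral.integral_of_le hpi2, integral_conj]

theorem N1L_star (h : B) : c.N1L (star h) = star (c.N1L h) := by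
  ext t0
  rw [N1L_apply]
  simp only [BoundedContinuousFunction.star_apply, N1L_apply, Complex.star_def]
  rw [← integral_conj']
  congr 1
  ext t
  simp

theorem aL_star (h : B) : c.aL (star h) = conj (c.aL h) := by
  rw [aL_apply, aL_apply]
  simp only [BoundedContinuousFunction.star_apply, Complex.star_def]
  rw [integral_conj', map_mul, Complex.conj_ofReal]

/-- The Doeblin data of the curve. -/
def data : Data where
  N := c.NL
  N1 := c.N1L
  a := c.aL
  κ := c.κ
  hκ0 := c.κ_nonneg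
  hκ1 := c.κ_lt
  hN := fun h => by rw [N1L_eq]; abel
  hN1norm := c.norm_N1L_le
  hN1one := c.N1L_one
  ha1 := c.aL_one
  hanorm := c.norm_aL_le
  hN1pos := fun _ hh => c.N1L_pos hh
  hapos := fun _ hh => c.aL_pos hh
  hN1star := c.N1L_star
  hastar := c.aL_star

@[simp] theorem data_N : c.data.N = c.NL := rfl
@[simp] theorem data_a : c.data.a = c.aL := rfl

/-- The kernel in the form of helper48's `Lam.Kernel`. -/
theorem kernel : Lam.Kernel c.n c.c1 where
  c1_pos := c.c1_pos
  int := c.integrable_n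
  low := fun t0 => by
    filter_upwards [ae_cos_ne t0] with t ht _
    exact c.c1_le_n ht
  mass := c.mass_n
  cont := fun h => c.continuous_Nf h.continuous (fun t => h.norm_coe_le_norm t)

/-- `λ(h) ≥ c₁ ∫ h` for positive `h`. -/
theorem lam_ge {h : B} (hh : Pos h) :
    c.c1 * ∫ t in (0 : ℝ)..(2 * π), (h t).re ≤ (c.data.lam h).re := by
  have h1 := c.data.a_le_lam hh
  refine le_trans (le_of_eq ?_) h1
  rw [data_a, aL_apply]
  have e : ∀ t, h t = (((h t).re : ℝ) : ℂ) := Pos.eq_ofReal hh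
  have e2 : (∫ t in (0 : ℝ)..(2 * π), h t) = (((∫ t in (0 : ℝ)..(2 * π), (h t).re) : ℝ) : ℂ) := by
    rw [← intervalIntegral.integral_ofReal]
    exact intervalIntegral.integral_congr fun t _ => e t
  rw [e2, ← Complex.ofReal_mul, Complex.ofReal_re]

end Crv

section ofCurve

/-- The curve data attached to a smooth periodic support function with `s + s'' > 0`. -/
def ofSupport (s : ℝ → ℝ) (hsm : ContDiff ℝ (⊤ : ℕ∞) s) (hp : Function.Periodic s (2 * π))
    (hR : ∀ t, 0 < s t + deriv (deriv s) t) : Crv :=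
  have hd1 : ContDiff ℝ (⊤ : ℕ∞) (deriv s) := (contDiff_infty_iff_deriv.1 hsm).2
  have hd2 : ContDiff ℝ (⊤ : ℕ∞) (deriv (deriv s)) := (contDiff_infty_iff_deriv.1 hd1).2
  have hRc : Continuous fun t => s t + deriv (deriv s) t := hsm.continuous.add hd2.continuous
  have hpd1 : Function.Periodic (deriv s) (2 * π) := fun t => by
    have : deriv s (t + 2 * π) = deriv (fun u => s (u + 2 * π)) t := (deriv_comp_add_const s (2 * π) t).symm
    rw [this]
    have e : (fun u => s (u + 2 * π)) = s := funext fun u => hp u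
    rw [e]
  have hpd2 : Function.Periodic (deriv (deriv s)) (2 * π) := fun t => by
    have : deriv (deriv s) (t + 2 * π) = deriv (fun u => deriv s (u + 2 * π)) t :=
      (deriv_comp_add_const (deriv s) (2 * π) t).symm
    rw [this]
    have e : (fun u => deriv s (u + 2 * π)) = deriv s := funext fun u => hpd1 u
    rw [e]
  have hRp : ∀ t, (fun t => s t + deriv (deriv s) t) (t + 2 * π) = (fun t => s t + deriv (deriv s) t) t := fun t => by
    simp only [hp t, hpd2 t]
  have hcomp : IsCompact (Set.Icc (0 : ℝ) (2 * π)) := isCompact_Icc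
  have hne : (Set.Icc (0 : ℝ) (2 * π)).Nonempty := ⟨0, by simp [Real.pi_pos.le]⟩
  let tmin := (hcomp.exists_isMinOn hne hRc.continuousOn).choose
  let tmax := (hcomp.exists_isMaxOn hne hRc.continuousOn).choose
  have hmin0 := (hcomp.exists_isMinOn hne hRc.continuousOn).choose_spec.2
  have hmax0 := (hcomp.exists_isMaxOn hne hRc.continuousOn).choose_spec.2
  have hall : ∀ t, ∃ u ∈ Set.Icc (0 : ℝ) (2 * π),
      (fun t => s t + deriv (deriv s) t) t = (fun t => s t + deriv (deriv s) t) u := fun t => by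
    obtain ⟨u, hu, hk⟩ : ∃ u ∈ Set.Ico (0 : ℝ) (0 + 2 * π), ∃ k : ℤ, u = t - k • (2 * π) := by
      obtain ⟨k, hk⟩ := existsUnique_sub_zsmul_mem_Ico (by positivity : (0 : ℝ) < 2 * π) t 0 |>.exists
      exact ⟨_, hk, k, rfl⟩
    obtain ⟨k, rfl⟩ := hk
    refine ⟨t - k • (2 * π), ⟨hu.1, by simpa using hu.2.le⟩, ?_⟩
    have hper : Function.Periodic (fun t => s t + deriv (deriv s) t) (2 * π) := hRp
    exact (hper.sub_zsmul_eq k).symm
  { s := s
    s1 := deriv s
    R := fun t => s t + deriv (deriv s) t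
    hs := fun t => (hsm.differentiable (by simp) t).hasDerivAt
    hs1 := fun t => by
      have h := (hd1.differentiable (by simp) t).hasDerivAt
      simpa using h
    hper := hp
    hper1 := hpd1
    hRc := hRc
    rmin := s tmin + deriv (deriv s) tmin
    rmax := s tmax + deriv (deriv s) tmax
    hr0 := hR tmin
    hmin := fun t => by
      obtain ⟨u, hu, h⟩ := hall t
      simp only at h
      rw [h]
      exact hmin0 hu
    hmax := fun t => by
      obtain ⟨u, hu, h⟩ := hall t
      simp only at h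
      rw [h]
      exact hmax0 hu
    hRper := hRp }

end ofCurve

end

end Vale.Agent.Lib.P123C.CrvData
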