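import Mathlib

/-!
# Geometry of a strictly convex curve given by its support function

Data: `s s1 R : ℝ → ℝ` with `s' = s1`, `s1' = R - s`, all `2π`-periodic, `R` continuous with
`rmin ≤ R ≤ rmax`, `0 < rmin`. The curve is `sig t = (s t + i s1 t) e^{it}`, with `sig' = i R e^{it}`,
and `hh t z = s t - Re (conj (e t) * z)` is the distance-like function to the tangent line.
-/

open Complex Set Filter Topology MeasureTheory
open scoped Real ComplexConjugate

namespace Vale.Agent.Lib.P123C.Geom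

noncomputable section

/-- The unit vector of angle `t`. -/
def e (t : ℝ) : ℂ := Complex.exp ((t : ℂ) * I)

/-- The curve with support function `s`. -/
def sig (s s1 : ℝ → ℝ) (t : ℝ) : ℂ := ((s t : ℂ) + (s1 t : ℂ) * I) * e t

/-- The signed distance-like function from `z` to the tangent line at angle `t`. -/
def hh (s : ℝ → ℝ) (t : ℝ) (z : ℂ) : ℝ := s t - (conj (e t) * z).re

theorem norm_e (t : ℝ) : ‖e t‖ = 1 := by
  simp [e, Complex.norm_exp_ofReal_mul_I]

theorem e_ne_zero (t : ℝ) : e t ≠ 0 := Complex.exp_ne_zero _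

theorem conj_e (t : ℝ) : conj (e t) = Complex.exp (-((t : ℂ) * I)) := by
  rw [e, ← Complex.exp_conj]
  simp

theorem conj_e_mul_e (t : ℝ) : conj (e t) * e t = 1 := by
  rw [conj_e, e, ← Complex.exp_add]
  simp

theorem e_re (t : ℝ) : (e t).re = Real.cos t := by
  simp [e, Complex.exp_ofReal_mul_I_re]

theorem e_im (t : ℝ) : (e t).im = Real.sin t := by
  simp [e, Complex.exp_ofReal_mul_I_im]

theorem hasDerivAt_e (t : ℝ) : HasDerivAt e (I * e t) t := by
  have h1 : HasDerivAt (fun x : ℝ => (x : ℂ) * I) I t := by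
    simpa using (Complex.ofRealCLM.hasDerivAt (x := t)).mul_const I
  have h2 : HasDerivAt e (Complex.exp ((t : ℂ) * I) * I) t := h1.cexp
  exact h2.congr_deriv (by rw [e, mul_comm])

theorem conj_e_mul_e' (a b : ℝ) : (conj (e a) * e b).re = Real.cos (b - a) := by
  simp only [e_re, e_im, Complex.mul_re, Complex.conj_re, Complex.conj_im, Real.cos_sub]
  ring

theorem conj_e_mul_e_im (a b : ℝ) : (conj (e a) * e b).im = Real.sin (b - a) := by
  simp only [e_re, e_im, Complex.mul_im, Complex.conj_re, Complex.conj_im, Real.sin_sub]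
  ring

theorem e_periodic (t : ℝ) : e (t + 2 * π) = e t := by
  simp only [e]
  push_cast
  rw [add_mul, Complex.exp_add, Complex.exp_two_pi_mul_I, mul_one]

section Core

variable {s s1 R : ℝ → ℝ} {t : ℝ}

theorem hasDerivAt_sig (hs : ∀ t, HasDerivAt s (s1 t) t)
    (hs1 : ∀ t, HasDerivAt s1 (R t - s t) t) (t : ℝ) :
    HasDerivAt (sig s s1) (I * (R t : ℂ) * e t) t := by
  have h1 : HasDerivAt (fun x : ℝ => (s x : ℂ)) (s1 t : ℂ) t := (hs t).ofReal_comp
  have h2 : HasDerivAt (fun x : ℝ => (s1 x : ℂ)) ((R t - s t : ℝ) : ℂ) t := (hs1 t).ofReal_comp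
  have h3 : HasDerivAt (sig s s1) _ t := (h1.add (h2.mul_const I)).mul (hasDerivAt_e t)
  refine h3.congr_deriv ?_
  simp only [Pi.add_apply]
  push_cast
  have hI : I * I = -1 := Complex.I_mul_I
  linear_combination ((s1 t : ℂ) * e t) * hI

/-- Comparison lemma for `f'' + f = q ≥ 0`, without integrals. -/
theorem comparison {f f1 q : ℝ → ℝ} (hf : ∀ t, HasDerivAt f (f1 t) t)
    (hf1 : ∀ t, HasDerivAt f1 (q t - f t) t) {a u : ℝ} (hu : 0 ≤ u) (hu' : u ≤ π)
    (hq : ∀ t ∈ Icc a (a + u), 0 ≤ q t) (h0 : f a = 0) (h1 : f1 a = 0) : 0 ≤ f (a + u) := by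
  set g : ℝ → ℝ := fun τ => f1 τ * Real.sin (a + u - τ) + f τ * Real.cos (a + u - τ) with hg
  have hd : ∀ τ, HasDerivAt g (q τ * Real.sin (a + u - τ)) τ := by
    intro τ
    have hinner : HasDerivAt (fun τ : ℝ => a + u - τ) (-1) τ := by
      simpa using (hasDerivAt_id τ).const_sub (a + u)
    have hsin := (Real.hasDerivAt_sin (a + u - τ)).comp τ hinner
    have hcos := (Real.hasDerivAt_cos (a + u - τ)).comp τ hinner
    have h3 : HasDerivAt g _ τ := ((hf1 τ).mul hsin).add ((hf τ).mul hcos)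
    refine h3.congr_deriv ?_
    simp only [Function.comp, mul_neg, mul_one]
    ring
  have hmono : MonotoneOn g (Icc a (a + u)) := by
    apply monotoneOn_of_deriv_nonneg (convex_Icc _ _)
    · exact fun x _ => (hd x).continuousAt.continuousWithinAt
    · exact fun x _ => (hd x).differentiableAt.differentiableWithinAt
    · intro x hx
      rw [interior_Icc] at hx
      rw [(hd x).deriv]
      apply mul_nonneg (hq x (Ioo_subset_Icc_self hx))
      apply Real.sin_nonneg_of_nonneg_of_le_pi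
      · linarith [hx.2]
      · linarith [hx.1]
  have hle := hmono (left_mem_Icc.2 (by linarith)) (right_mem_Icc.2 (by linarith))
    (by linarith : a ≤ a + u)
  simp only [hg, h0, h1] at hle
  simpa using hle

/-- The comparison lemma in both directions. -/
theorem comparison' {f f1 q : ℝ → ℝ} (hf : ∀ t, HasDerivAt f (f1 t) t)
    (hf1 : ∀ t, HasDerivAt f1 (q t - f t) t) (hq : ∀ t, 0 ≤ q t) {a t : ℝ}
    (ht : |t - a| ≤ π) (h0 : f a = 0) (h1 : f1 a = 0) : 0 ≤ f t := by
  rcases le_total a t with h | h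
  · have := comparison hf hf1 (a := a) (u := t - a) (by linarith)
      (by have := (abs_le.1 ht).2; linarith) (fun x _ => hq x) h0 h1
    simpa using this
  · -- reflect
    have hf' : ∀ τ, HasDerivAt (fun τ => f (2 * a - τ)) (-(f1 (2 * a - τ))) τ := by
      intro τ
      have hinner : HasDerivAt (fun τ : ℝ => 2 * a - τ) (-1) τ := by
        simpa using (hasDerivAt_id τ).const_sub (2 * a)
      have h3 : HasDerivAt (fun τ => f (2 * a - τ)) _ τ :=
        HasDerivAt.comp (h₂ := f) τ (hf (2 * a - τ)) hinner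
      exact h3.congr_deriv (by ring)
    have hf1' : ∀ τ, HasDerivAt (fun τ => -(f1 (2 * a - τ)))
        ((fun τ => q (2 * a - τ)) τ - f (2 * a - τ)) τ := by
      intro τ
      have hinner : HasDerivAt (fun τ : ℝ => 2 * a - τ) (-1) τ := by
        simpa using (hasDerivAt_id τ).const_sub (2 * a)
      have h3 : HasDerivAt (fun τ => -(f1 (2 * a - τ))) _ τ :=
        (HasDerivAt.comp (h₂ := f1) τ (hf1 (2 * a - τ)) hinner).neg
      exact h3.congr_deriv (by ring)
    have := comparison (f := fun τ => f (2 * a - τ)) (f1 := fun τ => -(f1 (2 * a - τ)))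
      (q := fun τ => q (2 * a - τ)) hf' hf1' (a := a) (u := a - t) (by linarith)
      (by have := (abs_le.1 ht).1; linarith) (fun x _ => hq _)
      (by simpa [two_mul] using h0) (by simp [two_mul, h1])
    have h2 : 2 * a - (a + (a - t)) = t := by ring
    simpa [h2] using this

/-- `hh` at a point of the curve, explicitly. -/
theorem hh_sig (t t0 : ℝ) :
    hh s t (sig s s1 t0) = s t - (s t0 * Real.cos (t - t0) + s1 t0 * Real.sin (t - t0)) := by
  have h1 : conj (e t) * sig s s1 t0 = ((s t0 : ℂ) + (s1 t0 : ℂ) * I) * (conj (e t) * e t0) := by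
    simp only [sig]; ring
  have h2 : (conj (e t) * e t0).re = Real.cos (t - t0) := by
    rw [conj_e_mul_e', ← Real.cos_neg]; congr 1; ring
  have h3 : (conj (e t) * e t0).im = - Real.sin (t - t0) := by
    rw [conj_e_mul_e_im, ← Real.sin_neg]; congr 1; ring
  simp only [hh]
  rw [h1, Complex.mul_re, h2, h3]
  simp

/-- The `t`-derivative of `hh` at a point of the curve. -/
def hh1 (s1 : ℝ → ℝ) (t : ℝ) (z : ℂ) : ℝ := s1 t - (conj (e t) * z).im

theorem conj_e_mul_sub_sig (t : ℝ) (z : ℂ) :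
    conj (e t) * (sig s s1 t - z) = ((hh s t z : ℂ) + (hh1 s1 t z : ℂ) * I) := by
  have h1 : conj (e t) * (sig s s1 t - z) = ((s t : ℂ) + (s1 t : ℂ) * I) - conj (e t) * z := by
    simp only [sig]
    linear_combination ((s t : ℂ) + (s1 t : ℂ) * I) * conj_e_mul_e t
  rw [h1]
  apply Complex.ext <;> simp [hh, hh1]

theorem sig_sub_eq (t : ℝ) (z : ℂ) :
    sig s s1 t - z = e t * ((hh s t z : ℂ) + (hh1 s1 t z : ℂ) * I) := by
  rw [← conj_e_mul_sub_sig, ← mul_assoc, mul_comm (e t), conj_e_mul_e, one_mul]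

theorem normSq_sig_sub (t : ℝ) (z : ℂ) :
    ‖sig s s1 t - z‖ ^ 2 = hh s t z ^ 2 + hh1 s1 t z ^ 2 := by
  rw [sig_sub_eq (s := s) (s1 := s1), norm_mul, norm_e, one_mul, ← Complex.normSq_eq_norm_sq,
    Complex.normSq_apply]
  simp
  ring

theorem hasDerivAt_hh (hs : ∀ t, HasDerivAt s (s1 t) t) (z : ℂ) (t : ℝ) :
    HasDerivAt (fun t => hh s t z) (hh1 s1 t z) t := by
  have h1 : (fun t => hh s t z) = fun t => s t - ((e t).re * z.re + (e t).im * z.im) := by
    funext x
    simp [hh, Complex.mul_re]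
  rw [h1]
  have hc : HasDerivAt (fun t => (e t).re) (-Real.sin t) t := by
    simp only [e_re]
    exact Real.hasDerivAt_cos t
  have hsn : HasDerivAt (fun t => (e t).im) (Real.cos t) t := by
    simp only [e_im]
    exact Real.hasDerivAt_sin t
  have h2 := (hs t).sub ((hc.mul_const z.re).add (hsn.mul_const z.im))
  refine h2.congr_deriv ?_
  simp [hh1, Complex.mul_im, e_re, e_im]
  ring

theorem hasDerivAt_hh1 (hs1 : ∀ t, HasDerivAt s1 (R t - s t) t) (z : ℂ) (t : ℝ) :
    HasDerivAt (fun t => hh1 s1 t z) (R t - hh s t z) t := by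
  have h1 : (fun t => hh1 s1 t z) = fun t => s1 t - ((e t).re * z.im - (e t).im * z.re) := by
    funext x
    simp [hh1, Complex.mul_im]
    ring
  rw [h1]
  have hc : HasDerivAt (fun t => (e t).re) (-Real.sin t) t := by
    simp only [e_re]
    exact Real.hasDerivAt_cos t
  have hsn : HasDerivAt (fun t => (e t).im) (Real.cos t) t := by
    simp only [e_im]
    exact Real.hasDerivAt_sin t
  have h2 := (hs1 t).sub ((hc.mul_const z.im).sub (hsn.mul_const z.re))
  refine h2.congr_deriv ?_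
  simp [hh, Complex.mul_re, e_re, e_im]
  ring

theorem hh_self (t : ℝ) : hh s t (sig s s1 t) = 0 := by
  rw [hh_sig]; simp

theorem hh1_self (t : ℝ) : hh1 s1 t (sig s s1 t) = 0 := by
  have := conj_e_mul_sub_sig (s := s) (s1 := s1) t (sig s s1 t)
  rw [sub_self, mul_zero, hh_self] at this
  have h2 := congrArg Complex.im this
  simpa using h2.symm

/-- Bounds on `hh` along the curve, in the fundamental range. -/
theorem hh_sig_bounds_aux (hs : ∀ t, HasDerivAt s (s1 t) t)
    (hs1 : ∀ t, HasDerivAt s1 (R t - s t) t) {rmin rmax : ℝ}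
    (hmin : ∀ t, rmin ≤ R t) (hmax : ∀ t, R t ≤ rmax) {t t0 : ℝ} (ht : |t - t0| ≤ π) :
    rmin * (1 - Real.cos (t - t0)) ≤ hh s t (sig s s1 t0) ∧
      hh s t (sig s s1 t0) ≤ rmax * (1 - Real.cos (t - t0)) := by
  have hc : ∀ c τ : ℝ, HasDerivAt (fun τ => c * (1 - Real.cos (τ - t0))) (c * Real.sin (τ - t0)) τ := by
    intro c τ
    have h0 : HasDerivAt (fun τ : ℝ => τ - t0) 1 τ := by simpa using (hasDerivAt_id τ).sub_const t0
    have h1 : HasDerivAt (fun τ : ℝ => Real.cos (τ - t0)) _ τ :=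
      HasDerivAt.comp (h₂ := Real.cos) τ (Real.hasDerivAt_cos (τ - t0)) h0
    have h2 := (h1.const_sub 1).const_mul c
    exact h2.congr_deriv (by ring)
  have hc1 : ∀ c τ : ℝ, HasDerivAt (fun τ => c * Real.sin (τ - t0))
      (c - c * (1 - Real.cos (τ - t0))) τ := by
    intro c τ
    have h0 : HasDerivAt (fun τ : ℝ => τ - t0) 1 τ := by simpa using (hasDerivAt_id τ).sub_const t0
    have h1 : HasDerivAt (fun τ : ℝ => Real.sin (τ - t0)) _ τ :=
      HasDerivAt.comp (h₂ := Real.sin) τ (Real.hasDerivAt_sin (τ - t0)) h0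
    have h2 := h1.const_mul c
    exact h2.congr_deriv (by ring)
  constructor
  · have := comparison' (f := fun τ => hh s τ (sig s s1 t0) - rmin * (1 - Real.cos (τ - t0)))
      (f1 := fun τ => hh1 s1 τ (sig s s1 t0) - rmin * Real.sin (τ - t0))
      (q := fun τ => R τ - rmin)
      (fun τ => (hasDerivAt_hh hs _ τ).sub (hc rmin τ))
      (fun τ => ((hasDerivAt_hh1 hs1 _ τ).sub (hc1 rmin τ)).congr_deriv (by ring))
      (fun τ => by linarith [hmin τ]) ht (by simp [hh_self]) (by simp [hh1_self])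
    simpa using this
  · have := comparison' (f := fun τ => rmax * (1 - Real.cos (τ - t0)) - hh s τ (sig s s1 t0))
      (f1 := fun τ => rmax * Real.sin (τ - t0) - hh1 s1 τ (sig s s1 t0))
      (q := fun τ => rmax - R τ)
      (fun τ => (hc rmax τ).sub (hasDerivAt_hh hs _ τ))
      (fun τ => ((hc1 rmax τ).sub (hasDerivAt_hh1 hs1 _ τ)).congr_deriv (by ring))
      (fun τ => by linarith [hmax τ]) ht (by simp [hh_self]) (by simp [hh1_self])
    simpa using this

/-- Periodicity of `hh`. -/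
theorem hh_periodic (hper : ∀ t, s (t + 2 * π) = s t) (t : ℝ) (z : ℂ) :
    hh s (t + 2 * π) z = hh s t z := by
  simp only [hh, hper, e_periodic]

theorem hh1_periodic (hper1 : ∀ t, s1 (t + 2 * π) = s1 t) (t : ℝ) (z : ℂ) :
    hh1 s1 (t + 2 * π) z = hh1 s1 t z := by
  simp only [hh1, hper1, e_periodic]

theorem sig_periodic (hper : ∀ t, s (t + 2 * π) = s t) (hper1 : ∀ t, s1 (t + 2 * π) = s1 t)
    (t : ℝ) : sig s s1 (t + 2 * π) = sig s s1 t := by
  simp only [sig, hper, hper1, e_periodic]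

/-- Any real number is congruent to one in the fundamental range around `t0`. -/
theorem exists_fund (t t0 : ℝ) : ∃ (n : ℤ), |t + n * (2 * π) - t0| ≤ π := by
  have hpos : (0 : ℝ) < 2 * π := by positivity
  refine ⟨- ⌊(t - t0 + π) / (2 * π)⌋, ?_⟩
  set x := (t - t0 + π) / (2 * π) with hx
  have h1 := Int.floor_le x
  have h2 := Int.lt_floor_add_one x
  have h3 : t - t0 + π = x * (2 * π) := by
    rw [hx]; field_simp
  have h4 : (⌊x⌋ : ℝ) * (2 * π) ≤ x * (2 * π) := mul_le_mul_of_nonneg_right h1 hpos.le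
  have h5 : x * (2 * π) < ((⌊x⌋ : ℝ) + 1) * (2 * π) := mul_lt_mul_of_pos_right h2 hpos
  rw [abs_le]
  push_cast
  constructor <;> nlinarith

theorem hh_int_periodic (hper : ∀ t, s (t + 2 * π) = s t) (n : ℤ) (t : ℝ) (z : ℂ) :
    hh s (t + n * (2 * π)) z = hh s t z := by
  have h : Function.Periodic (fun t => hh s t z) (2 * π) := fun t => hh_periodic hper t z
  exact h.int_mul n t |>.trans rfl |> fun h' => by simpa [mul_comm] using h'

theorem sig_int_periodic (hper : ∀ t, s (t + 2 * π) = s t) (hper1 : ∀ t, s1 (t + 2 * π) = s1 t)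
    (n : ℤ) (t : ℝ) : sig s s1 (t + n * (2 * π)) = sig s s1 t := by
  have h : Function.Periodic (sig s s1) (2 * π) := fun t => sig_periodic hper hper1 t
  exact h.int_mul n t |>.trans rfl |> fun h' => by simpa [mul_comm] using h'

theorem cos_int_periodic (n : ℤ) (u : ℝ) : Real.cos (u + n * (2 * π)) = Real.cos u := by
  exact Real.cos_add_int_mul_two_pi u n

/-- Bounds on `hh` along the curve, everywhere. -/
theorem hh_sig_bounds (hs : ∀ t, HasDerivAt s (s1 t) t)
    (hs1 : ∀ t, HasDerivAt s1 (R t - s t) t) (hper : ∀ t, s (t + 2 * π) = s t)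
    {rmin rmax : ℝ} (hmin : ∀ t, rmin ≤ R t) (hmax : ∀ t, R t ≤ rmax) (t t0 : ℝ) :
    rmin * (1 - Real.cos (t - t0)) ≤ hh s t (sig s s1 t0) ∧
      hh s t (sig s s1 t0) ≤ rmax * (1 - Real.cos (t - t0)) := by
  obtain ⟨n, hn⟩ := exists_fund t t0
  have h := hh_sig_bounds_aux hs hs1 hmin hmax hn
  rw [hh_int_periodic hper] at h
  have h2 : Real.cos (t + n * (2 * π) - t0) = Real.cos (t - t0) := by
    rw [show t + n * (2 * π) - t0 = (t - t0) + n * (2 * π) by ring, cos_int_periodic]
  rwa [h2] at h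

/-- A lower bound on chords in the half range `0 ≤ t - t0 ≤ π`. -/
theorem chord_lower_aux (hs : ∀ t, HasDerivAt s (s1 t) t)
    (hs1 : ∀ t, HasDerivAt s1 (R t - s t) t) {rmin : ℝ} (hr0 : 0 ≤ rmin)
    (hmin : ∀ t, rmin ≤ R t) {t t0 : ℝ} (h0 : t0 ≤ t) (h1 : t - t0 ≤ π) :
    2 * rmin * Real.sin ((t - t0) / 2) ≤ ‖sig s s1 t - sig s s1 t0‖ := by
  set φ : ℝ := (t + t0) / 2 with hφ
  set c : ℂ := conj (I * e φ) with hc
  have hcn : ‖c‖ = 1 := by simp [hc, norm_e]
  set p : ℝ → ℝ := fun τ => (c * sig s s1 τ).re - rmin * Real.sin (τ - φ) with hp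
  have hd : ∀ τ, HasDerivAt p ((R τ - rmin) * Real.cos (τ - φ)) τ := by
    intro τ
    have h2 : HasDerivAt (fun τ => c * sig s s1 τ) (c * (I * (R τ : ℂ) * e τ)) τ :=
      (hasDerivAt_sig hs hs1 τ).const_mul c
    have h3 : HasDerivAt (fun τ => (c * sig s s1 τ).re) (c * (I * (R τ : ℂ) * e τ)).re τ :=
      (Complex.reCLM.hasFDerivAt.comp_hasDerivAt τ h2)
    have h0' : HasDerivAt (fun τ : ℝ => τ - φ) 1 τ := by simpa using (hasDerivAt_id τ).sub_const φ
    have h4 : HasDerivAt (fun τ : ℝ => Real.sin (τ - φ)) _ τ :=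
      HasDerivAt.comp (h₂ := Real.sin) τ (Real.hasDerivAt_sin (τ - φ)) h0'
    have h5 := h3.sub (h4.const_mul rmin)
    refine h5.congr_deriv ?_
    have h6 : c * (I * (R τ : ℂ) * e τ) = (R τ : ℂ) * (conj (e φ) * e τ) := by
      simp only [hc, map_mul, Complex.conj_I]
      linear_combination (-(R τ : ℂ) * conj (e φ) * e τ) * Complex.I_mul_I
    rw [h6, Complex.re_ofReal_mul, conj_e_mul_e']
    ring
  have hmono : MonotoneOn p (Icc t0 t) := by
    apply monotoneOn_of_deriv_nonneg (convex_Icc _ _)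
    · exact fun x _ => (hd x).continuousAt.continuousWithinAt
    · exact fun x _ => (hd x).differentiableAt.differentiableWithinAt
    · intro x hx
      rw [interior_Icc] at hx
      rw [(hd x).deriv]
      apply mul_nonneg (by linarith [hmin x])
      apply Real.cos_nonneg_of_neg_pi_div_two_le_of_le
      · rw [hφ]; linarith [hx.1]
      · rw [hφ]; linarith [hx.2]
  have hle := hmono (left_mem_Icc.2 h0) (right_mem_Icc.2 h0) h0
  simp only [hp] at hle
  have h7 : t - φ = (t - t0) / 2 := by rw [hφ]; ring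
  have h8 : t0 - φ = -((t - t0) / 2) := by rw [hφ]; ring
  rw [h7, h8, Real.sin_neg] at hle
  have h9 : (c * (sig s s1 t - sig s s1 t0)).re ≤ ‖sig s s1 t - sig s s1 t0‖ := by
    calc _ ≤ ‖c * (sig s s1 t - sig s s1 t0)‖ := Complex.re_le_norm _
      _ = _ := by rw [norm_mul, hcn, one_mul]
  rw [mul_sub, Complex.sub_re] at h9
  linarith

/-- The elementary inequality linking `u²` with `1 - cos u`. -/
theorem sq_le_one_sub_cos {u : ℝ} (hu : |u| ≤ π) : u ^ 2 ≤ π ^ 2 / 2 * (1 - Real.cos u) := by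
  have h0 : 0 ≤ |u| / 2 := by positivity
  have h1 : |u| / 2 ≤ π / 2 := by linarith
  have h2 := Real.mul_le_sin h0 h1
  have hpi := Real.pi_pos
  have h3 : 1 - Real.cos u = 2 * Real.sin (|u| / 2) ^ 2 := by
    have : Real.cos |u| = Real.cos u := Real.cos_abs u
    rw [← this]
    have h4 := Real.cos_sq' (|u| / 2)
    have h5 : Real.cos |u| = Real.cos (2 * (|u| / 2)) := by congr 1; ring
    rw [h5, Real.cos_two_mul]
    nlinarith
  rw [h3]
  have h6 : 2 / π * (|u| / 2) = |u| / π := by field_simp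
  rw [h6] at h2
  have h7 : 0 ≤ |u| / π := by positivity
  have h8 : (|u| / π) ^ 2 ≤ Real.sin (|u| / 2) ^ 2 := by
    apply pow_le_pow_left₀ h7 h2
  have h9 : u ^ 2 = π ^ 2 * (|u| / π) ^ 2 := by
    rw [div_pow, sq_abs]
    field_simp
  rw [h9]
  have hp2 : 0 ≤ π ^ 2 := by positivity
  nlinarith [mul_le_mul_of_nonneg_left h8 hp2]

/-- Chord lower bound, everywhere. -/
theorem chord_lower (hs : ∀ t, HasDerivAt s (s1 t) t)
    (hs1 : ∀ t, HasDerivAt s1 (R t - s t) t) (hper : ∀ t, s (t + 2 * π) = s t)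
    (hper1 : ∀ t, s1 (t + 2 * π) = s1 t) {rmin : ℝ} (hr0 : 0 ≤ rmin)
    (hmin : ∀ t, rmin ≤ R t) (t t0 : ℝ) :
    2 * rmin ^ 2 * (1 - Real.cos (t - t0)) ≤ ‖sig s s1 t - sig s s1 t0‖ ^ 2 := by
  obtain ⟨n, hn⟩ := exists_fund t t0
  set t' := t + n * (2 * π) with ht'
  have hc : Real.cos (t' - t0) = Real.cos (t - t0) := by
    rw [ht', show t + n * (2 * π) - t0 = (t - t0) + n * (2 * π) by ring, cos_int_periodic]
  have hsg : sig s s1 t' = sig s s1 t := sig_int_periodic hper hper1 n t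
  rw [← hc, ← hsg]
  have key : ∀ a b : ℝ, a ≤ b → b - a ≤ π →
      2 * rmin ^ 2 * (1 - Real.cos (b - a)) ≤ ‖sig s s1 b - sig s s1 a‖ ^ 2 := by
    intro a b hab hab'
    have h1 := chord_lower_aux hs hs1 hr0 hmin hab hab'
    have h2 : 0 ≤ Real.sin ((b - a) / 2) :=
      Real.sin_nonneg_of_nonneg_of_le_pi (by linarith) (by linarith)
    have h3 : 0 ≤ 2 * rmin * Real.sin ((b - a) / 2) := by positivity
    have h4 := pow_le_pow_left₀ h3 h1 2
    have h5 : 1 - Real.cos (b - a) = 2 * Real.sin ((b - a) / 2) ^ 2 := by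
      have h6 : Real.cos (b - a) = Real.cos (2 * ((b - a) / 2)) := by congr 1; ring
      rw [h6, Real.cos_two_mul]
      nlinarith [Real.cos_sq' ((b - a) / 2)]
    rw [h5]
    nlinarith
  rcases le_total t0 t' with h | h
  · exact key t0 t' h (by have := (abs_le.1 hn).2; linarith)
  · have := key t' t0 h (by have := (abs_le.1 hn).1; linarith)
    rw [show t0 - t' = -(t' - t0) by ring, Real.cos_neg, norm_sub_rev] at this
    exact this

/-- Chord upper bound, everywhere. -/
theorem chord_upper (hs : ∀ t, HasDerivAt s (s1 t) t)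
    (hs1 : ∀ t, HasDerivAt s1 (R t - s t) t) (hper : ∀ t, s (t + 2 * π) = s t)
    (hper1 : ∀ t, s1 (t + 2 * π) = s1 t) {rmin rmax : ℝ} (hr0 : 0 ≤ rmin)
    (hmin : ∀ t, rmin ≤ R t) (hmax : ∀ t, R t ≤ rmax) (t t0 : ℝ) :
    ‖sig s s1 t - sig s s1 t0‖ ^ 2 ≤ π ^ 2 / 2 * rmax ^ 2 * (1 - Real.cos (t - t0)) := by
  obtain ⟨n, hn⟩ := exists_fund t t0
  set t' := t + n * (2 * π) with ht'
  have hc : Real.cos (t' - t0) = Real.cos (t - t0) := by
    rw [ht', show t + n * (2 * π) - t0 = (t - t0) + n * (2 * π) by ring, cos_int_periodic]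
  have hsg : sig s s1 t' = sig s s1 t := sig_int_periodic hper hper1 n t
  rw [← hc, ← hsg]
  have hrmax : 0 ≤ rmax := hr0.trans ((hmin 0).trans (hmax 0))
  have h1 : ‖sig s s1 t' - sig s s1 t0‖ ≤ rmax * |t' - t0| := by
    have hb : ∀ x ∈ (Set.univ : Set ℝ), HasDerivWithinAt (sig s s1) (I * (R x : ℂ) * e x) Set.univ x :=
      fun x _ => (hasDerivAt_sig hs hs1 x).hasDerivWithinAt
    have hbound : ∀ x ∈ (Set.univ : Set ℝ), ‖I * (R x : ℂ) * e x‖ ≤ rmax := by
      intro x _
      simp only [norm_mul, Complex.norm_I, one_mul, norm_e, mul_one, Complex.norm_real, Real.norm_eq_abs]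
      rw [abs_of_nonneg (hr0.trans (hmin x))]
      exact hmax x
    have := Convex.norm_image_sub_le_of_norm_hasDerivWithin_le hb hbound convex_univ
      (mem_univ t0) (mem_univ t')
    simpa [Real.norm_eq_abs] using this
  have h2 := sq_le_one_sub_cos hn
  have h3 : ‖sig s s1 t' - sig s s1 t0‖ ^ 2 ≤ (rmax * |t' - t0|) ^ 2 :=
    pow_le_pow_left₀ (norm_nonneg _) h1 2
  rw [mul_pow, sq_abs] at h3
  have hr2 : 0 ≤ rmax ^ 2 := by positivity
  nlinarith [mul_le_mul_of_nonneg_left h2 hr2]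

/-- The Cauchy density on the curve, in terms of `hh`. -/
theorem sigd_div (t : ℝ) (z : ℂ) :
    (I * (R t : ℂ) * e t) / (sig s s1 t - z) = I * (R t : ℂ) / ((hh s t z : ℂ) + (hh1 s1 t z : ℂ) * I) := by
  rw [sig_sub_eq (s := s) (s1 := s1)]
  have he := e_ne_zero t
  by_cases h : ((hh s t z : ℂ) + (hh1 s1 t z : ℂ) * I) = 0
  · simp [h]
  · field_simp

/-- The imaginary part of the Cauchy density. -/
theorem im_sigd_div (t : ℝ) (z : ℂ) :
    ((I * (R t : ℂ) * e t) / (sig s s1 t - z)).im = R t * hh s t z / ‖sig s s1 t - z‖ ^ 2 := by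
  rw [sigd_div, normSq_sig_sub]
  rw [Complex.div_im]
  simp [Complex.normSq_apply]
  by_cases h : hh s t z * hh s t z + hh1 s1 t z * hh1 s1 t z = 0
  · have h0 : hh s t z ^ 2 + hh1 s1 t z ^ 2 = 0 := by nlinarith
    simp [h, h0]
  · have h0 : hh s t z ^ 2 + hh1 s1 t z ^ 2 ≠ 0 := by
      intro h1; apply h; nlinarith
    field_simp

/-- The Poisson-type kernel of the curve. -/
def Pk (s s1 R : ℝ → ℝ) (z : ℂ) (t : ℝ) : ℝ :=
  (1 / π) * (R t * hh s t z / ‖sig s s1 t - z‖ ^ 2)

theorem Pk_eq_im (z : ℂ) (t : ℝ) :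
    Pk s s1 R z t = (1 / π) * ((I * (R t : ℂ) * e t) / (sig s s1 t - z)).im := by
  rw [Pk, im_sigd_div]

theorem Pk_nonneg_of_hh (hR : 0 ≤ R t) {z : ℂ} (hz : 0 ≤ hh s t z) : 0 ≤ Pk s s1 R z t := by
  unfold Pk
  have := Real.pi_pos
  positivity

/-- Two-sided bounds of the kernel on the curve, off the diagonal. -/
theorem Pk_sig_bounds (hs : ∀ t, HasDerivAt s (s1 t) t)
    (hs1 : ∀ t, HasDerivAt s1 (R t - s t) t) (hper : ∀ t, s (t + 2 * π) = s t)
    (hper1 : ∀ t, s1 (t + 2 * π) = s1 t) {rmin rmax : ℝ} (hr0 : 0 < rmin)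
    (hmin : ∀ t, rmin ≤ R t) (hmax : ∀ t, R t ≤ rmax) {t t0 : ℝ}
    (hne : Real.cos (t - t0) ≠ 1) :
    2 * rmin ^ 2 / (π ^ 3 * rmax ^ 2) ≤ Pk s s1 R (sig s s1 t0) t ∧
      Pk s s1 R (sig s s1 t0) t ≤ rmax ^ 2 / (2 * π * rmin ^ 2) := by
  have hpi := Real.pi_pos
  have hv : 0 < 1 - Real.cos (t - t0) := by
    have := Real.cos_le_one (t - t0)
    rcases this.lt_or_eq with h | h
    · linarith
    · exact absurd h hne
  set v := 1 - Real.cos (t - t0) with hvdef
  obtain ⟨ha, hb⟩ := hh_sig_bounds hs hs1 hper hmin hmax t t0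
  have hc1 := chord_lower hs hs1 hper hper1 hr0.le hmin t t0
  have hc2 := chord_upper hs hs1 hper hper1 hr0.le hmin hmax t t0
  rw [← hvdef] at ha hb hc1 hc2
  have hrmax : 0 < rmax := hr0.trans_le ((hmin 0).trans (hmax 0))
  have hRt := hmin t
  have hRt' := hmax t
  set a := hh s t (sig s s1 t0) with ha'
  set D := ‖sig s s1 t - sig s s1 t0‖ ^ 2 with hD
  have hDpos : 0 < D := lt_of_lt_of_le (by positivity) hc1
  have hapos : 0 ≤ a := le_trans (by positivity) ha
  unfold Pk
  rw [← ha', ← hD]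
  constructor
  · have h1 : rmin * (rmin * v) ≤ R t * a := by
      apply mul_le_mul hRt ha (by positivity) (by linarith)
    have h2 : 2 * rmin ^ 2 / (π ^ 3 * rmax ^ 2) = (1 / π) * ((rmin * (rmin * v)) / (π ^ 2 / 2 * rmax ^ 2 * v)) := by
      field_simp
    rw [h2]
    apply mul_le_mul_of_nonneg_left _ (by positivity)
    apply div_le_div₀ (by nlinarith [mul_nonneg hapos (by linarith : (0:ℝ) ≤ R t)]) h1 hDpos hc2
  · have h1 : R t * a ≤ rmax * (rmax * v) := by
      apply mul_le_mul hRt' hb hapos hrmax.le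
    have h2 : rmax ^ 2 / (2 * π * rmin ^ 2) = (1 / π) * ((rmax * (rmax * v)) / (2 * rmin ^ 2 * v)) := by
      field_simp
    rw [h2]
    apply mul_le_mul_of_nonneg_left _ (by positivity)
    apply div_le_div₀ (by positivity) h1 (by positivity) hc1

/-- The kernel on the curve has a uniform bound, even on the diagonal. -/
theorem Pk_sig_abs_le (hs : ∀ t, HasDerivAt s (s1 t) t)
    (hs1 : ∀ t, HasDerivAt s1 (R t - s t) t) (hper : ∀ t, s (t + 2 * π) = s t)
    (hper1 : ∀ t, s1 (t + 2 * π) = s1 t) {rmin rmax : ℝ} (hr0 : 0 < rmin)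
    (hmin : ∀ t, rmin ≤ R t) (hmax : ∀ t, R t ≤ rmax) (t t0 : ℝ) :
    0 ≤ Pk s s1 R (sig s s1 t0) t ∧ Pk s s1 R (sig s s1 t0) t ≤ rmax ^ 2 / (2 * π * rmin ^ 2) := by
  have hpi := Real.pi_pos
  have hrmax : 0 < rmax := hr0.trans_le ((hmin 0).trans (hmax 0))
  by_cases hne : Real.cos (t - t0) = 1
  · have h2 := chord_upper hs hs1 hper hper1 hr0.le hmin hmax t t0
    rw [hne, sub_self, mul_zero] at h2
    have h3 : ‖sig s s1 t - sig s s1 t0‖ ^ 2 = 0 := le_antisymm h2 (by positivity)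
    unfold Pk
    rw [h3]
    simp
    positivity
  · have h := Pk_sig_bounds hs hs1 hper hper1 hr0 hmin hmax hne
    refine ⟨le_trans (by positivity) h.1, h.2⟩

theorem continuous_e : Continuous e := by
  unfold e; fun_prop

theorem continuous_sig (hs : ∀ t, HasDerivAt s (s1 t) t)
    (hs1 : ∀ t, HasDerivAt s1 (R t - s t) t) : Continuous (sig s s1) :=
  continuous_iff_continuousAt.2 fun t => (hasDerivAt_sig hs hs1 t).continuousAt

/-- Winding number of the curve around an inside point. -/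
theorem wind_inside (hs : ∀ t, HasDerivAt s (s1 t) t) (hs1 : ∀ t, HasDerivAt s1 (R t - s t) t)
    (hper : ∀ t, s (t + 2 * π) = s t) (hper1 : ∀ t, s1 (t + 2 * π) = s1 t) (hRc : Continuous R)
    {z : ℂ} (hz : ∀ t, 0 < hh s t z) :
    ∫ t in (0 : ℝ)..(2 * π), (I * (R t : ℂ) * e t) / (sig s s1 t - z) = 2 * π * I := by
  have hw : ∀ t, ((hh s t z : ℂ) + (hh1 s1 t z : ℂ) * I) ≠ 0 := by
    intro t h
    have := congrArg Complex.re h
    simp at this
    exact (hz t).ne' this
  have hne : ∀ t, sig s s1 t - z ≠ 0 := by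
    intro t h
    rw [sig_sub_eq (s := s) (s1 := s1)] at h
    exact (mul_ne_zero (e_ne_zero t) (hw t)) h
  have hder : ∀ t, HasDerivAt (fun t : ℝ => (t : ℂ) * I +
      Complex.log ((hh s t z : ℂ) + (hh1 s1 t z : ℂ) * I))
      ((I * (R t : ℂ) * e t) / (sig s s1 t - z)) t := by
    intro t
    have h1 : HasDerivAt (fun t : ℝ => (t : ℂ) * I) I t := by
      simpa using (Complex.ofRealCLM.hasDerivAt (x := t)).mul_const I
    have h2 : HasDerivAt (fun t => ((hh s t z : ℂ) + (hh1 s1 t z : ℂ) * I))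
        ((hh1 s1 t z : ℂ) + ((R t - hh s t z : ℝ) : ℂ) * I) t :=
      (hasDerivAt_hh hs z t).ofReal_comp.add ((hasDerivAt_hh1 hs1 z t).ofReal_comp.mul_const I)
    have hmem : ((hh s t z : ℂ) + (hh1 s1 t z : ℂ) * I) ∈ Complex.slitPlane := by
      left
      simpa using hz t
    have h3 := h1.add (h2.clog_real hmem)
    refine h3.congr_deriv ?_
    rw [sigd_div]
    have := hw t
    field_simp
    push_cast
    have hI : I * I = -1 := Complex.I_mul_I
    have hq : (hh s t z : ℂ) + I * (hh1 s1 t z : ℂ) ≠ 0 := by rwa [mul_comm I]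
    field_simp
    linear_combination ((hh1 s1 t z : ℂ)) * hI
  have hcont : Continuous fun t => (I * (R t : ℂ) * e t) / (sig s s1 t - z) := by
    apply Continuous.div
    · exact (continuous_const.mul (Complex.continuous_ofReal.comp hRc)).mul continuous_e
    · exact (continuous_sig hs hs1).sub continuous_const
    · exact hne
  rw [intervalIntegral.integral_eq_sub_of_hasDerivAt (fun t _ => hder t)
    (hcont.intervalIntegrable _ _)]
  have h0 := hh_periodic hper 0 z
  have h1 := hh1_periodic hper1 0 z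
  rw [zero_add] at h0 h1
  rw [h0, h1]
  push_cast
  ring

/-- Winding number of the curve around an outside point. -/
theorem wind_outside (hs : ∀ t, HasDerivAt s (s1 t) t) (hs1 : ∀ t, HasDerivAt s1 (R t - s t) t)
    (hper : ∀ t, s (t + 2 * π) = s t) (hper1 : ∀ t, s1 (t + 2 * π) = s1 t) (hRc : Continuous R)
    {rmin rmax : ℝ} (hmin : ∀ t, rmin ≤ R t) (hr0 : 0 ≤ rmin) (hmax : ∀ t, R t ≤ rmax)
    {z : ℂ} {t1 : ℝ} (hz : hh s t1 z < 0) :
    ∫ t in (0 : ℝ)..(2 * π), (I * (R t : ℂ) * e t) / (sig s s1 t - z) = 0 := by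
  have hre : ∀ t, 0 < (-(conj (e t1)) * (sig s s1 t - z)).re := by
    intro t
    have h1 := (hh_sig_bounds hs hs1 hper hmin hmax t1 t).1
    have h2 : 0 ≤ rmin * (1 - Real.cos (t1 - t)) :=
      mul_nonneg hr0 (by linarith [Real.cos_le_one (t1 - t)])
    have h3 : (-(conj (e t1)) * (sig s s1 t - z)).re =
        hh s t1 (sig s s1 t) - hh s t1 z := by
      simp only [hh, neg_mul, Complex.neg_re, mul_sub, Complex.sub_re]
      ring
    rw [h3]
    linarith
  have hne : ∀ t, sig s s1 t - z ≠ 0 := by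
    intro t h
    have := hre t
    rw [h] at this
    simp at this
  have hder : ∀ t, HasDerivAt (fun t : ℝ => Complex.log (-(conj (e t1)) * (sig s s1 t - z)))
      ((I * (R t : ℂ) * e t) / (sig s s1 t - z)) t := by
    intro t
    have h2 : HasDerivAt (fun t => -(conj (e t1)) * (sig s s1 t - z))
        (-(conj (e t1)) * (I * (R t : ℂ) * e t)) t :=
      ((hasDerivAt_sig hs hs1 t).sub_const z).const_mul _
    have hmem : (-(conj (e t1)) * (sig s s1 t - z)) ∈ Complex.slitPlane := by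
      left; exact hre t
    have h3 := h2.clog_real hmem
    refine h3.congr_deriv ?_
    have hc : conj (e t1) ≠ 0 := by
      simpa using e_ne_zero t1
    have := hne t
    field_simp
  have hcont : Continuous fun t => (I * (R t : ℂ) * e t) / (sig s s1 t - z) := by
    apply Continuous.div
    · exact (continuous_const.mul (Complex.continuous_ofReal.comp hRc)).mul continuous_e
    · exact (continuous_sig hs hs1).sub continuous_const
    · exact hne
  rw [intervalIntegral.integral_eq_sub_of_hasDerivAt (fun t _ => hder t)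
    (hcont.intervalIntegrable _ _)]
  have h0 := sig_periodic hper hper1 0
  rw [zero_add] at h0
  rw [h0, sub_self]

/-- Near a base point, `hh1` grows at least linearly and `hh` at most quadratically. -/
theorem local_bounds (hs : ∀ t, HasDerivAt s (s1 t) t)
    (hs1 : ∀ t, HasDerivAt s1 (R t - s t) t) (hper : ∀ t, s (t + 2 * π) = s t)
    {rmin rmax : ℝ} (hr0 : 0 < rmin) (hmin : ∀ t, rmin ≤ R t) (hmax : ∀ t, R t ≤ rmax)
    (tb : ℝ) : ∃ δ > 0, ∀ t, |t - tb| ≤ δ →
      0 ≤ (hh1 s1 t (sig s s1 tb) - rmin / 2 * (t - tb)) * (t - tb) ∧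
      hh s t (sig s s1 tb) ≤ rmax * (t - tb) ^ 2 / 2 := by
  have hrmax : 0 < rmax := hr0.trans_le ((hmin 0).trans (hmax 0))
  refine ⟨Real.sqrt (rmin / rmax), Real.sqrt_pos.2 (by positivity), ?_⟩
  set δ := Real.sqrt (rmin / rmax) with hδ
  have hδ2 : δ ^ 2 = rmin / rmax := Real.sq_sqrt (by positivity)
  have hquad : ∀ t, hh s t (sig s s1 tb) ≤ rmax * (t - tb) ^ 2 / 2 := by
    intro t
    have h1 := (hh_sig_bounds hs hs1 hper hmin hmax t tb).2
    have h2 := Real.one_sub_sq_div_two_le_cos (x := t - tb)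
    nlinarith
  have hderb : ∀ t ∈ Icc (tb - δ) (tb + δ), rmin / 2 ≤ R t - hh s t (sig s s1 tb) := by
    intro t ht
    have h1 := hquad t
    have h2 : (t - tb) ^ 2 ≤ δ ^ 2 := by
      apply sq_le_sq' <;> linarith [ht.1, ht.2]
    rw [hδ2] at h2
    have h3 : rmax * (t - tb) ^ 2 ≤ rmin := by
      calc rmax * (t - tb) ^ 2 ≤ rmax * (rmin / rmax) := mul_le_mul_of_nonneg_left h2 hrmax.le
        _ = rmin := by field_simp
    linarith [hmin t]
  set g : ℝ → ℝ := fun t => hh1 s1 t (sig s s1 tb) - rmin / 2 * (t - tb) with hg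
  have hgd : ∀ t, HasDerivAt g (R t - hh s t (sig s s1 tb) - rmin / 2) t := by
    intro t
    have h1 : HasDerivAt (fun t : ℝ => rmin / 2 * (t - tb)) (rmin / 2) t := by
      simpa using ((hasDerivAt_id t).sub_const tb).const_mul (rmin / 2)
    exact (hasDerivAt_hh1 hs1 _ t).sub h1
  have hmono : MonotoneOn g (Icc (tb - δ) (tb + δ)) := by
    apply monotoneOn_of_deriv_nonneg (convex_Icc _ _)
    · exact fun x _ => (hgd x).continuousAt.continuousWithinAt
    · exact fun x _ => (hgd x).differentiableAt.differentiableWithinAt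
    · intro x hx
      rw [interior_Icc] at hx
      rw [(hgd x).deriv]
      linarith [hderb x (Ioo_subset_Icc_self hx)]
  have hg0 : g tb = 0 := by simp [hg, hh1_self]
  intro t ht
  refine ⟨?_, hquad t⟩
  have hδpos : 0 ≤ δ := Real.sqrt_nonneg _
  have hmem : t ∈ Icc (tb - δ) (tb + δ) := by
    have := abs_le.1 ht
    constructor <;> linarith [this.1, this.2]
  have hb : tb ∈ Icc (tb - δ) (tb + δ) := by
    constructor <;> linarith
  rcases le_total tb t with h | h
  · have := hmono hb hmem h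
    rw [hg0] at this
    exact mul_nonneg this (by linarith)
  · have := hmono hmem hb h
    rw [hg0] at this
    exact mul_nonneg_of_nonpos_of_nonpos this (by linarith)

/-- The total mass of the kernel on the curve is one. -/
theorem mass_one (hs : ∀ t, HasDerivAt s (s1 t) t) (hs1 : ∀ t, HasDerivAt s1 (R t - s t) t)
    (hper : ∀ t, s (t + 2 * π) = s t) (hper1 : ∀ t, s1 (t + 2 * π) = s1 t)
    (hRper : ∀ t, R (t + 2 * π) = R t) (hRc : Continuous R)
    {rmin rmax : ℝ} (hr0 : 0 < rmin) (hmin : ∀ t, rmin ≤ R t) (hmax : ∀ t, R t ≤ rmax) (t0 : ℝ) :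
    ∫ t in (0 : ℝ)..(2 * π), Pk s s1 R (sig s s1 t0) t = 1 := by
  have hpi := Real.pi_pos
  have hrmax : 0 < rmax := hr0.trans_le ((hmin 0).trans (hmax 0))
  set z := sig s s1 t0 with hz
  set t1 := t0 + 2 * π with ht1
  have hz1 : sig s s1 t1 = z := sig_periodic hper hper1 t0
  -- periodicity
  have hPer : Function.Periodic (Pk s s1 R z) (2 * π) := by
    intro t
    simp only [Pk, hRper, hh_periodic hper, sig_periodic hper hper1]
  have hshift := hPer.intervalIntegral_add_eq 0 t0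
  rw [zero_add] at hshift
  rw [hshift]
  -- measurability and boundedness
  have hmeas : Measurable (Pk s s1 R z) := by
    have hc : Continuous fun t => hh s t z :=
      continuous_iff_continuousAt.2 fun t => (hasDerivAt_hh hs z t).continuousAt
    have hcs := continuous_sig (s := s) (s1 := s1) (R := R) hs hs1
    unfold Pk
    apply Measurable.const_mul
    apply Measurable.div
    · exact (hRc.mul hc).measurable
    · exact ((hcs.sub continuous_const).norm.pow 2).measurable
  have hbdd : ∀ t, ‖Pk s s1 R z t‖ ≤ rmax ^ 2 / (2 * π * rmin ^ 2) := by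
    intro t
    obtain ⟨h1, h2⟩ := Pk_sig_abs_le hs hs1 hper hper1 hr0 hmin hmax t t0
    rw [Real.norm_eq_abs, abs_of_nonneg h1]
    exact h2
  have hint : ∀ a b : ℝ, IntervalIntegrable (Pk s s1 R z) volume a b := by
    intro a b
    rw [intervalIntegrable_iff]
    exact Measure.integrableOn_of_bounded (M := rmax ^ 2 / (2 * π * rmin ^ 2)) (by simp)
      hmeas.aestronglyMeasurable (Eventually.of_forall hbdd)
  -- the primitive
  have hpos : ∀ t ∈ Ioo t0 t1, 0 < hh s t z := by
    intro t ht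
    have h1 := (hh_sig_bounds hs hs1 hper hmin hmax t t0).1
    have h2 : 0 < 1 - Real.cos (t - t0) := by
      have h3 : Real.cos (t - t0) < 1 := by
        have h4 : t - t0 ∈ Ioo 0 (2 * π) := ⟨by linarith [ht.1], by linarith [ht.2]⟩
        have h5 := Real.cos_lt_cos_of_nonneg_of_le_pi (x := 0) (y := (t - t0) / 2 ) le_rfl (by linarith [h4.2]) (by linarith [h4.1])
        rw [Real.cos_zero] at h5
        have h6 : Real.cos (t - t0) = 2 * Real.cos ((t - t0) / 2) ^ 2 - 1 := by
          rw [← Real.cos_two_mul]; congr 1; ring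
        have h7 : -1 < Real.cos ((t - t0) / 2) := by
          have := Real.cos_lt_cos_of_nonneg_of_le_pi (x := (t - t0) / 2) (y := π) (by linarith [h4.1]) le_rfl (by linarith [h4.2])
          rwa [Real.cos_pi] at this
        rw [h6]
        nlinarith
      linarith
    exact lt_of_lt_of_le (mul_pos hr0 h2) h1
  set G : ℝ → ℝ := fun t => t + Real.arctan (hh1 s1 t z / hh s t z) with hG
  have hGd : ∀ t ∈ Ioo t0 t1, HasDerivAt G (π * Pk s s1 R z t) t := by
    intro t ht
    have ha := hasDerivAt_hh hs z t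
    have hb := hasDerivAt_hh1 hs1 z t
    have hane := (hpos t ht).ne'
    have h1 := (hb.div ha hane).arctan
    have h2 := (hasDerivAt_id t).add h1
    refine h2.congr_deriv ?_
    have h3 : ‖sig s s1 t - z‖ ^ 2 = hh s t z ^ 2 + hh1 s1 t z ^ 2 := normSq_sig_sub t z
    have h4 : 0 < hh s t z ^ 2 + hh1 s1 t z ^ 2 := by positivity
    have h5 : (1 : ℝ) + (hh1 s1 t z / hh s t z) ^ 2 ≠ 0 := by positivity
    simp only [Pk, h3]
    have h6 : (1 : ℝ) + ((fun t => hh1 s1 t z) / fun t => hh s t z) t ^ 2 =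
        (hh s t z ^ 2 + hh1 s1 t z ^ 2) / hh s t z ^ 2 := by
      simp only [Pi.div_apply]
      field_simp
    rw [h6]
    field_simp
    ring
  -- the limits at the end points
  have hlim1 : Tendsto (fun t => hh1 s1 t z / hh s t z) (𝓝[>] t0) atTop := by
    obtain ⟨δ, hδ, hb⟩ := local_bounds hs hs1 hper hr0 hmin hmax t0
    rw [tendsto_atTop]
    intro M
    have hM : 0 < max M 1 := lt_of_lt_of_le one_pos (le_max_right _ _)
    set η := min (min δ π) (rmin / (rmax * max M 1)) with hη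
    have hηpos : 0 < η := lt_min (lt_min hδ hpi) (by positivity)
    filter_upwards [Ioo_mem_nhdsGT hηpos |> fun h => by
      simpa using (Ioo_mem_nhdsGT (show t0 < t0 + η by linarith))] with t ht
    have hu : 0 < t - t0 := by linarith [ht.1]
    have huη : t - t0 < η := by linarith [ht.2]
    have hu1 : t - t0 ≤ δ := by
      linarith [min_le_left (min δ π) (rmin / (rmax * max M 1)), min_le_left δ π]
    have hu2 : t - t0 ≤ rmin / (rmax * max M 1) := by
      linarith [min_le_right (min δ π) (rmin / (rmax * max M 1))]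
    have hu3 : t - t0 ≤ π := by
      linarith [min_le_left (min δ π) (rmin / (rmax * max M 1)), min_le_right δ π]
    obtain ⟨h1, h2⟩ := hb t (by rw [abs_of_pos hu]; exact hu1)
    have h1' : rmin / 2 * (t - t0) ≤ hh1 s1 t z := by
      have := nonneg_of_mul_nonneg_left h1 hu
      linarith
    have hapos : 0 < hh s t z := hpos t ⟨by linarith, by rw [ht1]; linarith [Real.pi_pos]⟩
    apply (le_max_left M 1).trans
    rw [le_div_iff₀ hapos]
    have h3 : max M 1 * (rmax * (t - t0)) ≤ rmin := by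
      have := (le_div_iff₀ (by positivity)).1 hu2
      nlinarith
    nlinarith [mul_le_mul_of_nonneg_right h3 (by positivity : 0 ≤ (t - t0) / 2),
      mul_le_mul_of_nonneg_left h2 hM.le]
  have hlim2 : Tendsto (fun t => hh1 s1 t z / hh s t z) (𝓝[<] t1) atBot := by
    obtain ⟨δ, hδ, hb⟩ := local_bounds hs hs1 hper hr0 hmin hmax t1
    rw [hz1] at hb
    rw [tendsto_atBot]
    intro M
    have hM : 0 < max (-M) 1 := lt_of_lt_of_le one_pos (le_max_right _ _)
    set η := min (min δ π) (rmin / (rmax * max (-M) 1)) with hη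
    have hηpos : 0 < η := lt_min (lt_min hδ hpi) (by positivity)
    filter_upwards [Ioo_mem_nhdsLT (show t1 - η < t1 by linarith)] with t ht
    have hu : 0 < t1 - t := by linarith [ht.2]
    have huη : t1 - t < η := by linarith [ht.1]
    have hu1 : t1 - t ≤ δ := by
      linarith [min_le_left (min δ π) (rmin / (rmax * max (-M) 1)), min_le_left δ π]
    have hu2 : t1 - t ≤ rmin / (rmax * max (-M) 1) := by
      linarith [min_le_right (min δ π) (rmin / (rmax * max (-M) 1))]
    have hu3 : t1 - t ≤ π := by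
      linarith [min_le_left (min δ π) (rmin / (rmax * max (-M) 1)), min_le_right δ π]
    obtain ⟨h1, h2⟩ := hb t (by rw [abs_sub_comm, abs_of_pos hu]; exact hu1)
    have h1' : hh1 s1 t z ≤ rmin / 2 * (t - t1) := by
      have h4 : 0 ≤ (rmin / 2 * (t - t1) - hh1 s1 t z) * (t1 - t) := by nlinarith
      have := nonneg_of_mul_nonneg_left h4 hu
      linarith
    have hapos : 0 < hh s t z := hpos t ⟨by rw [ht1] at hu3; linarith, ht.2⟩
    have h3 : max (-M) 1 * (rmax * (t1 - t)) ≤ rmin := by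
      have := (le_div_iff₀ (by positivity)).1 hu2
      nlinarith
    have h5 : hh1 s1 t z / hh s t z ≤ - max (-M) 1 := by
      rw [div_le_iff₀ hapos]
      have h6 : hh s t z ≤ rmax * (t1 - t) ^ 2 / 2 := by
        have : (t - t1) ^ 2 = (t1 - t) ^ 2 := by ring
        rw [← this]; exact h2
      nlinarith [mul_le_mul_of_nonneg_right h3 (by positivity : 0 ≤ (t1 - t) / 2),
        mul_le_mul_of_nonneg_left h6 hM.le]
    linarith [le_max_left (-M) 1]
  have hGa : Tendsto G (𝓝[>] t0) (𝓝 (t0 + π / 2)) := by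
    apply Tendsto.add
    · exact (continuous_id.tendsto t0).mono_left nhdsWithin_le_nhds
    · exact (tendsto_nhds_of_tendsto_nhdsWithin Real.tendsto_arctan_atTop).comp hlim1
  have hGb : Tendsto G (𝓝[<] t1) (𝓝 (t1 + -(π / 2))) := by
    apply Tendsto.add
    · exact (continuous_id.tendsto t1).mono_left nhdsWithin_le_nhds
    · exact (tendsto_nhds_of_tendsto_nhdsWithin Real.tendsto_arctan_atBot).comp hlim2
  have hlt : t0 < t1 := by rw [ht1]; linarith
  have hI := intervalIntegral.integral_eq_sub_of_hasDerivAt_of_tendsto hlt hGd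
    ((hint t0 t1).const_mul π) hGa hGb
  rw [intervalIntegral.integral_const_mul] at hI
  have h8 : π * ∫ t in t0..t1, Pk s s1 R z t = π := by
    rw [hI, ht1]; ring
  have h9 := mul_left_cancel₀ hpi.ne' (h8.trans (mul_one π).symm)
  exact h9

/-- Points `r * sig t0` with `r > 1` are outside, when `s > 0`. -/
theorem hh_mul_sig_neg (hs0 : ∀ t, 0 < s t) {r : ℝ} (hr : 1 < r) (t0 : ℝ) :
    hh s t0 ((r : ℂ) * sig s s1 t0) < 0 := by
  have h1 : hh s t0 ((r : ℂ) * sig s s1 t0) = s t0 - r * s t0 := by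
    have h2 := hh_self (s := s) (s1 := s1) t0
    simp only [hh] at h2 ⊢
    have h3 : (conj (e t0) * ((r : ℂ) * sig s s1 t0)).re = r * (conj (e t0) * sig s s1 t0).re := by
      rw [show conj (e t0) * ((r : ℂ) * sig s s1 t0) = (r : ℂ) * (conj (e t0) * sig s s1 t0) by ring,
        Complex.re_ofReal_mul]
    rw [h3]
    have h4 : (conj (e t0) * sig s s1 t0).re = s t0 := by linarith
    rw [h4]
  rw [h1]
  nlinarith [hs0 t0]

/-- Points `q * sig t0` with `0 ≤ q < 1` are inside, when `s > 0`. -/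
theorem hh_mul_sig_pos (hs : ∀ t, HasDerivAt s (s1 t) t)
    (hs1 : ∀ t, HasDerivAt s1 (R t - s t) t) (hper : ∀ t, s (t + 2 * π) = s t)
    {rmin rmax : ℝ} (hr0 : 0 ≤ rmin) (hmin : ∀ t, rmin ≤ R t) (hmax : ∀ t, R t ≤ rmax)
    (hs0 : ∀ t, 0 < s t) {q : ℝ} (hq0 : 0 ≤ q) (hq : q < 1) (t t0 : ℝ) :
    0 < hh s t ((q : ℂ) * sig s s1 t0) := by
  have h1 := (hh_sig_bounds hs hs1 hper hmin hmax t t0).1
  have h2 : 0 ≤ rmin * (1 - Real.cos (t - t0)) :=
    mul_nonneg hr0 (by linarith [Real.cos_le_one (t - t0)])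
  have h3 : hh s t ((q : ℂ) * sig s s1 t0) = q * hh s t (sig s s1 t0) + (1 - q) * s t := by
    simp only [hh]
    rw [show conj (e t) * ((q : ℂ) * sig s s1 t0) = (q : ℂ) * (conj (e t) * sig s s1 t0) by ring,
      Complex.re_ofReal_mul]
    ring
  rw [h3]
  have h4 := hs0 t
  have h5 : 0 ≤ q * hh s t (sig s s1 t0) := mul_nonneg hq0 (h2.trans h1)
  have h6 : 0 < (1 - q) * s t := mul_pos (by linarith) h4
  linarith

theorem continuous_sigd_div (hs : ∀ t, HasDerivAt s (s1 t) t)
    (hs1 : ∀ t, HasDerivAt s1 (R t - s t) t) (hRc : Continuous R) {z : ℂ}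
    (hne : ∀ t, sig s s1 t - z ≠ 0) :
    Continuous fun t => (I * (R t : ℂ) * e t) / (sig s s1 t - z) := by
  apply Continuous.div
  · exact (continuous_const.mul (Complex.continuous_ofReal.comp hRc)).mul continuous_e
  · exact (continuous_sig hs hs1).sub continuous_const
  · exact hne

/-- Mass of the kernel at an inside point. -/
theorem Pk_mass_inside (hs : ∀ t, HasDerivAt s (s1 t) t) (hs1 : ∀ t, HasDerivAt s1 (R t - s t) t)
    (hper : ∀ t, s (t + 2 * π) = s t) (hper1 : ∀ t, s1 (t + 2 * π) = s1 t) (hRc : Continuous R)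
    {z : ℂ} (hz : ∀ t, 0 < hh s t z) :
    ∫ t in (0 : ℝ)..(2 * π), Pk s s1 R z t = 2 := by
  have hne : ∀ t, sig s s1 t - z ≠ 0 := by
    intro t h
    have h1 := normSq_sig_sub (s := s) (s1 := s1) t z
    rw [h] at h1
    have := hz t
    simp at h1
    nlinarith [sq_nonneg (hh1 s1 t z)]
  have hc := continuous_sigd_div hs hs1 hRc hne
  have h1 := wind_inside hs hs1 hper hper1 hRc hz
  have h2 : ∫ t in (0 : ℝ)..(2 * π), ((I * (R t : ℂ) * e t) / (sig s s1 t - z)).im = 2 * π := by
    have h3 := Complex.imCLM.intervalIntegral_comp_comm (hc.intervalIntegrable (μ := volume) 0 (2 * π))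
    simp only [Complex.imCLM_apply] at h3
    rw [h3, h1]
    simp
  simp only [Pk_eq_im]
  rw [intervalIntegral.integral_const_mul, h2]
  have := Real.pi_pos
  field_simp

/-- Mass of the kernel at an outside point. -/
theorem Pk_mass_outside (hs : ∀ t, HasDerivAt s (s1 t) t) (hs1 : ∀ t, HasDerivAt s1 (R t - s t) t)
    (hper : ∀ t, s (t + 2 * π) = s t) (hper1 : ∀ t, s1 (t + 2 * π) = s1 t) (hRc : Continuous R)
    {rmin rmax : ℝ} (hmin : ∀ t, rmin ≤ R t) (hr0 : 0 ≤ rmin) (hmax : ∀ t, R t ≤ rmax)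
    {z : ℂ} {t1 : ℝ} (hz : hh s t1 z < 0) :
    ∫ t in (0 : ℝ)..(2 * π), Pk s s1 R z t = 0 := by
  have hre : ∀ t, sig s s1 t - z ≠ 0 := by
    intro t h
    have h1 := (hh_sig_bounds hs hs1 hper hmin hmax t1 t).1
    have h2 : 0 ≤ rmin * (1 - Real.cos (t1 - t)) :=
      mul_nonneg hr0 (by linarith [Real.cos_le_one (t1 - t)])
    have h3 : sig s s1 t = z := sub_eq_zero.1 h
    rw [h3] at h1
    linarith
  have hc := continuous_sigd_div hs hs1 hRc hre
  have h1 := wind_outside hs hs1 hper hper1 hRc hmin hr0 hmax hz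
  have h2 : ∫ t in (0 : ℝ)..(2 * π), ((I * (R t : ℂ) * e t) / (sig s s1 t - z)).im = 0 := by
    have h3 := Complex.imCLM.intervalIntegral_comp_comm (hc.intervalIntegrable (μ := volume) 0 (2 * π))
    simp only [Complex.imCLM_apply] at h3
    rw [h3, h1]
    simp
  simp only [Pk_eq_im]
  rw [intervalIntegral.integral_const_mul, h2, mul_zero]

end Core

end

end Vale.Agent.Lib.P123C.Geom
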