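import Vale.Agent.Lib.P123C.Equil
import Vale.Agent.Lib.P123C.Geom

/-!
# Adapter: the curve of `Geom` satisfies the raw hypotheses of `Equil`.
-/

open Complex Set
open scoped Real ComplexConjugate

namespace Vale.Agent.Lib.P123C.Equil

open Vale.Agent.Lib.P123C.Geom

variable {s s1 R : ℝ → ℝ} {rmin rmax : ℝ}

/-- The inner region of the curve. -/
def inRegion (s : ℝ → ℝ) : Set ℂ := {z | ∀ t, 0 < hh s t z}

theorem curve_geom (hs : ∀ t, HasDerivAt s (s1 t) t) (hs1 : ∀ t, HasDerivAt s1 (R t - s t) t)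
    (hper : ∀ t, s (t + 2 * π) = s t) (hper1 : ∀ t, s1 (t + 2 * π) = s1 t) (hRc : Continuous R)
    (hr0 : 0 ≤ rmin) (hmin : ∀ t, rmin ≤ R t) (hmax : ∀ t, R t ≤ rmax) (hs0 : ∀ t, 0 < s t) :
    Curve (sig s s1) (fun t => I * (R t : ℂ) * e t) (inRegion s) where
  hc := continuous_sig hs hs1
  hc' := by
    have : Continuous fun t : ℝ => (R t : ℂ) := Complex.continuous_ofReal.comp hRc
    exact (continuous_const.mul this).mul continuous_e
  hp := fun t => sig_periodic hper hper1 t
  hd := fun t => hasDerivAt_sig hs hs1 t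
  hIn := by
    intro z hz t h
    have h1 := hz t
    rw [← h, hh_self] at h1
    exact lt_irrefl _ h1
  hW1 := fun z hz => wind_inside hs hs1 hper hper1 hRc hz
  hS := by
    intro r hr τ t
    have hr1 : (0:ℝ) < r := by linarith
    have hq0 : (0:ℝ) ≤ r⁻¹ := by positivity
    have hq : r⁻¹ < 1 := inv_lt_one_of_one_lt₀ hr
    have := hh_mul_sig_pos hs hs1 hper hr0 hmin hmax hs0 hq0 hq t τ
    simpa using this
  hOut := by
    intro r hr τ t h
    have h1 := hh_mul_sig_neg (s := s) (s1 := s1) hs0 hr τ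
    rw [← h] at h1
    have h2 := (hh_sig_bounds hs hs1 hper hmin hmax τ t).1
    have h3 : 0 ≤ rmin * (1 - Real.cos (τ - t)) :=
      mul_nonneg hr0 (by linarith [Real.cos_le_one (τ - t)])
    linarith
  hW0 := by
    intro r hr τ
    exact wind_outside hs hs1 hper hper1 hRc hmin hr0 hmax (hh_mul_sig_neg hs0 hr τ)

end Vale.Agent.Lib.P123C.Equil
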