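import Mathlib

/-!
# Smooth strictly convex curves around a compact convex set (softmax construction)

For a finite set `Z` of complex numbers and `p > 0`, the function
`t ↦ (1/p) * log (∑ w ∈ Z, exp (p * (w.re * cos t + w.im * sin t)))`
is a smooth periodic function `s` with `s + s'' ≥ 0`. Adding a small constant gives a support
function of a smooth, strictly convex body close to the convex hull of `Z`.
-/

namespace Vale.Agent.Lib.P123C

open Real Finset
open scoped ContDiff

/-- The linear functional `Re (e^{-it} w)` in real coordinates. -/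
noncomputable def lin (w : ℂ) (t : ℝ) : ℝ := w.re * cos t + w.im * sin t

/-- The derivative of `lin w` in `t`. -/
noncomputable def lin' (w : ℂ) (t : ℝ) : ℝ := -(w.re * sin t) + w.im * cos t

lemma hasDerivAt_lin (w : ℂ) (t : ℝ) : HasDerivAt (lin w) (lin' w t) t := by
  have h1 := (hasDerivAt_cos t).const_mul w.re
  have h2 := (hasDerivAt_sin t).const_mul w.im
  exact (h1.fun_add h2).congr_deriv (by unfold lin'; ring)

lemma hasDerivAt_lin' (w : ℂ) (t : ℝ) : HasDerivAt (lin' w) (-lin w t) t := by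
  have h1 := ((hasDerivAt_sin t).const_mul w.re).fun_neg
  have h2 := (hasDerivAt_cos t).const_mul w.im
  exact (h1.fun_add h2).congr_deriv (by unfold lin; ring)

lemma contDiff_lin (w : ℂ) : ContDiff ℝ ∞ (lin w) := by
  unfold lin
  exact (contDiff_const.mul contDiff_cos).add (contDiff_const.mul contDiff_sin)

lemma lin_periodic (w : ℂ) : Function.Periodic (lin w) (2 * π) := by
  intro t
  simp [lin, cos_add_two_pi, sin_add_two_pi]

/-- The partition function of the softmax. -/
noncomputable def softZ (Z : Finset ℂ) (p t : ℝ) : ℝ := ∑ w ∈ Z, exp (p * lin w t)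

/-- First derivative of the partition function. -/
noncomputable def softZ1 (Z : Finset ℂ) (p t : ℝ) : ℝ := ∑ w ∈ Z, (p * lin' w t) * exp (p * lin w t)

/-- Second derivative of the partition function. -/
noncomputable def softZ2 (Z : Finset ℂ) (p t : ℝ) : ℝ :=
  ∑ w ∈ Z, (p * (-lin w t) + (p * lin' w t) * (p * lin' w t)) * exp (p * lin w t)

lemma softZ_pos {Z : Finset ℂ} (hZ : Z.Nonempty) (p t : ℝ) : 0 < softZ Z p t :=
  sum_pos (fun _ _ => exp_pos _) hZ

lemma hasDerivAt_softZ (Z : Finset ℂ) (p t : ℝ) :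
    HasDerivAt (softZ Z p) (softZ1 Z p t) t := by
  unfold softZ softZ1
  have : HasDerivAt (fun t => ∑ w ∈ Z, exp (p * lin w t))
      (∑ w ∈ Z, exp (p * lin w t) * (p * lin' w t)) t := by
    apply HasDerivAt.fun_sum
    intro w _
    exact ((hasDerivAt_lin w t).const_mul p).exp
  convert this using 1
  exact sum_congr rfl (fun w _ => by ring)

lemma hasDerivAt_softZ1 (Z : Finset ℂ) (p t : ℝ) :
    HasDerivAt (softZ1 Z p) (softZ2 Z p t) t := by
  unfold softZ1 softZ2
  have : HasDerivAt (fun t => ∑ w ∈ Z, (p * lin' w t) * exp (p * lin w t))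
      (∑ w ∈ Z, ((p * (-lin w t)) * exp (p * lin w t)
        + (p * lin' w t) * (exp (p * lin w t) * (p * lin' w t)))) t := by
    apply HasDerivAt.fun_sum
    intro w _
    exact ((hasDerivAt_lin' w t).const_mul p).mul ((hasDerivAt_lin w t).const_mul p).exp
  convert this using 1
  exact sum_congr rfl (fun w _ => by ring)

/-- The softmax support function. -/
noncomputable def softS (Z : Finset ℂ) (p η t : ℝ) : ℝ := η + (1 / p) * log (softZ Z p t)

/-- First derivative of `softS`. -/
noncomputable def softS1 (Z : Finset ℂ) (p t : ℝ) : ℝ := softZ1 Z p t / (p * softZ Z p t)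

lemma hasDerivAt_softS {Z : Finset ℂ} (hZ : Z.Nonempty) {p : ℝ} (hp : 0 < p) (η t : ℝ) :
    HasDerivAt (softS Z p η) (softS1 Z p t) t := by
  have hz := softZ_pos hZ p t
  have h := ((hasDerivAt_softZ Z p t).log hz.ne').const_mul (1 / p)
  have h2 : HasDerivAt (fun y => η + (1 / p) * log (softZ Z p y)) _ t := h.const_add η
  refine h2.congr_deriv ?_
  unfold softS1
  field_simp

lemma deriv_softS {Z : Finset ℂ} (hZ : Z.Nonempty) {p : ℝ} (hp : 0 < p) (η : ℝ) :
    deriv (softS Z p η) = softS1 Z p := by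
  funext t
  exact (hasDerivAt_softS hZ hp η t).deriv

lemma hasDerivAt_softS1 {Z : Finset ℂ} (hZ : Z.Nonempty) {p : ℝ} (hp : 0 < p) (t : ℝ) :
    HasDerivAt (softS1 Z p)
      ((softZ2 Z p t * softZ Z p t - softZ1 Z p t * softZ1 Z p t)
        / (p * (softZ Z p t * softZ Z p t))) t := by
  have hz := softZ_pos hZ p t
  have h := (hasDerivAt_softZ1 Z p t).fun_div ((hasDerivAt_softZ Z p t).const_mul p)
    (mul_pos hp hz).ne'
  have h2 : HasDerivAt (softS1 Z p) _ t := h
  refine h2.congr_deriv ?_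
  field_simp

/-- Each linear functional lies below the soft maximum. -/
lemma lin_le_soft {Z : Finset ℂ} {w : ℂ} (hw : w ∈ Z) {p : ℝ} (hp : 0 < p) (t : ℝ) :
    lin w t ≤ (1 / p) * log (softZ Z p t) := by
  have hz := softZ_pos ⟨w, hw⟩ p t
  have h1 : exp (p * lin w t) ≤ softZ Z p t :=
    single_le_sum (f := fun w => exp (p * lin w t)) (fun _ _ => (exp_pos _).le) hw
  have h2 : p * lin w t ≤ log (softZ Z p t) := by
    rw [← log_exp (p * lin w t)]
    exact log_le_log (exp_pos _) h1
  rw [one_div, ← div_eq_inv_mul, le_div_iff₀ hp]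
  linarith

/-- The soft maximum exceeds the maximum by at most `log n / p`. -/
lemma soft_le {Z : Finset ℂ} (hZ : Z.Nonempty) {p : ℝ} (hp : 0 < p) (t M : ℝ)
    (hM : ∀ w ∈ Z, lin w t ≤ M) :
    (1 / p) * log (softZ Z p t) ≤ M + log (#Z) / p := by
  have hcard : (0 : ℝ) < #Z := by exact_mod_cast hZ.card_pos
  have h1 : softZ Z p t ≤ #Z * exp (p * M) := by
    calc softZ Z p t ≤ ∑ _w ∈ Z, exp (p * M) :=
          sum_le_sum (fun w hw => exp_le_exp.2 (mul_le_mul_of_nonneg_left (hM w hw) hp.le))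
      _ = _ := by simp
  have h2 : log (softZ Z p t) ≤ log (#Z) + p * M := by
    have := log_le_log (softZ_pos hZ p t) h1
    rwa [log_mul hcard.ne' (exp_pos _).ne', log_exp] at this
  rw [one_div, ← div_eq_inv_mul, div_le_iff₀ hp]
  have : (M + log (#Z) / p) * p = M * p + log (#Z) := by field_simp
  rw [this]
  linarith

/-- The key inequality `s + s'' ≥ η`. -/
lemma softS_add_deriv2 {Z : Finset ℂ} (hZ : Z.Nonempty) {p : ℝ} (hp : 0 < p) (η t : ℝ) :
    η ≤ softS Z p η t + (softZ2 Z p t * softZ Z p t - softZ1 Z p t * softZ1 Z p t)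
        / (p * (softZ Z p t * softZ Z p t)) := by
  have hz := softZ_pos hZ p t
  set z := softZ Z p t with hzdef
  set L := (1 / p) * log z with hL
  -- the quantity `∑ (L - lin w) e_w` is nonnegative
  have h1 : 0 ≤ ∑ w ∈ Z, (L - lin w t) * exp (p * lin w t) := by
    apply sum_nonneg
    intro w hw
    have := lin_le_soft hw hp t
    exact mul_nonneg (by linarith) (exp_pos _).le
  -- Cauchy-Schwarz in the form of a nonnegative variance
  set m := softZ1 Z p t / z with hm
  have h2 : 0 ≤ ∑ w ∈ Z, (p * lin' w t - m) * (p * lin' w t - m) * exp (p * lin w t) := by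
    apply sum_nonneg
    intro w _
    exact mul_nonneg (mul_self_nonneg _) (exp_pos _).le
  have hsum1 : ∑ w ∈ Z, (L - lin w t) * exp (p * lin w t)
      = L * z - ∑ w ∈ Z, lin w t * exp (p * lin w t) := by
    rw [hzdef, softZ, mul_sum, ← sum_sub_distrib]
    exact sum_congr rfl (fun w _ => by ring)
  have hsum2 : ∑ w ∈ Z, (p * lin' w t - m) * (p * lin' w t - m) * exp (p * lin w t)
      = (∑ w ∈ Z, (p * lin' w t) * (p * lin' w t) * exp (p * lin w t))
        - 2 * m * softZ1 Z p t + m * m * z := by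
    rw [hzdef, softZ, softZ1, mul_sum, mul_sum, ← sum_sub_distrib, ← sum_add_distrib]
    exact sum_congr rfl (fun w _ => by ring)
  have hZ2 : softZ2 Z p t = -(p * ∑ w ∈ Z, lin w t * exp (p * lin w t))
      + ∑ w ∈ Z, (p * lin' w t) * (p * lin' w t) * exp (p * lin w t) := by
    rw [softZ2, mul_sum, ← sum_neg_distrib, ← sum_add_distrib]
    exact sum_congr rfl (fun w _ => by ring)
  have hkey : softZ2 Z p t * z - softZ1 Z p t * softZ1 Z p t ≥ -(p * L * z * z) := by
    have hmz : m * z = softZ1 Z p t := by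
      rw [hm]; field_simp
    rw [hsum2] at h2
    rw [hsum1] at h1
    rw [hZ2]
    -- multiply the two nonnegativity facts by `z`
    have h3 := mul_nonneg h1 hz.le
    have h4 := mul_nonneg h2 hz.le
    have h5 : m * m * z * z = softZ1 Z p t * softZ1 Z p t := by
      rw [← hmz]; ring
    have h6 : 2 * m * softZ1 Z p t * z = 2 * (softZ1 Z p t * softZ1 Z p t) := by
      rw [← hmz]; ring
    nlinarith [h3, h4, h5, h6, mul_le_mul_of_nonneg_left h3 hp.le, mul_nonneg hp.le h3]
  have hpos : 0 < p * (z * z) := by positivity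
  have hdiv : -L ≤ (softZ2 Z p t * z - softZ1 Z p t * softZ1 Z p t) / (p * (z * z)) := by
    rw [le_div_iff₀ hpos]
    nlinarith [hkey]
  unfold softS
  linarith

lemma contDiff_softS {Z : Finset ℂ} (hZ : Z.Nonempty) (p η : ℝ) : ContDiff ℝ ∞ (softS Z p η) := by
  unfold softS
  apply contDiff_const.add
  apply contDiff_const.mul
  apply ContDiff.log
  · unfold softZ
    apply ContDiff.sum
    intro w _
    exact (contDiff_const.mul (contDiff_lin w)).exp
  · intro t
    exact (softZ_pos hZ p t).ne'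

lemma softS_periodic (Z : Finset ℂ) (p η : ℝ) : Function.Periodic (softS Z p η) (2 * π) := by
  intro t
  simp only [softS, softZ]
  congr 3
  exact sum_congr rfl (fun w _ => by rw [lin_periodic w t])

/-- `lin` is the real part of `conj (e^{it}) * z`. -/
lemma lin_eq (z : ℂ) (t : ℝ) :
    lin z t = ((starRingEnd ℂ) (Complex.exp (t * Complex.I)) * z).re := by
  simp only [lin, Complex.mul_re, Complex.conj_re, Complex.conj_im, Complex.exp_ofReal_mul_I_re,
    Complex.exp_ofReal_mul_I_im]
  ring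

lemma lin_sub (z w : ℂ) (t : ℝ) : lin (z - w) t = lin z t - lin w t := by
  simp [lin]; ring

lemma lin_le_norm (z : ℂ) (t : ℝ) : lin z t ≤ ‖z‖ := by
  rw [lin_eq]
  calc _ ≤ ‖(starRingEnd ℂ) (Complex.exp (t * Complex.I)) * z‖ := Complex.re_le_norm _
    _ = ‖z‖ := by
      rw [norm_mul, Complex.norm_conj, Complex.norm_exp_ofReal_mul_I, one_mul]

/-- A support-line argument: if `z` is outside the compact convex set `K`, with nearest point `w`,
then some direction `t` separates `z` from `K` by the full distance. -/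
lemma exists_dir {K : Set ℂ} (hK : IsCompact K) (hconv : Convex ℝ K) (hne : K.Nonempty) {z : ℂ}
    (hz : z ∉ K) :
    ∃ w ∈ K, ∃ t : ℝ, (∀ v ∈ K, lin v t ≤ lin w t) ∧ lin z t = lin w t + ‖z - w‖ := by
  obtain ⟨w, hwK, hw⟩ := hK.exists_infDist_eq_dist hne z
  refine ⟨w, hwK, ?_⟩
  have hproj : ∀ v ∈ K, inner ℝ (z - w) (v - w) ≤ 0 := by
    have h1 : ‖z - w‖ = ⨅ v : K, ‖z - v‖ := by
      rw [← dist_eq_norm, ← hw, Metric.infDist_eq_iInf]
      simp [dist_eq_norm]
    exact (norm_eq_iInf_iff_real_inner_le_zero hconv hwK).1 h1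
  have hne' : z - w ≠ 0 := by
    intro h0
    apply hz
    rw [sub_eq_zero.1 h0]
    exact hwK
  have hd : 0 < ‖z - w‖ := norm_pos_iff.2 hne'
  set x := z - w with hx
  set t := Complex.arg x with ht
  have hE : (‖x‖ : ℂ) * Complex.exp (t * Complex.I) = x := Complex.norm_mul_exp_arg_mul_I x
  -- `‖x‖ * lin v t` is the inner product with `x`
  have hlin : ∀ v : ℂ, ‖x‖ * lin v t = inner ℝ x v := by
    intro v
    rw [lin_eq, Complex.inner]
    have h3 : (starRingEnd ℂ) x
        = (‖x‖ : ℂ) * (starRingEnd ℂ) (Complex.exp (t * Complex.I)) := by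
      conv_lhs => rw [← hE]
      rw [map_mul, Complex.conj_ofReal]
    rw [h3]
    have h4 : v * ((‖x‖ : ℂ) * (starRingEnd ℂ) (Complex.exp (t * Complex.I)))
        = (‖x‖ : ℂ) * ((starRingEnd ℂ) (Complex.exp (t * Complex.I)) * v) := by ring
    rw [h4, Complex.re_ofReal_mul]
  refine ⟨t, ?_, ?_⟩
  · intro v hv
    have h1 := hproj v hv
    rw [inner_sub_right, ← hlin, ← hlin] at h1
    have h2 : ‖x‖ * (lin v t - lin w t) ≤ 0 := by linarith
    have h3 : lin v t - lin w t ≤ 0 := by
      by_contra hcon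
      rw [not_le] at hcon
      have := mul_pos hd hcon
      linarith
    linarith
  · have h1 : ‖x‖ * lin x t = ‖x‖ * ‖x‖ := by
      rw [hlin, real_inner_self_eq_norm_mul_norm]
    have h2 : lin x t = ‖x‖ := mul_left_cancel₀ hd.ne' h1
    have h3 : lin x t = lin z t - lin w t := lin_sub z w t
    linarith

/-- The reduction theorem: every compact convex set is surrounded, as closely as we like, by a
smooth strictly convex curve given by its support function `s`. -/
theorem exists_curve {K : Set ℂ} (hK : IsCompact K) (hconv : Convex ℝ K) (hne : K.Nonempty)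
    {ε : ℝ} (hε : 0 < ε) :
    ∃ s : ℝ → ℝ, ContDiff ℝ ∞ s ∧ Function.Periodic s (2 * π) ∧
      (∃ rmin : ℝ, 0 < rmin ∧ ∀ t, rmin ≤ s t + deriv (deriv s) t) ∧
      (∀ z ∈ K, ∀ t, lin z t < s t) ∧
      (∀ z, (∀ t, lin z t ≤ s t) → ∃ w ∈ K, ‖z - w‖ ≤ ε) := by
  classical
  obtain ⟨T, hTK, hTfin, hcover⟩ := hK.finite_cover_balls (show 0 < ε / 4 by positivity)
  set Z := hTfin.toFinset with hZdef
  have hZK : ∀ w ∈ Z, w ∈ K := fun w hw => hTK (hTfin.mem_toFinset.1 hw)
  have hZ : Z.Nonempty := by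
    obtain ⟨x, hx⟩ := hne
    obtain ⟨w, hw, -⟩ := Set.mem_iUnion₂.1 (hcover hx)
    exact ⟨w, hTfin.mem_toFinset.2 hw⟩
  have hcard : (1 : ℝ) ≤ #Z := by exact_mod_cast hZ.card_pos
  have hlog : 0 ≤ log (#Z) := log_nonneg hcard
  set p : ℝ := (log (#Z) + 1) * (4 / ε) with hp
  have hppos : 0 < p := by positivity
  have hlogp : log (#Z) / p ≤ ε / 4 := by
    rw [div_le_iff₀ hppos, hp]
    field_simp
    linarith
  refine ⟨softS Z p (ε / 2), contDiff_softS hZ p _, softS_periodic Z p _, ⟨ε / 2, by positivity, ?_⟩,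
    ?_, ?_⟩
  · intro t
    rw [deriv_softS hZ hppos, (hasDerivAt_softS1 hZ hppos t).deriv]
    exact softS_add_deriv2 hZ hppos _ t
  · intro z hz t
    obtain ⟨w, hw, hzw⟩ := Set.mem_iUnion₂.1 (hcover hz)
    have hwZ : w ∈ Z := hTfin.mem_toFinset.2 hw
    have h1 := lin_le_soft hwZ hppos t
    have h2 : lin (z - w) t ≤ ‖z - w‖ := lin_le_norm _ _
    have h3 : ‖z - w‖ < ε / 4 := by
      rw [← dist_eq_norm]; exact hzw
    have h4 := lin_sub z w t
    unfold softS
    linarith
  · intro z hz
    by_cases hzK : z ∈ K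
    · exact ⟨z, hzK, by simp; positivity⟩
    · obtain ⟨w, hwK, t, hsup, hzt⟩ := exists_dir hK hconv hne hzK
      refine ⟨w, hwK, ?_⟩
      have h1 := hz t
      have h2 := soft_le hZ hppos t (lin w t) (fun v hv => hsup v (hZK v hv))
      unfold softS at h1
      linarith

end Vale.Agent.Lib.P123C
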