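import Mathlib
import Vale.Agent.Lib.P123C.Reduce

/-!
# The inside of a support-function curve

For a continuous periodic support function `s`, `In s` is the open convex set of all `z` with
`lin z t < s t` for all `t`. We prove it is open, bounded, convex and that its frontier lies on the
curve `sig t = (s t + i s' t) e^{it}`.
-/

namespace Vale.Agent.Lib.P123C

open Real Set Topology

/-- The inside of the curve with support function `s`. -/
def In (s : ℝ → ℝ) : Set ℂ := {z | ∀ t, lin z t < s t}

/-- The closed inside of the curve with support function `s`. -/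
def InCl (s : ℝ → ℝ) : Set ℂ := {z | ∀ t, lin z t ≤ s t}

/-- The curve with support function `s`, with `s1` standing for the derivative of `s`. -/
noncomputable def sigOf (s s1 : ℝ → ℝ) (t : ℝ) : ℂ :=
  ((s t : ℂ) + (s1 t : ℂ) * Complex.I) * Complex.exp (t * Complex.I)

lemma abs_lin_le (z : ℂ) (t : ℝ) : |lin z t| ≤ ‖z‖ := by
  rw [abs_le]
  constructor
  · have h := lin_le_norm (-z) t
    have h2 : lin (-z) t = -lin z t := by simp [lin]; ring
    rw [h2, norm_neg] at h
    linarith
  · exact lin_le_norm z t

lemma lin_sub_le (z w : ℂ) (t : ℝ) : |lin z t - lin w t| ≤ ‖z - w‖ := by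
  rw [← lin_sub]; exact abs_lin_le _ _

lemma continuous_lin_left (t : ℝ) : Continuous (fun z : ℂ => lin z t) := by
  unfold lin
  exact (Complex.continuous_re.mul continuous_const).add (Complex.continuous_im.mul continuous_const)

lemma continuous_lin_right (z : ℂ) : Continuous (lin z) := by
  unfold lin
  exact (continuous_const.mul continuous_cos).add (continuous_const.mul continuous_sin)

/-- `lin z` attains the norm of `z`. -/
lemma exists_lin_eq_norm (z : ℂ) : ∃ t, lin z t = ‖z‖ := by
  by_cases hz : z = 0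
  · exact ⟨0, by simp [hz, lin]⟩
  refine ⟨Complex.arg z, ?_⟩
  have h1 := Complex.cos_arg hz
  have h2 := Complex.sin_arg z
  have hn : ‖z‖ ≠ 0 := norm_ne_zero_iff.2 hz
  unfold lin
  rw [h1, h2]
  field_simp
  rw [← Complex.normSq_eq_norm_sq, Complex.normSq_apply]
  ring

/-- The gap `s t - lin z t` attains its minimum, for continuous periodic `s`. -/
lemma exists_min_gap {s : ℝ → ℝ} (hc : Continuous s) (hp : Function.Periodic s (2 * π)) (z : ℂ) :
    ∃ t0, ∀ t, s t0 - lin z t0 ≤ s t - lin z t := by
  have hper : Function.Periodic (fun t => s t - lin z t) (2 * π) := by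
    intro t
    simp only [hp t, lin_periodic z t]
  have hcont : Continuous (fun t => s t - lin z t) := hc.sub (continuous_lin_right z)
  obtain ⟨t0, -, ht0⟩ := (isCompact_Icc (a := (0 : ℝ)) (b := 2 * π)).exists_isMinOn
    ⟨0, by simp [Real.pi_pos.le]⟩ hcont.continuousOn
  refine ⟨t0, fun t => ?_⟩
  obtain ⟨y, hy, hyt⟩ := hper.exists_mem_Ico₀ (by positivity) t
  rw [hyt]
  exact ht0 ⟨hy.1, hy.2.le⟩

lemma isOpen_In {s : ℝ → ℝ} (hc : Continuous s) (hp : Function.Periodic s (2 * π)) :
    IsOpen (In s) := by
  rw [Metric.isOpen_iff]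
  intro z hz
  obtain ⟨t0, ht0⟩ := exists_min_gap hc hp z
  have hgap : 0 < s t0 - lin z t0 := sub_pos.2 (hz t0)
  refine ⟨s t0 - lin z t0, hgap, fun w hw t => ?_⟩
  have h1 : ‖w - z‖ < s t0 - lin z t0 := by rwa [← dist_eq_norm]
  have h2 := lin_sub_le w z t
  have h3 := ht0 t
  have h4 := abs_le.1 h2
  linarith [h4.2]

lemma isClosed_InCl (s : ℝ → ℝ) : IsClosed (InCl s) := by
  have : InCl s = ⋂ t, {z | lin z t ≤ s t} := by
    ext z; simp [InCl]
  rw [this]
  exact isClosed_iInter (fun t => isClosed_le (continuous_lin_left t) continuous_const)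

lemma In_subset_InCl (s : ℝ → ℝ) : In s ⊆ InCl s := fun _ hz t => (hz t).le

lemma closure_In_subset (s : ℝ → ℝ) : closure (In s) ⊆ InCl s :=
  closure_minimal (In_subset_InCl s) (isClosed_InCl s)

lemma convex_In (s : ℝ → ℝ) : Convex ℝ (In s) := by
  intro z hz w hw a b ha hb hab t
  have h1 := hz t
  have h2 := hw t
  have hlin : lin (a • z + b • w) t = a * lin z t + b * lin w t := by
    simp [lin]; ring
  rw [hlin]
  have hs : s t = a * s t + b * s t := by
    rw [← add_mul, hab, one_mul]
  rw [hs]
  rcases eq_or_lt_of_le ha with rfl | ha'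
  · have hb1 : b = 1 := by linarith
    subst hb1
    simpa using h2
  · have := mul_lt_mul_of_pos_left h1 ha'
    have := mul_le_mul_of_nonneg_left h2.le hb
    linarith

/-- The closed inside is bounded: a continuous periodic function is bounded above. -/
lemma exists_bound {s : ℝ → ℝ} (hc : Continuous s) (hp : Function.Periodic s (2 * π)) :
    ∃ B, ∀ t, s t ≤ B := by
  obtain ⟨t0, -, ht0⟩ := (isCompact_Icc (a := (0 : ℝ)) (b := 2 * π)).exists_isMaxOn
    ⟨0, by simp [Real.pi_pos.le]⟩ hc.continuousOn
  refine ⟨s t0, fun t => ?_⟩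
  obtain ⟨y, hy, hyt⟩ := hp.exists_mem_Ico₀ (by positivity) t
  rw [hyt]
  exact ht0 ⟨hy.1, hy.2.le⟩

lemma isBounded_InCl {s : ℝ → ℝ} (hc : Continuous s) (hp : Function.Periodic s (2 * π)) :
    Bornology.IsBounded (InCl s) := by
  obtain ⟨B, hB⟩ := exists_bound hc hp
  rw [isBounded_iff_forall_norm_le]
  refine ⟨B, fun z hz => ?_⟩
  obtain ⟨t, ht⟩ := exists_lin_eq_norm z
  rw [← ht]
  exact (hz t).trans (hB t)

lemma isBounded_In {s : ℝ → ℝ} (hc : Continuous s) (hp : Function.Periodic s (2 * π)) :
    Bornology.IsBounded (In s) :=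
  (isBounded_InCl hc hp).subset (In_subset_InCl s)

/-- The frontier of the inside lies on the curve. -/
theorem frontier_In_subset {s s1 : ℝ → ℝ} (hd : ∀ t, HasDerivAt s (s1 t) t)
    (hp : Function.Periodic s (2 * π)) : frontier (In s) ⊆ range (sigOf s s1) := by
  have hc : Continuous s := continuous_iff_continuousAt.2 (fun t => (hd t).continuousAt)
  intro z hz
  have hopen := isOpen_In hc hp
  rw [hopen.frontier_eq] at hz
  obtain ⟨hzc, hzn⟩ := hz
  have hle := closure_In_subset s hzc
  -- some `t` has equality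
  have : ∃ t, ¬ (lin z t < s t) := by
    by_contra hcon
    push Not at hcon
    exact hzn hcon
  obtain ⟨t, ht⟩ := this
  have heq : lin z t = s t := le_antisymm (hle t) (not_lt.1 ht)
  -- `t` is a maximum of `lin z - s`
  have hmax : IsLocalMax (fun τ => lin z τ - s τ) t := by
    apply Filter.Eventually.of_forall
    intro τ
    have h1 := hle τ
    simp only
    linarith
  have hder : HasDerivAt (fun τ => lin z τ - s τ) (lin' z t - s1 t) t :=
    (hasDerivAt_lin z t).sub (hd t)
  have hzero : lin' z t - s1 t = 0 := hmax.hasDerivAt_eq_zero hder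
  have h1 : lin' z t = s1 t := by linarith
  refine ⟨t, ?_⟩
  -- solve the two linear equations
  apply Complex.ext
  · simp only [sigOf, Complex.mul_re, Complex.add_re, Complex.ofReal_re, Complex.mul_im,
      Complex.I_re, Complex.I_im, Complex.ofReal_im, Complex.add_im, Complex.exp_ofReal_mul_I_re,
      Complex.exp_ofReal_mul_I_im]
    rw [← heq, ← h1]
    unfold lin lin'
    have := sin_sq_add_cos_sq t
    linear_combination z.re * this
  · simp only [sigOf, Complex.mul_re, Complex.add_re, Complex.ofReal_re, Complex.mul_im,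
      Complex.I_re, Complex.I_im, Complex.ofReal_im, Complex.add_im, Complex.exp_ofReal_mul_I_re,
      Complex.exp_ofReal_mul_I_im]
    rw [← heq, ← h1]
    unfold lin lin'
    have := sin_sq_add_cos_sq t
    linear_combination z.im * this

/-- Scaling. -/
lemma InCl_scale_subset_In {s : ℝ → ℝ} (hs : ∀ t, 0 < s t) {q : ℝ} (hq : q < 1) :
    InCl (fun t => q * s t) ⊆ In s := by
  intro z hz t
  have h1 := hz t
  have h2 := hs t
  simp only at h1
  nlinarith

/-- Each point of the inside is inside the curve scaled by `q`, for `q` close to `1`. -/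
lemma exists_scale {s : ℝ → ℝ} (hc : Continuous s) (hp : Function.Periodic s (2 * π))
    {z : ℂ} (hz : z ∈ In s) : ∃ q0 < 1, ∀ q, q0 < q → q ≤ 1 → z ∈ In (fun t => q * s t) := by
  obtain ⟨t0, ht0⟩ := exists_min_gap hc hp z
  have hgap : 0 < s t0 - lin z t0 := sub_pos.2 (hz t0)
  obtain ⟨B, hB⟩ := exists_bound hc hp
  set g := s t0 - lin z t0 with hg
  set B' := |B| + 1 with hB'
  have hB'pos : 0 < B' := by positivity
  refine ⟨1 - g / (2 * B'), ?_, fun q hq hq1 t => ?_⟩
  · have : 0 < g / (2 * B') := by positivity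
    linarith
  · have h1 := ht0 t
    have h2 : s t ≤ B' := (hB t).trans ((le_abs_self B).trans (by rw [hB']; linarith))
    simp only
    by_cases hst : 0 ≤ s t
    · have h3 : (1 - q) * s t ≤ (g / (2 * B')) * B' := by
        apply mul_le_mul (by linarith) h2 hst (by positivity)
      have h4 : (g / (2 * B')) * B' = g / 2 := by field_simp
      nlinarith
    · rw [not_le] at hst
      have hq0 : (1 - q) * s t ≤ 0 := mul_nonpos_of_nonneg_of_nonpos (by linarith) hst.le
      nlinarith

end Vale.Agent.Lib.P123C
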