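import Vale.Agent.Lib.P123C.Oper

/-!
# Crouzeix route: contour operator along the smooth convex curve

Raw curve data in the style of `Geom`. Resolvent along the curve, contour operator `T`, Cauchy
transform `Cc`. If the Cauchy transform of `h` is constant on the inside then `T h` is that
constant (Liouville, no inner contour). Moments and commutation.
-/

open Complex ComplexConjugate MeasureTheory Set Filter Topology
open scoped Interval InnerProductSpace Real

namespace Vale.Agent.Lib.P123C.Calc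

open Geom Oper

/-- raw data of the curve, bundled -/
structure IsCrv (s s1 R : ℝ → ℝ) : Prop where
  hs : ∀ t, HasDerivAt s (s1 t) t
  hs1 : ∀ t, HasDerivAt s1 (R t - s t) t
  hper : ∀ t, s (t + 2 * π) = s t
  hper1 : ∀ t, s1 (t + 2 * π) = s1 t
  hRc : Continuous R
  hRper : ∀ t, R (t + 2 * π) = R t

variable {s s1 R : ℝ → ℝ}

theorem e_cont : Continuous e := by
  unfold e; fun_prop

namespace IsCrv

theorem s_cont (hc : IsCrv s s1 R) : Continuous s :=
  continuous_iff_continuousAt.2 fun t => (hc.hs t).continuousAt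

theorem s1_cont (hc : IsCrv s s1 R) : Continuous s1 :=
  continuous_iff_continuousAt.2 fun t => (hc.hs1 t).continuousAt

theorem sig_deriv (hc : IsCrv s s1 R) (t : ℝ) : HasDerivAt (sig s s1) (sigD R t) t :=
  hasDerivAt_sig hc.hs hc.hs1 t

theorem sig_cont (hc : IsCrv s s1 R) : Continuous (sig s s1) :=
  continuous_iff_continuousAt.2 fun t => (hc.sig_deriv t).continuousAt

theorem dsig_cont (hc : IsCrv s s1 R) : Continuous (sigD R) := by
  unfold sigD
  have h1 := hc.hRc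
  have h2 := e_cont
  fun_prop

theorem sig_per (hc : IsCrv s s1 R) (t : ℝ) : sig s s1 (t + 2 * π) = sig s s1 t :=
  sig_periodic hc.hper hc.hper1 t

theorem dsig_per (hc : IsCrv s s1 R) (t : ℝ) : sigD R (t + 2 * π) = sigD R t := by
  unfold sigD; rw [hc.hRper, e_periodic]

/-- A continuous periodic real function is bounded. -/
theorem bdd_of_per {f : ℝ → ℝ} (hf : Continuous f) (hp : ∀ t, f (t + 2 * π) = f t) :
    ∃ C : ℝ, ∀ t, |f t| ≤ C := by
  obtain ⟨C, hC⟩ := isCompact_Icc.exists_bound_of_continuousOn (s := Icc (0 : ℝ) (2 * π)) hf.continuousOn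
  refine ⟨C, fun t => ?_⟩
  have hper : Function.Periodic f (2 * π) := hp
  obtain ⟨y, hy, hyt⟩ := hper.exists_mem_Ico₀ Real.two_pi_pos t
  rw [hyt]
  simpa [Real.norm_eq_abs] using hC y (Ico_subset_Icc_self hy)

end IsCrv

theorem hh_cont (hc : IsCrv s s1 R) : Continuous (fun p : ℝ × ℂ => hh s p.1 p.2) := by
  unfold hh
  have h1 := hc.s_cont
  have h2 := e_cont
  have hc' : Continuous (fun p : ℝ × ℂ => conj (e p.1) * p.2) :=
    (Complex.continuous_conj.comp (h2.comp continuous_fst)).mul continuous_snd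
  exact (h1.comp continuous_fst).sub (Complex.continuous_re.comp hc')

theorem hh_sub (t : ℝ) (z w : ℂ) : hh s t z - hh s t w = (conj (e t) * (w - z)).re := by
  unfold hh
  rw [mul_sub, Complex.sub_re]
  ring

theorem abs_hh_sub_le (t : ℝ) (z w : ℂ) : |hh s t z - hh s t w| ≤ ‖z - w‖ := by
  rw [hh_sub]
  refine (Complex.abs_re_le_norm _).trans ?_
  rw [norm_mul, Complex.norm_conj, norm_e, one_mul, norm_sub_rev]

theorem hh_le_norm (t : ℝ) (z : ℂ) : hh s t z ≤ ‖sig s s1 t - z‖ := by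
  have h1 : hh s t z - hh s t (sig s s1 t) ≤ ‖z - sig s s1 t‖ := (abs_le.1 (abs_hh_sub_le t z _)).2
  rw [hh_self, sub_zero, norm_sub_rev] at h1
  exact h1

/-- the inside of the curve -/
def In (s : ℝ → ℝ) : Set ℂ := {z | ∀ t, 0 < hh s t z}

/-- uniform margin inside -/
theorem exists_margin (hc : IsCrv s s1 R) {z : ℂ} (hz : z ∈ In s) : ∃ d : ℝ, 0 < d ∧ ∀ t, d ≤ hh s t z := by
  have hf : Continuous (fun t => hh s t z) :=
    (hh_cont hc).comp (continuous_id.prodMk continuous_const)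
  obtain ⟨t0, _, ht0⟩ := isCompact_Icc.exists_isMinOn (s := Icc (0 : ℝ) (2 * π))
    ⟨0, by constructor <;> [exact le_rfl; positivity]⟩ hf.continuousOn
  refine ⟨hh s t0 z, hz t0, fun t => ?_⟩
  have hper : Function.Periodic (fun t => hh s t z) (2 * π) := fun t => hh_periodic hc.hper t z
  obtain ⟨y, hy, hyt⟩ := hper.exists_mem_Ico₀ Real.two_pi_pos t
  have h2 : hh s t0 z ≤ hh s y z := ht0 (Ico_subset_Icc_self hy)
  rw [show hh s t z = hh s y z from hyt]
  exact h2

theorem isOpen_In (hc : IsCrv s s1 R) : IsOpen (In s) := by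
  rw [Metric.isOpen_iff]
  intro z hz
  obtain ⟨d, hd, hm⟩ := exists_margin hc hz
  refine ⟨d, hd, fun w hw t => ?_⟩
  rw [Metric.mem_ball, dist_eq_norm] at hw
  have h1 := (abs_le.1 (abs_hh_sub_le (s := s) t z w)).2
  have h2 := hm t
  rw [norm_sub_rev] at hw
  linarith

theorem sig_sub_ne {t : ℝ} {z : ℂ} (hz : 0 < hh s t z) : sig s s1 t - z ≠ 0 := by
  intro h0
  have h1 := hh_le_norm (s := s) (s1 := s1) t z
  rw [h0, norm_zero] at h1
  linarith

section Cauchy

variable {E : Type*} [NormedAddCommGroup E] [NormedSpace ℂ E] [CompleteSpace E]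

/-- A Cauchy integral along the curve is holomorphic inside. -/
theorem cauchy_diff (hc : IsCrv s s1 R) {φ : ℝ → E} (hφ : Continuous φ) :
    DifferentiableOn ℂ (fun ζ => ∫ t in (0 : ℝ)..(2 * π), (sig s s1 t - ζ)⁻¹ • φ t) (In s) := by
  intro ζ₀ hζ₀
  apply DifferentiableAt.differentiableWithinAt
  obtain ⟨d, hd, hm⟩ := exists_margin hc hζ₀
  obtain ⟨C, hC⟩ := isCompact_Icc.exists_bound_of_continuousOn (s := Icc (0 : ℝ) (2 * π)) hφ.continuousOn
  have hball : ∀ x ∈ Metric.ball ζ₀ (d / 2), ∀ t, d / 2 ≤ hh s t x := by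
    intro x hx t
    rw [Metric.mem_ball, dist_eq_norm] at hx
    have h1 := (abs_le.1 (abs_hh_sub_le (s := s) t x ζ₀)).1
    have h2 := hm t
    linarith
  have hne : ∀ x ∈ Metric.ball ζ₀ (d / 2), ∀ t, sig s s1 t - x ≠ 0 := by
    intro x hx t
    exact sig_sub_ne (lt_of_lt_of_le (by positivity) (hball x hx t))
  have hnorm : ∀ x ∈ Metric.ball ζ₀ (d / 2), ∀ t, ‖(sig s s1 t - x)⁻¹‖ ≤ 2 / d := by
    intro x hx t
    have h1 := hball x hx t
    have h2 := hh_le_norm (s := s) (s1 := s1) t x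
    rw [norm_inv, inv_le_comm₀ (norm_pos_iff.2 (hne x hx t)) (by positivity)]
    rw [inv_div]
    linarith
  have hcont : ∀ x ∈ Metric.ball ζ₀ (d / 2), Continuous (fun t => (sig s s1 t - x)⁻¹) := by
    intro x hx
    exact (hc.sig_cont.sub continuous_const).inv₀ (hne x hx)
  have hb := Metric.ball_mem_nhds ζ₀ (by positivity : 0 < d / 2)
  have h2pi : (0 : ℝ) ≤ 2 * π := Real.two_pi_pos.le
  have key := intervalIntegral.hasDerivAt_integral_of_dominated_loc_of_deriv_le (μ := volume)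
    (a := 0) (b := 2 * π)
    (F := fun ζ t => (sig s s1 t - ζ)⁻¹ • φ t)
    (F' := fun ζ t => (((sig s s1 t - ζ)⁻¹) ^ 2) • φ t)
    (bound := fun _ => (2 / d) ^ 2 * C) hb ?_ ?_ ?_ ?_ ?_ ?_
  · exact key.2.differentiableAt
  · filter_upwards [hb] with x hx
    exact ((hcont x hx).smul hφ).aestronglyMeasurable
  · exact ((hcont ζ₀ (Metric.mem_ball_self (by positivity))).smul hφ).intervalIntegrable _ _
  · exact (((hcont ζ₀ (Metric.mem_ball_self (by positivity))).pow 2).smul hφ).aestronglyMeasurable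
  · refine Eventually.of_forall ?_
    intro t ht x hx
    rw [uIoc_of_le h2pi] at ht
    rw [norm_smul, norm_pow]
    have h1 := hnorm x hx t
    have h2 := hC t (Ioc_subset_Icc_self ht)
    have hC0 : 0 ≤ C := (norm_nonneg _).trans h2
    exact mul_le_mul (pow_le_pow_left₀ (norm_nonneg _) h1 2) h2 (norm_nonneg _) (by positivity)
  · exact intervalIntegrable_const
  · refine Eventually.of_forall ?_
    intro t _ x hx
    have h1 : HasDerivAt (fun ζ => sig s s1 t - ζ) (-1) x := by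
      simpa using (hasDerivAt_id x).const_sub (sig s s1 t)
    have h2 := h1.inv (hne x hx t)
    have e' : - (-1 : ℂ) / (sig s s1 t - x) ^ 2 = ((sig s s1 t - x)⁻¹) ^ 2 := by
      field_simp [hne x hx t]
    rw [e'] at h2
    exact h2.smul_const (φ t)

/-- The radial homotopy: the contour integral over the scaled curve has zero derivative in the
scale. -/
theorem radial_hasDerivAt (hc : IsCrv s s1 R) {F : ℂ → E} {U : Set ℂ} (hU : IsOpen U)
    (hF : DifferentiableOn ℂ F U) {ρ₀ : ℝ} (h₀ : ∀ t, (ρ₀ : ℂ) * sig s s1 t ∈ U) :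
    HasDerivAt (fun ρ : ℝ => ∫ t in (0 : ℝ)..(2 * π), (ρ : ℂ) • (sigD R t • F ((ρ : ℂ) * sig s s1 t))) 0 ρ₀ := by
  have h2pi : (0 : ℝ) ≤ 2 * π := Real.two_pi_pos.le
  have hsc := hc.sig_cont
  have hdc := hc.dsig_cont
  -- bounds for the curve
  obtain ⟨M, hM⟩ := IsCrv.bdd_of_per (f := fun t => ‖sig s s1 t‖) hsc.norm
    (fun t => by simp only [hc.sig_per])
  obtain ⟨Rm, hRm⟩ := IsCrv.bdd_of_per (f := fun t => ‖sigD R t‖) hdc.norm
    (fun t => by simp only [hc.dsig_per])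
  have hM' : ∀ t, ‖sig s s1 t‖ ≤ M := fun t => (le_abs_self _).trans (hM t)
  have hRm' : ∀ t, ‖sigD R t‖ ≤ Rm := fun t => (le_abs_self _).trans (hRm t)
  have hM0 : 0 ≤ M := (norm_nonneg _).trans (hM' 0)
  have hRm0 : 0 ≤ Rm := (norm_nonneg _).trans (hRm' 0)
  -- a compact neighbourhood of the scaled curve
  set K : Set ℂ := (fun t => (ρ₀ : ℂ) * sig s s1 t) '' Icc 0 (2 * π) with hK
  have hKc : IsCompact K := isCompact_Icc.image (continuous_const.mul hsc)
  have hKU : K ⊆ U := by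
    rintro _ ⟨t, _, rfl⟩
    exact h₀ t
  obtain ⟨δ, hδ, hδU⟩ := hKc.exists_cthickening_subset_open hU hKU
  set K1 : Set ℂ := Metric.cthickening δ K with hK1
  have hK1c : IsCompact K1 := hKc.cthickening
  have hFc : ContinuousOn F K1 := hF.continuousOn.mono hδU
  have hFd : ContinuousOn (deriv F) K1 :=
    ((hF.contDiffOn (n := 1) hU).continuousOn_deriv_of_isOpen hU (by norm_num)).mono hδU
  obtain ⟨C0, hC0⟩ := hK1c.exists_bound_of_continuousOn hFc
  obtain ⟨C1, hC1⟩ := hK1c.exists_bound_of_continuousOn hFd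
  set δ' : ℝ := δ / (M + 1) with hδ'
  have hδ'0 : 0 < δ' := by positivity
  have hin : ∀ ρ ∈ Metric.ball ρ₀ δ', ∀ t, (ρ : ℂ) * sig s s1 t ∈ K1 := by
    intro ρ hρ t
    rw [Metric.mem_ball, Real.dist_eq] at hρ
    have hper : Function.Periodic (sig s s1) (2 * π) := hc.sig_per
    obtain ⟨y, hy, hyt⟩ := hper.exists_mem_Ico₀ Real.two_pi_pos t
    have hmem : (ρ₀ : ℂ) * sig s s1 t ∈ K := ⟨y, Ico_subset_Icc_self hy, by simp only [hyt]⟩
    apply Metric.mem_cthickening_of_dist_le _ _ _ _ hmem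
    rw [dist_eq_norm, ← sub_mul, norm_mul, ← Complex.ofReal_sub, Complex.norm_real, Real.norm_eq_abs]
    have h1 : |ρ - ρ₀| * ‖sig s s1 t‖ ≤ δ' * (M + 1) :=
      mul_le_mul hρ.le ((hM' t).trans (by linarith)) (norm_nonneg _) hδ'0.le
    have h2 : δ' * (M + 1) = δ := by
      rw [hδ']; field_simp
    linarith
  have hinU : ∀ ρ ∈ Metric.ball ρ₀ δ', ∀ t, (ρ : ℂ) * sig s s1 t ∈ U := fun ρ hρ t => hδU (hin ρ hρ t)
  have hpathc : ∀ ρ : ℝ, Continuous (fun t => (ρ : ℂ) * sig s s1 t) := fun ρ => continuous_const.mul hsc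
  have hFcomp : ∀ ρ ∈ Metric.ball ρ₀ δ', Continuous (fun t => F ((ρ : ℂ) * sig s s1 t)) := by
    intro ρ hρ
    exact hF.continuousOn.comp_continuous (hpathc ρ) (hinU ρ hρ)
  have hFdcomp : ∀ ρ ∈ Metric.ball ρ₀ δ', Continuous (fun t => deriv F ((ρ : ℂ) * sig s s1 t)) := by
    intro ρ hρ
    exact ((hF.contDiffOn (n := 1) hU).continuousOn_deriv_of_isOpen hU (by norm_num)).comp_continuous
      (hpathc ρ) (hinU ρ hρ)
  have hb := Metric.ball_mem_nhds ρ₀ hδ'0
  have hself := Metric.mem_ball_self (x := ρ₀) hδ'0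
  set G' : ℝ → ℝ → E := fun ρ t => sigD R t • F ((ρ : ℂ) * sig s s1 t) +
    (ρ : ℂ) • (sigD R t • (sig s s1 t • deriv F ((ρ : ℂ) * sig s s1 t))) with hG'
  have hG'c : ∀ ρ ∈ Metric.ball ρ₀ δ', Continuous (G' ρ) := by
    intro ρ hρ
    have h1 := hFcomp ρ hρ
    have h2 := hFdcomp ρ hρ
    simp only [hG']
    exact (hdc.smul h1).add (continuous_const.smul (hdc.smul (hsc.smul h2)))
  have key := intervalIntegral.hasDerivAt_integral_of_dominated_loc_of_deriv_le (μ := volume)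
    (a := 0) (b := 2 * π)
    (F := fun (ρ : ℝ) t => (ρ : ℂ) • (sigD R t • F ((ρ : ℂ) * sig s s1 t)))
    (F' := G')
    (bound := fun _ => Rm * C0 + (|ρ₀| + δ') * (Rm * (M * C1))) hb ?_ ?_ ?_ ?_ ?_ ?_
  · have hz : ∫ t in (0 : ℝ)..(2 * π), G' ρ₀ t = 0 := by
      have hdt : ∀ t, HasDerivAt (fun t => sig s s1 t • F ((ρ₀ : ℂ) * sig s s1 t)) (G' ρ₀ t) t := by
        intro t
        have h1 := hc.sig_deriv t
        have h2 : HasDerivAt (fun t => (ρ₀ : ℂ) * sig s s1 t) ((ρ₀ : ℂ) * sigD R t) t := h1.const_mul _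
        have h3 : HasDerivAt F (deriv F ((ρ₀ : ℂ) * sig s s1 t)) ((ρ₀ : ℂ) * sig s s1 t) :=
          (hF.differentiableAt (hU.mem_nhds (h₀ t))).hasDerivAt
        have h4 := h3.scomp t h2
        have h5 := h1.smul h4
        refine h5.congr_deriv ?_
        simp only [hG', smul_smul]
        rw [add_comm]
        congr 2
        ring
      rw [intervalIntegral.integral_eq_sub_of_hasDerivAt (fun t _ => hdt t)
        ((hG'c ρ₀ hself).intervalIntegrable _ _)]
      have h2 := hc.sig_per 0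
      rw [zero_add] at h2
      rw [h2, sub_self]
    have h3 := key.2
    rw [hz] at h3
    exact h3
  · filter_upwards [hb] with ρ hρ
    exact (continuous_const.smul (hdc.smul (hFcomp ρ hρ))).aestronglyMeasurable
  · exact (continuous_const.smul (hdc.smul (hFcomp ρ₀ hself))).intervalIntegrable _ _
  · exact (hG'c ρ₀ hself).aestronglyMeasurable
  · refine Eventually.of_forall ?_
    intro t _ ρ hρ
    have h1 := hC0 _ (hin ρ hρ t)
    have h2 := hC1 _ (hin ρ hρ t)
    have hC00 : 0 ≤ C0 := (norm_nonneg _).trans h1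
    have hC10 : 0 ≤ C1 := (norm_nonneg _).trans h2
    simp only [hG']
    refine (norm_add_le _ _).trans ?_
    apply add_le_add
    · rw [norm_smul]
      exact mul_le_mul (hRm' t) h1 (norm_nonneg _) hRm0
    · rw [norm_smul, norm_smul, norm_smul, Complex.norm_real, Real.norm_eq_abs]
      have hρ' : |ρ| ≤ |ρ₀| + δ' := by
        rw [Metric.mem_ball, Real.dist_eq] at hρ
        have := abs_sub_abs_le_abs_sub ρ ρ₀
        linarith
      exact mul_le_mul hρ' (mul_le_mul (hRm' t) (mul_le_mul (hM' t) h2 (norm_nonneg _) hM0)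
        (by positivity) hRm0) (by positivity) (by positivity)
  · exact intervalIntegrable_const
  · refine Eventually.of_forall ?_
    intro t _ ρ hρ
    have hw := hinU ρ hρ t
    have h1 : HasDerivAt (fun ρ : ℝ => (ρ : ℂ)) 1 ρ := Complex.ofRealCLM.hasDerivAt
    have h2 : HasDerivAt (fun ρ : ℝ => (ρ : ℂ) * sig s s1 t) (1 * sig s s1 t) ρ := h1.mul_const _
    have h3 : HasDerivAt F (deriv F ((ρ : ℂ) * sig s s1 t)) ((ρ : ℂ) * sig s s1 t) :=
      (hF.differentiableAt (hU.mem_nhds hw)).hasDerivAt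
    have h4 := h3.scomp ρ h2
    have h5 := h1.smul (h4.const_smul (sigD R t))
    refine h5.congr_deriv ?_
    simp only [hG', one_smul, one_mul]
    rw [add_comm]
    rfl

/-- Cauchy's theorem inside the curve (radial homotopy). -/
theorem curve_cauchy_in (hc : IsCrv s s1 R) {F : ℂ → E} {U : Set ℂ} (hU : IsOpen U)
    (hF : DifferentiableOn ℂ F U) (hr : ∀ ρ ∈ Icc (0 : ℝ) 1, ∀ t, (ρ : ℂ) * sig s s1 t ∈ U) :
    ∫ t in (0 : ℝ)..(2 * π), sigD R t • F (sig s s1 t) = 0 := by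
  set J : ℝ → E := fun ρ => ∫ t in (0 : ℝ)..(2 * π), (ρ : ℂ) • (sigD R t • F ((ρ : ℂ) * sig s s1 t)) with hJ
  have hd : ∀ ρ ∈ Icc (0 : ℝ) 1, HasDerivAt J 0 ρ := fun ρ hρ => radial_hasDerivAt hc hU hF (hr ρ hρ)
  have hconst := constant_of_has_deriv_right_zero (f := J) (a := 0) (b := 1)
    (fun ρ hρ => (hd ρ hρ).continuousAt.continuousWithinAt)
    (fun ρ hρ => (hd ρ (Ico_subset_Icc_self hρ)).hasDerivWithinAt)
  have h1 := hconst 1 (by constructor <;> norm_num)
  have h0 : J 0 = 0 := by simp [hJ]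
  rw [h0] at h1
  simpa [hJ] using h1

/-- Cauchy's theorem outside the curve (radial homotopy to infinity). -/
theorem curve_cauchy_out (hc : IsCrv s s1 R) {F : ℂ → E} {U : Set ℂ} (hU : IsOpen U)
    (hF : DifferentiableOn ℂ F U) (hr : ∀ ρ : ℝ, 1 ≤ ρ → ∀ t, (ρ : ℂ) * sig s s1 t ∈ U)
    {C : ℝ} (hC : ∀ ρ : ℝ, 1 ≤ ρ → ∀ t, ‖F ((ρ : ℂ) * sig s s1 t)‖ ≤ C / ρ ^ 2) :
    ∫ t in (0 : ℝ)..(2 * π), sigD R t • F (sig s s1 t) = 0 := by
  set J : ℝ → E := fun ρ => ∫ t in (0 : ℝ)..(2 * π), (ρ : ℂ) • (sigD R t • F ((ρ : ℂ) * sig s s1 t)) with hJ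
  have hd : ∀ ρ : ℝ, 1 ≤ ρ → HasDerivAt J 0 ρ := fun ρ hρ => radial_hasDerivAt hc hU hF (hr ρ hρ)
  have hconst : ∀ ρ : ℝ, 1 ≤ ρ → J ρ = J 1 := by
    intro ρ hρ
    have h := constant_of_has_deriv_right_zero (f := J) (a := 1) (b := ρ)
      (fun x hx => (hd x hx.1).continuousAt.continuousWithinAt)
      (fun x hx => (hd x hx.1).hasDerivWithinAt)
    exact h ρ ⟨hρ, le_rfl⟩
  obtain ⟨Rm, hRm⟩ := IsCrv.bdd_of_per (f := fun t => ‖sigD R t‖) hc.dsig_cont.norm
    (fun t => by simp only [hc.dsig_per])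
  have hRm' : ∀ t, ‖sigD R t‖ ≤ Rm := fun t => (le_abs_self _).trans (hRm t)
  have hRm0 : 0 ≤ Rm := (norm_nonneg _).trans (hRm' 0)
  have hC0 : 0 ≤ C := by
    have := (norm_nonneg _).trans (hC 1 le_rfl 0)
    simpa using this
  have hbound : ∀ ρ : ℝ, 1 ≤ ρ → ‖J ρ‖ ≤ Rm * C * (2 * π) / ρ := by
    intro ρ hρ
    have hρ0 : 0 < ρ := by linarith
    have h1 : ∀ t ∈ Ι (0 : ℝ) (2 * π), ‖(ρ : ℂ) • (sigD R t • F ((ρ : ℂ) * sig s s1 t))‖ ≤ Rm * C / ρ := by
      intro t _
      rw [norm_smul, norm_smul, Complex.norm_real, Real.norm_eq_abs, abs_of_pos hρ0]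
      have h2 := hC ρ hρ t
      calc ρ * (‖sigD R t‖ * ‖F ((ρ : ℂ) * sig s s1 t)‖) ≤ ρ * (Rm * (C / ρ ^ 2)) := by
            apply mul_le_mul_of_nonneg_left _ hρ0.le
            exact mul_le_mul (hRm' t) h2 (norm_nonneg _) hRm0
        _ = Rm * C / ρ := by field_simp
    have h3 := intervalIntegral.norm_integral_le_of_norm_le_const h1
    rw [sub_zero, abs_of_pos Real.two_pi_pos] at h3
    calc ‖J ρ‖ ≤ Rm * C / ρ * (2 * π) := h3
      _ = Rm * C * (2 * π) / ρ := by ring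
  have hlim : Tendsto (fun ρ : ℝ => Rm * C * (2 * π) / ρ) atTop (𝓝 0) :=
    tendsto_const_nhds.div_atTop tendsto_id
  have hzero : J 1 = 0 := by
    have h4 : ∀ᶠ ρ : ℝ in atTop, ‖J 1‖ ≤ Rm * C * (2 * π) / ρ := by
      filter_upwards [eventually_ge_atTop (1 : ℝ)] with ρ hρ
      rw [← hconst ρ hρ]
      exact hbound ρ hρ
    have h5 := ge_of_tendsto hlim h4
    exact norm_le_zero_iff.1 h5
  simpa [hJ] using hzero

end Cauchy

section Resolvent

variable {H : Type*} [NormedAddCommGroup H] [InnerProductSpace ℂ H] [CompleteSpace H]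

variable {A : H →L[ℂ] H} {η : ℝ}

/-- Coercivity. -/
theorem ins_coer (hA : Inside s A η) {ζ : ℂ} (t : ℝ) (x : H) :
    (η - hh s t ζ) * ‖x‖ ^ 2 ≤ (conj (e t) * inner ℂ x ((ζ • (1 : H →L[ℂ] H) - A) x)).re := by
  rw [inner_sub_res, mul_sub, sub_re]
  have h1 := hA.2 t x
  have e1 : (conj (e t) * (ζ * ((‖x‖ ^ 2 : ℝ) : ℂ))).re = (conj (e t) * ζ).re * ‖x‖ ^ 2 := by
    rw [← mul_assoc, Complex.re_mul_ofReal]
  rw [e1]
  have e2 : hh s t ζ = s t - (conj (e t) * ζ).re := rfl
  rw [e2]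
  nlinarith

theorem ins_coer_norm (hA : Inside s A η) {ζ : ℂ} (t : ℝ) (x : H) :
    (η - hh s t ζ) * ‖x‖ ^ 2 ≤ ‖inner ℂ x ((ζ • (1 : H →L[ℂ] H) - A) x)‖ := by
  refine (ins_coer hA t x).trans ((Complex.re_le_norm _).trans ?_)
  rw [norm_mul, Complex.norm_conj, norm_e, one_mul]

theorem ins_isUnit (hA : Inside s A η) {ζ : ℂ} (t : ℝ) (hg : 0 < η - hh s t ζ) :
    IsUnit (ζ • (1 : H →L[ℂ] H) - A) := by
  apply ContinuousLinearMap.isUnit_of_forall_le_norm_inner_map _ (c := ⟨η - hh s t ζ, hg.le⟩)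
    (by exact_mod_cast hg)
  intro x
  have h1 := ins_coer_norm hA t x (ζ := ζ)
  have e1 : ‖inner ℂ ((ζ • (1 : H →L[ℂ] H) - A) x) x‖ = ‖inner ℂ x ((ζ • (1 : H →L[ℂ] H) - A) x)‖ := by
    rw [← inner_conj_symm, Complex.norm_conj]
  rw [e1]
  refine le_trans (le_of_eq ?_) h1
  change ‖x‖ ^ 2 * (η - hh s t ζ) = _
  ring

theorem ins_mul_res (hA : Inside s A η) {ζ : ℂ} (t : ℝ) (hg : 0 < η - hh s t ζ) :
    (ζ • (1 : H →L[ℂ] H) - A) * Res A ζ = 1 :=
  Ring.mul_inverse_cancel _ (ins_isUnit hA t hg)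

theorem ins_res_mul (hA : Inside s A η) {ζ : ℂ} (t : ℝ) (hg : 0 < η - hh s t ζ) :
    Res A ζ * (ζ • (1 : H →L[ℂ] H) - A) = 1 :=
  Ring.inverse_mul_cancel _ (ins_isUnit hA t hg)

theorem ins_res_norm (hA : Inside s A η) {ζ : ℂ} (t : ℝ) (hg : 0 < η - hh s t ζ) :
    ‖Res A ζ‖ ≤ 1 / (η - hh s t ζ) := by
  apply ContinuousLinearMap.opNorm_le_bound _ (by positivity)
  intro x
  set y := Res A ζ x with hy
  have hxy : (ζ • (1 : H →L[ℂ] H) - A) y = x := by
    have := congrArg (fun T : H →L[ℂ] H => T x) (ins_mul_res hA t hg)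
    simpa using this
  have h1 := ins_coer_norm hA t y (ζ := ζ)
  rw [hxy] at h1
  have h2 := norm_inner_le_norm (𝕜 := ℂ) y x
  have h3 : (η - hh s t ζ) * ‖y‖ ^ 2 ≤ ‖y‖ * ‖x‖ := h1.trans h2
  rw [div_mul_eq_mul_div, one_mul, le_div_iff₀ hg]
  by_cases hy0 : ‖y‖ = 0
  · rw [hy0]
    have := norm_nonneg x
    nlinarith
  · have hypos : 0 < ‖y‖ := lt_of_le_of_ne (norm_nonneg _) (Ne.symm hy0)
    have : ‖y‖ * ((η - hh s t ζ) * ‖y‖) ≤ ‖y‖ * ‖x‖ := by nlinarith
    have := le_of_mul_le_mul_left this hypos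
    linarith

/-- The region where the resolvent is under control. -/
def Out (s : ℝ → ℝ) (η : ℝ) : Set ℂ := {ζ | ∃ t : ℝ, hh s t ζ < η / 2}

theorem isOpen_Out (hc : IsCrv s s1 R) (η : ℝ) : IsOpen (Out s η) := by
  have : Out s η = ⋃ t : ℝ, {ζ | hh s t ζ < η / 2} := by
    ext ζ
    simp [Out]
  rw [this]
  apply isOpen_iUnion
  intro t
  apply isOpen_lt _ continuous_const
  exact (hh_cont hc).comp (continuous_const.prodMk continuous_id)

theorem sig_mem_Out (hη : 0 < η) (t : ℝ) : sig s s1 t ∈ Out s η :=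
  ⟨t, by rw [hh_self]; linarith⟩

theorem mem_Out_of_not_In (hη : 0 < η) {ζ : ℂ} (h : ζ ∉ In s) : ζ ∈ Out s η := by
  simp only [In, mem_ofPred_eq, not_forall, not_lt] at h
  obtain ⟨t, ht⟩ := h
  exact ⟨t, by linarith⟩

theorem ins_mul_res' (hA : Inside s A η) {ζ : ℂ} (h : ζ ∈ Out s η) :
    (ζ • (1 : H →L[ℂ] H) - A) * Res A ζ = 1 := by
  obtain ⟨t, ht⟩ := h
  exact ins_mul_res hA t (by linarith [hA.1])

theorem ins_res_mul' (hA : Inside s A η) {ζ : ℂ} (h : ζ ∈ Out s η) :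
    Res A ζ * (ζ • (1 : H →L[ℂ] H) - A) = 1 := by
  obtain ⟨t, ht⟩ := h
  exact ins_res_mul hA t (by linarith [hA.1])

theorem ins_res_norm' (hA : Inside s A η) {ζ : ℂ} (h : ζ ∈ Out s η) : ‖Res A ζ‖ ≤ 2 / η := by
  obtain ⟨t, ht⟩ := h
  have hc := hA.1
  have hg : 0 < η - hh s t ζ := by linarith
  refine (ins_res_norm hA t hg).trans ?_
  rw [div_le_div_iff₀ hg hc]
  linarith

theorem ins_res_diff (hA : Inside s A η) {ζ : ℂ} (h : ζ ∈ Out s η) :
    DifferentiableAt ℂ (Res A) ζ := by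
  obtain ⟨t, ht⟩ := h
  have hu := ins_isUnit hA t (ζ := ζ) (by linarith [hA.1])
  have h1 : DifferentiableAt ℂ (fun z : ℂ => z • (1 : H →L[ℂ] H) - A) ζ :=
    (differentiableAt_id.smul_const _).sub_const _
  exact (differentiableAt_inverse (𝕜 := ℂ) hu).comp ζ h1

/-- continuity of the resolvent along the curve -/
theorem ins_res_sig_cont (hA : Inside s A η) (hc : IsCrv s s1 R) :
    Continuous (fun t => Res A (sig s s1 t)) :=
  continuous_iff_continuousAt.2 fun t =>
    ((ins_res_diff hA (sig_mem_Out hA.1 t)).continuousAt).comp (hc.sig_cont.continuousAt)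

/-- the Cauchy transform of a boundary function -/
noncomputable def Cc (s s1 R : ℝ → ℝ) (h : ℝ → ℂ) (ζ : ℂ) : ℂ :=
  (2 * (π : ℂ) * I)⁻¹ * ∫ t in (0 : ℝ)..(2 * π), (sig s s1 t - ζ)⁻¹ * (h t * sigD R t)

/-- the operator valued Cauchy transform -/
noncomputable def Psi (s s1 R : ℝ → ℝ) (A : H →L[ℂ] H) (h : ℝ → ℂ) (ζ : ℂ) : H →L[ℂ] H :=
  (2 * (π : ℂ) * I)⁻¹ • ∫ t in (0 : ℝ)..(2 * π), (sig s s1 t - ζ)⁻¹ • ((h t * sigD R t) • Res A (sig s s1 t))

theorem two_pi_I_ne : (2 * (π : ℂ) * I) ≠ 0 := by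
  simp [Real.pi_ne_zero, I_ne_zero]

/-- the basic identity -/
theorem ins_Psi_id (hA : Inside s A η) (hc : IsCrv s s1 R) {h : ℝ → ℂ} (hh' : Continuous h) {ζ : ℂ}
    (hζ : ζ ∈ In s) :
    (ζ • (1 : H →L[ℂ] H) - A) * Psi s s1 R A h ζ = Cc s s1 R h ζ • (1 : H →L[ℂ] H) - T s s1 R A h := by
  have hR := ins_res_sig_cont hA hc
  have hne : ∀ t, sig s s1 t - ζ ≠ 0 := fun t => sig_sub_ne (hζ t)
  have hi : Continuous (fun t => (sig s s1 t - ζ)⁻¹) := (hc.sig_cont.sub continuous_const).inv₀ hne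
  have hw : Continuous (fun t => h t * sigD R t) := hh'.mul hc.dsig_cont
  have hT : Continuous (fun t => (h t * sigD R t) • Res A (sig s s1 t)) := hw.smul hR
  have hF : Continuous (fun t => (sig s s1 t - ζ)⁻¹ • ((h t * sigD R t) • Res A (sig s s1 t))) := hi.smul hT
  have hC : Continuous (fun t => (sig s s1 t - ζ)⁻¹ * (h t * sigD R t)) := hi.mul hw
  have h2pi : (0 : ℝ) ≤ 2 * π := Real.two_pi_pos.le
  have e1 := (ContinuousLinearMap.mul ℂ (H →L[ℂ] H) (ζ • (1 : H →L[ℂ] H) - A)).intervalIntegral_comp_comm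
    (hF.intervalIntegrable (μ := volume) 0 (2 * π))
  have e2 := (ContinuousLinearMap.smulRight (1 : ℂ →L[ℂ] ℂ) (1 : H →L[ℂ] H)).intervalIntegral_comp_comm
    (hC.intervalIntegrable (μ := volume) 0 (2 * π))
  have e3 : ∀ t, (ContinuousLinearMap.mul ℂ (H →L[ℂ] H) (ζ • (1 : H →L[ℂ] H) - A))
      ((sig s s1 t - ζ)⁻¹ • ((h t * sigD R t) • Res A (sig s s1 t))) =
      (ContinuousLinearMap.smulRight (1 : ℂ →L[ℂ] ℂ) (1 : H →L[ℂ] H)) ((sig s s1 t - ζ)⁻¹ * (h t * sigD R t))
        - (h t * sigD R t) • Res A (sig s s1 t) := by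
    intro t
    have hO := ins_mul_res' hA (sig_mem_Out (s := s) (s1 := s1) hA.1 t)
    simp only [ContinuousLinearMap.mul_apply', ContinuousLinearMap.smulRight_apply,
      one_apply_eq_self]
    have e4 : (ζ • (1 : H →L[ℂ] H) - A) = (sig s s1 t • (1 : H →L[ℂ] H) - A)
        + (ζ - sig s s1 t) • (1 : H →L[ℂ] H) := by
      rw [sub_smul]; abel
    rw [mul_smul_comm, mul_smul_comm, e4, add_mul, hO, smul_mul_assoc, one_mul]
    rw [smul_add, smul_add, smul_smul, smul_smul, smul_smul]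
    have e5 : (sig s s1 t - ζ)⁻¹ * (h t * sigD R t) * (ζ - sig s s1 t) = - (h t * sigD R t) := by
      have := hne t
      field_simp
      ring
    rw [e5, neg_smul, ← sub_eq_add_neg]
  simp only [e3] at e1
  have hcr : Continuous (fun t => (ContinuousLinearMap.smulRight (1 : ℂ →L[ℂ] ℂ) (1 : H →L[ℂ] H))
      ((sig s s1 t - ζ)⁻¹ * (h t * sigD R t))) := (ContinuousLinearMap.continuous _).comp hC
  rw [intervalIntegral.integral_sub (hcr.intervalIntegrable _ _) (hT.intervalIntegrable _ _), e2] at e1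
  unfold Psi Cc T
  rw [mul_smul_comm]
  have e6 := e1.symm
  simp only [ContinuousLinearMap.mul_apply', ContinuousLinearMap.smulRight_apply,
    one_apply_eq_self] at e6
  rw [e6, smul_sub, smul_smul]


/-- `conj (e (arg z)) * z` is the modulus of `z`. -/
theorem conj_e_arg (z : ℂ) : conj (e (arg z)) * z = (‖z‖ : ℂ) := by
  have h1 : (‖z‖ : ℂ) * e (arg z) = z := by
    unfold e
    exact Complex.norm_mul_exp_arg_mul_I z
  calc conj (e (arg z)) * z = conj (e (arg z)) * ((‖z‖ : ℂ) * e (arg z)) := by rw [h1]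
    _ = (‖z‖ : ℂ) * (conj (e (arg z)) * e (arg z)) := by ring
    _ = (‖z‖ : ℂ) := by rw [conj_e_mul_e, mul_one]

/-- If the Cauchy transform of `h` is a constant inside the curve, then `T h` is that constant. -/
theorem ins_T_eq_of_Cc_const (hA : Inside s A η) (hc : IsCrv s s1 R) {h : ℝ → ℂ} (hh' : Continuous h)
    {κ : ℂ} (hC : ∀ ζ ∈ In s, Cc s s1 R h ζ = κ) : T s s1 R A h = κ • (1 : H →L[ℂ] H) := by
  set Y : H →L[ℂ] H := T s s1 R A h with hY
  set W : H →L[ℂ] H := κ • (1 : H →L[ℂ] H) - Y with hW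
  have hη := hA.1
  have hPsi : ∀ ζ ∈ In s, (ζ • (1 : H →L[ℂ] H) - A) * Psi s s1 R A h ζ = W := by
    intro ζ hζ
    rw [ins_Psi_id hA hc hh' hζ, hC ζ hζ]
  have hagree : ∀ ζ ∈ In s, ζ ∈ Out s η → Psi s s1 R A h ζ = Res A ζ * W := by
    intro ζ hζ hO
    rw [← hPsi ζ hζ, ← mul_assoc, ins_res_mul' hA hO, one_mul]
  classical
  set Φ : ℂ → H →L[ℂ] H := fun ζ => if ζ ∈ In s then Psi s s1 R A h ζ else Res A ζ * W with hΦ
  have hOut : ∀ ζ ∈ Out s η, Φ ζ = Res A ζ * W := by
    intro ζ hO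
    simp only [hΦ]
    split_ifs with h'
    · exact hagree ζ h' hO
    · rfl
  have hPd : DifferentiableOn ℂ (Psi s s1 R A h) (In s) := by
    have hcont : Continuous (fun t => (h t * sigD R t) • Res A (sig s s1 t)) :=
      (hh'.mul hc.dsig_cont).smul (ins_res_sig_cont hA hc)
    exact (cauchy_diff hc hcont).const_smul (2 * (π : ℂ) * I)⁻¹
  have hdiff : Differentiable ℂ Φ := by
    intro ζ
    by_cases hζ : ζ ∈ In s
    · have h1 := (hPd ζ hζ).differentiableAt ((isOpen_In hc).mem_nhds hζ)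
      apply h1.congr_of_eventuallyEq
      filter_upwards [(isOpen_In hc).mem_nhds hζ] with z hz
      simp only [hΦ, if_pos hz]
    · have hO := mem_Out_of_not_In hη hζ
      have h1 : DifferentiableAt ℂ (fun z => Res A z * W) ζ := (ins_res_diff hA hO).mul_const _
      apply h1.congr_of_eventuallyEq
      filter_upwards [(isOpen_Out hc η).mem_nhds hO] with z hz
      exact hOut z hz
  obtain ⟨S, hS⟩ := IsCrv.bdd_of_per hc.s_cont hc.hper
  have hlim : Tendsto Φ (cocompact ℂ) (𝓝 0) := by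
    rw [tendsto_zero_iff_norm_tendsto_zero]
    set C := ‖W‖ with hCdef
    have hg : Tendsto (fun ζ : ℂ => C / (η - S + ‖ζ‖)) (cocompact ℂ) (𝓝 0) := by
      apply Tendsto.const_div_atTop
      exact tendsto_atTop_add_const_left _ _ tendsto_norm_cocompact_atTop
    apply squeeze_zero' (Eventually.of_forall fun _ => norm_nonneg _) _ hg
    have hlarge : ∀ᶠ ζ : ℂ in cocompact ℂ, S + 1 < ‖ζ‖ :=
      tendsto_norm_cocompact_atTop.eventually_gt_atTop _
    filter_upwards [hlarge] with ζ hζ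
    have hh1 : hh s (arg ζ) ζ = s (arg ζ) - ‖ζ‖ := by
      unfold hh
      rw [conj_e_arg]
      simp
    have hs1 := (abs_le.1 (hS (arg ζ))).2
    have hg0 : 0 < η - hh s (arg ζ) ζ := by rw [hh1]; linarith
    have hO : ζ ∈ Out s η := ⟨arg ζ, by rw [hh1]; linarith⟩
    rw [hOut ζ hO]
    have hg1 : 0 < η - S + ‖ζ‖ := by linarith
    calc ‖Res A ζ * W‖ ≤ ‖Res A ζ‖ * C := norm_mul_le _ _
      _ ≤ (1 / (η - hh s (arg ζ) ζ)) * C := by
          apply mul_le_mul_of_nonneg_right (ins_res_norm hA _ hg0) (norm_nonneg _)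
      _ ≤ (1 / (η - S + ‖ζ‖)) * C := by
          apply mul_le_mul_of_nonneg_right _ (norm_nonneg _)
          apply one_div_le_one_div_of_le hg1
          rw [hh1]
          linarith
      _ = C / (η - S + ‖ζ‖) := by ring
  have hzero := fun z => hdiff.apply_eq_of_tendsto_cocompact z hlim
  have hv : sig s s1 0 ∈ Out s η := sig_mem_Out hη 0
  have h1 := hzero (sig s s1 0)
  rw [hOut _ hv] at h1
  have h2 : W = 0 := by
    have := congrArg (fun T => ((sig s s1 0) • (1 : H →L[ℂ] H) - A) * T) h1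
    simp only [mul_zero, ← mul_assoc, ins_mul_res' hA hv, one_mul] at this
    exact this
  exact (sub_eq_zero.1 h2).symm

/-- The winding number is one inside. -/
theorem winding_in (hc : IsCrv s s1 R) {z : ℂ} (hz : z ∈ In s) :
    ∫ t in (0 : ℝ)..(2 * π), (sig s s1 t - z)⁻¹ * sigD R t = 2 * (π : ℂ) * I := by
  set g : ℝ → ℂ := fun t => conj (e t) * (sig s s1 t - z) with hg
  have hgeq : ∀ t, g t = ((hh s t z : ℝ) : ℂ) + ((hh1 s1 t z : ℝ) : ℂ) * I := fun t => conj_e_mul_sub_sig t z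
  have hgre : ∀ t, 0 < (g t).re := by
    intro t
    rw [hgeq]
    simpa using hz t
  have hgs : ∀ t, g t ∈ Complex.slitPlane := fun t => Or.inl (hgre t)
  have hgne : ∀ t, g t ≠ 0 := fun t => Complex.slitPlane_ne_zero (hgs t)
  have hder1 : ∀ t, HasDerivAt (fun t => ((hh s t z : ℝ) : ℂ)) ((hh1 s1 t z : ℝ) : ℂ) t :=
    fun t => (hasDerivAt_hh hc.hs z t).ofReal_comp
  have hder2 : ∀ t, HasDerivAt (fun t => ((hh1 s1 t z : ℝ) : ℂ)) ((R t - hh s t z : ℝ) : ℂ) t :=
    fun t => (hasDerivAt_hh1 hc.hs1 z t).ofReal_comp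
  set g' : ℝ → ℂ := fun t => ((hh1 s1 t z : ℝ) : ℂ) + ((R t - hh s t z : ℝ) : ℂ) * I with hg'
  have hgd : ∀ t, HasDerivAt g (g' t) t := by
    intro t
    have h3 := (hder1 t).add ((hder2 t).mul_const I)
    have e3 : g = fun t => ((hh s t z : ℝ) : ℂ) + ((hh1 s1 t z : ℝ) : ℂ) * I := funext hgeq
    rw [e3]
    exact h3
  have hhc : Continuous (fun t => hh s t z) :=
    continuous_iff_continuousAt.2 fun t => (hasDerivAt_hh hc.hs z t).continuousAt
  have hh1c : Continuous (fun t => hh1 s1 t z) :=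
    continuous_iff_continuousAt.2 fun t => (hasDerivAt_hh1 hc.hs1 z t).continuousAt
  have hg'c : Continuous g' := by
    have := hc.hRc
    simp only [hg']
    fun_prop
  have hgc : Continuous g := continuous_iff_continuousAt.2 fun t => (hgd t).continuousAt
  have hlog : ∀ t, HasDerivAt (fun t => Complex.log (g t)) (g' t / g t) t :=
    fun t => (hgd t).clog_real (hgs t)
  have hquot : Continuous (fun t => g' t / g t) := hg'c.div hgc hgne
  have hper : g (2 * π) = g 0 := by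
    rw [hgeq, hgeq]
    have h1 := hh_periodic hc.hper 0 z
    have h2 := hh1_periodic hc.hper1 0 z
    rw [zero_add] at h1 h2
    rw [h1, h2]
  have hint : ∫ t in (0 : ℝ)..(2 * π), g' t / g t = 0 := by
    rw [intervalIntegral.integral_eq_sub_of_hasDerivAt (fun t _ => hlog t)
      (hquot.intervalIntegrable _ _), hper, sub_self]
  have hid : ∀ t, (sig s s1 t - z)⁻¹ * sigD R t = I + g' t / g t := by
    intro t
    have hne := hgne t
    have e1 : sig s s1 t - z = e t * g t := by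
      rw [hgeq]
      exact sig_sub_eq t z
    have hen := e_ne_zero t
    rw [e1]
    unfold sigD
    simp only [hg']
    rw [hgeq] at hne ⊢
    have hI : I * I = -1 := Complex.I_mul_I
    push_cast
    field_simp
    push_cast at hne
    linear_combination (-(hh1 s1 t z : ℂ)) * hI
  simp only [hid]
  rw [intervalIntegral.integral_add (continuous_const.intervalIntegrable _ _)
    (hquot.intervalIntegrable _ _), hint, add_zero, intervalIntegral.integral_const]
  simp

/-- The Cauchy transform of one is one inside. -/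
theorem Cc_one (hc : IsCrv s s1 R) {z : ℂ} (hz : z ∈ In s) : Cc s s1 R (fun _ => 1) z = 1 := by
  unfold Cc
  simp only [one_mul]
  rw [winding_in hc hz]
  exact inv_mul_cancel₀ two_pi_I_ne

/-- The contour integral of the resolvent is the identity. -/
theorem ins_T_one (hA : Inside s A η) (hc : IsCrv s s1 R) :
    T s s1 R A (fun _ => 1) = (1 : H →L[ℂ] H) := by
  have := ins_T_eq_of_Cc_const hA (h := fun _ => 1) hc continuous_const (κ := 1) (fun ζ hζ => Cc_one hc hζ)
  rwa [one_smul] at this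

/-! ### Linearity, bounds, commutation -/

theorem T_add {h k : ℝ → ℂ} (hA : Inside s A η) (hc : IsCrv s s1 R) (hh' : Continuous h) (hk : Continuous k) :
    T s s1 R A (fun t => h t + k t) = T s s1 R A h + T s s1 R A k := by
  have hR := ins_res_sig_cont hA hc
  have e := intervalIntegral.integral_add (μ := volume) (a := 0) (b := 2 * π)
    (f := fun t => (h t * sigD R t) • Res A (sig s s1 t))
    (g := fun t => (k t * sigD R t) • Res A (sig s s1 t))
    (((hh'.mul hc.dsig_cont).smul hR).intervalIntegrable _ _)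
    (((hk.mul hc.dsig_cont).smul hR).intervalIntegrable _ _)
  unfold T
  rw [← smul_add, ← e]
  congr 2
  ext1 t
  rw [add_mul, add_smul]

theorem T_const_mul (c : ℂ) (h : ℝ → ℂ) : T s s1 R A (fun t => c * h t) = c • T s s1 R A h := by
  unfold T
  have e : ∀ t, ((c * h t) * sigD R t) • Res A (sig s s1 t) = c • ((h t * sigD R t) • Res A (sig s s1 t)) := by
    intro t; rw [smul_smul, mul_assoc]
  simp only [e]
  rw [intervalIntegral.integral_smul, smul_comm]

theorem T_sub {h k : ℝ → ℂ} (hA : Inside s A η) (hc : IsCrv s s1 R) (hh' : Continuous h) (hk : Continuous k) :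
    T s s1 R A (fun t => h t - k t) = T s s1 R A h - T s s1 R A k := by
  have h1 := T_add (k := fun t => (-1 : ℂ) * k t) hA hc hh' (continuous_const.mul hk)
  rw [T_const_mul] at h1
  have e1 : (fun t => h t + (-1 : ℂ) * k t) = fun t => h t - k t := by
    ext1 t; ring
  rw [e1] at h1
  rw [h1]
  simp [sub_eq_add_neg]

/-- `T` is bounded for the sup norm. -/
theorem exists_T_bound (hA : Inside s A η) (hc : IsCrv s s1 R) :
    ∃ K : ℝ, 0 ≤ K ∧ ∀ h : ℝ → ℂ, Continuous h → ∀ C : ℝ, (∀ t, ‖h t‖ ≤ C) → ‖T s s1 R A h‖ ≤ K * C := by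
  obtain ⟨Rm, hRm⟩ := IsCrv.bdd_of_per (f := fun t => ‖sigD R t‖) hc.dsig_cont.norm
    (fun t => by simp only [hc.dsig_per])
  have hRm' : ∀ t, ‖sigD R t‖ ≤ Rm := fun t => (le_abs_self _).trans (hRm t)
  have hRm0 : 0 ≤ Rm := (norm_nonneg _).trans (hRm' 0)
  have hη := hA.1
  refine ⟨Rm * (2 / η), by positivity, ?_⟩
  intro h hh' C hC
  have hC0 : 0 ≤ C := (norm_nonneg _).trans (hC 0)
  unfold T
  rw [norm_smul]
  have h1 : ∀ t ∈ Ι (0 : ℝ) (2 * π), ‖(h t * sigD R t) • Res A (sig s s1 t)‖ ≤ C * Rm * (2 / η) := by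
    intro t _
    rw [norm_smul, norm_mul]
    have h2 := ins_res_norm' hA (sig_mem_Out (s := s) (s1 := s1) hη t)
    exact mul_le_mul (mul_le_mul (hC t) (hRm' t) (norm_nonneg _) hC0) h2 (norm_nonneg _) (by positivity)
  have h3 := intervalIntegral.norm_integral_le_of_norm_le_const h1
  rw [sub_zero, abs_of_pos Real.two_pi_pos] at h3
  have h4 : ‖(2 * (π : ℂ) * I)⁻¹‖ = (2 * π)⁻¹ := by
    rw [norm_inv, norm_mul, norm_mul, Complex.norm_I, Complex.norm_real, Real.norm_eq_abs,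
      abs_of_pos Real.pi_pos]
    simp
  rw [h4]
  have hpi := Real.pi_pos
  calc (2 * π)⁻¹ * ‖∫ t in (0 : ℝ)..(2 * π), (h t * sigD R t) • Res A (sig s s1 t)‖
      ≤ (2 * π)⁻¹ * (C * Rm * (2 / η) * (2 * π)) := by
        apply mul_le_mul_of_nonneg_left h3 (by positivity)
    _ = Rm * (2 / η) * C := by field_simp

theorem ins_res_comm (hA : Inside s A η) {ζ : ℂ} (h : ζ ∈ Out s η) : A * Res A ζ = Res A ζ * A := by
  have h1 := ins_mul_res' hA h
  have h2 := ins_res_mul' hA h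
  rw [sub_mul, smul_mul_assoc, one_mul] at h1
  rw [mul_sub, mul_smul_comm, mul_one] at h2
  have h3 : ζ • Res A ζ - A * Res A ζ = ζ • Res A ζ - Res A ζ * A := h1.trans h2.symm
  exact sub_right_injective h3

/-- `T[h]` commutes with `A`. -/
theorem T_comm (hA : Inside s A η) (hc : IsCrv s s1 R) {h : ℝ → ℂ} (hh' : Continuous h) :
    A * T s s1 R A h = T s s1 R A h * A := by
  have hR := ins_res_sig_cont hA hc
  have hF : Continuous (fun t => (h t * sigD R t) • Res A (sig s s1 t)) :=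
    (hh'.mul hc.dsig_cont).smul hR
  have e1 := (ContinuousLinearMap.mul ℂ (H →L[ℂ] H) A).intervalIntegral_comp_comm
    (hF.intervalIntegrable (μ := volume) 0 (2 * π))
  have e2 := ((ContinuousLinearMap.mul ℂ (H →L[ℂ] H)).flip A).intervalIntegral_comp_comm
    (hF.intervalIntegrable (μ := volume) 0 (2 * π))
  simp only [ContinuousLinearMap.mul_apply', ContinuousLinearMap.flip_apply] at e1 e2
  unfold T
  rw [mul_smul_comm, smul_mul_assoc, ← e1, ← e2]
  congr 2
  ext1 t
  rw [mul_smul_comm, smul_mul_assoc, ins_res_comm hA (sig_mem_Out hA.1 t)]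

/-- `T[h]` commutes with polynomials in `A`. -/
theorem T_comm_aeval (hA : Inside s A η) (hc : IsCrv s s1 R) {h : ℝ → ℂ} (hh' : Continuous h)
    (p : Polynomial ℂ) : Polynomial.aeval A p * T s s1 R A h = T s s1 R A h * Polynomial.aeval A p := by
  have hcomm : Commute A (T s s1 R A h) := T_comm hA hc hh'
  induction p using Polynomial.induction_on' with
  | add p q hp hq =>
    rw [map_add, add_mul, mul_add, hp, hq]
  | monomial n a =>
    rw [Polynomial.aeval_monomial]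
    have h1 : Commute (A ^ n) (T s s1 R A h) := hcomm.pow_left n
    have h2 : Commute (algebraMap ℂ (H →L[ℂ] H) a) (T s s1 R A h) := Algebra.commute_algebraMap_left a _
    exact (h2.mul_left h1).eq

/-! ### Moments -/

theorem ins_sig_smul_res (hA : Inside s A η) (t : ℝ) :
    sig s s1 t • Res A (sig s s1 t) = 1 + A * Res A (sig s s1 t) := by
  have h1 := ins_mul_res' hA (sig_mem_Out (s := s) (s1 := s1) hA.1 t)
  rw [sub_mul, smul_mul_assoc, one_mul] at h1
  rw [← h1]
  abel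

/-- Multiplication by the curve. -/
theorem T_sig_mul (hA : Inside s A η) (hc : IsCrv s s1 R) {h : ℝ → ℂ} (hh' : Continuous h) :
    T s s1 R A (fun t => sig s s1 t * h t) =
      ((2 * (π : ℂ) * I)⁻¹ * ∫ t in (0 : ℝ)..(2 * π), h t * sigD R t) • (1 : H →L[ℂ] H) +
        A * T s s1 R A h := by
  have hR := ins_res_sig_cont hA hc
  have hw : Continuous (fun t => h t * sigD R t) := hh'.mul hc.dsig_cont
  have hF : Continuous (fun t => (h t * sigD R t) • Res A (sig s s1 t)) := hw.smul hR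
  have e1 := (ContinuousLinearMap.mul ℂ (H →L[ℂ] H) A).intervalIntegral_comp_comm
    (hF.intervalIntegrable (μ := volume) 0 (2 * π))
  have e2 := (ContinuousLinearMap.smulRight (1 : ℂ →L[ℂ] ℂ) (1 : H →L[ℂ] H)).intervalIntegral_comp_comm
    (hw.intervalIntegrable (μ := volume) 0 (2 * π))
  simp only [ContinuousLinearMap.mul_apply', ContinuousLinearMap.smulRight_apply,
    one_apply_eq_self] at e1 e2
  have e3 : ∀ t, (sig s s1 t * h t * sigD R t) • Res A (sig s s1 t) =
      (h t * sigD R t) • (1 : H →L[ℂ] H) + A * ((h t * sigD R t) • Res A (sig s s1 t)) := by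
    intro t
    rw [mul_smul_comm, ← smul_add, ← ins_sig_smul_res hA t, smul_smul]
    congr 1
    ring
  have e4 := intervalIntegral.integral_add (μ := volume) (a := 0) (b := 2 * π)
    (f := fun t => (h t * sigD R t) • (1 : H →L[ℂ] H))
    (g := fun t => A * ((h t * sigD R t) • Res A (sig s s1 t)))
    ((hw.smul continuous_const).intervalIntegrable _ _)
    ((continuous_const.mul hF).intervalIntegrable _ _)
  unfold T
  simp only [e3]
  rw [e4, e1, e2, smul_add, mul_smul_comm, smul_smul]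

/-- If all moments of `β` vanish then `T[sig ^ k β] = A ^ k T[β]`. -/
theorem T_pow_mul (hA : Inside s A η) (hc : IsCrv s s1 R) {β : ℝ → ℂ} (hβ : Continuous β)
    (hm : ∀ j : ℕ, ∫ t in (0 : ℝ)..(2 * π), (sig s s1 t) ^ j * β t * sigD R t = 0) (k : ℕ) :
    T s s1 R A (fun t => (sig s s1 t) ^ k * β t) = A ^ k * T s s1 R A β := by
  induction k with
  | zero => simp
  | succ k ih =>
    have hc1 : Continuous (fun t => (sig s s1 t) ^ k * β t) := (hc.sig_cont.pow k).mul hβ
    have h1 := T_sig_mul hA hc hc1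
    have e1 : (fun t => sig s s1 t * ((sig s s1 t) ^ k * β t)) = fun t => (sig s s1 t) ^ (k + 1) * β t := by
      ext1 t; ring
    rw [e1, hm k, mul_zero, zero_smul, zero_add, ih] at h1
    rw [h1, pow_succ', mul_assoc]

/-- If all moments of `β` vanish then `T[p(sig) β] = p(A) T[β]`. -/
theorem T_poly_mul (hA : Inside s A η) (hc : IsCrv s s1 R) {β : ℝ → ℂ} (hβ : Continuous β)
    (hm : ∀ j : ℕ, ∫ t in (0 : ℝ)..(2 * π), (sig s s1 t) ^ j * β t * sigD R t = 0) (p : Polynomial ℂ) :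
    T s s1 R A (fun t => p.eval (sig s s1 t) * β t) = Polynomial.aeval A p * T s s1 R A β := by
  induction p using Polynomial.induction_on' with
  | add p q hp hq =>
    have hcp : Continuous (fun t => p.eval (sig s s1 t) * β t) :=
      (p.continuous.comp hc.sig_cont).mul hβ
    have hcq : Continuous (fun t => q.eval (sig s s1 t) * β t) :=
      (q.continuous.comp hc.sig_cont).mul hβ
    have e1 : (fun t => (p + q).eval (sig s s1 t) * β t) =
        fun t => p.eval (sig s s1 t) * β t + q.eval (sig s s1 t) * β t := by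
      ext1 t
      rw [Polynomial.eval_add, add_mul]
    rw [e1, T_add hA hc hcp hcq, hp, hq, map_add, add_mul]
  | monomial n a =>
    have e1 : (fun t => (Polynomial.monomial n a).eval (sig s s1 t) * β t) =
        fun t => a * ((sig s s1 t) ^ n * β t) := by
      ext1 t
      rw [Polynomial.eval_monomial, mul_assoc]
    rw [e1, T_const_mul, T_pow_mul hA hc hβ hm, Polynomial.aeval_monomial, Algebra.algebraMap_eq_smul_one,
      smul_mul_assoc, one_mul, smul_mul_assoc]

end Resolvent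

section Formula

/-- Cauchy's formula along the curve. -/
theorem Cc_of_analytic (hc : IsCrv s s1 R) {g : ℂ → ℂ} {U : Set ℂ} (hU : IsOpen U)
    (hg : DifferentiableOn ℂ g U) (hr : ∀ ρ ∈ Icc (0 : ℝ) 1, ∀ t, (ρ : ℂ) * sig s s1 t ∈ U) {z : ℂ}
    (hz : z ∈ In s) (hzU : z ∈ U) : Cc s s1 R (fun t => g (sig s s1 t)) z = g z := by
  have hd : DifferentiableOn ℂ (dslope g z) U := (Complex.differentiableOn_dslope (hU.mem_nhds hzU)).2 hg
  have h1 := curve_cauchy_in hc hU hd hr
  have hne : ∀ t, sig s s1 t - z ≠ 0 := fun t => sig_sub_ne (hz t)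
  have hi : Continuous (fun t => (sig s s1 t - z)⁻¹) := (hc.sig_cont.sub continuous_const).inv₀ hne
  have e1 : ∀ t, (sig s s1 t - z)⁻¹ * (g (sig s s1 t) * sigD R t) =
      g z * ((sig s s1 t - z)⁻¹ * sigD R t) + sigD R t • dslope g z (sig s s1 t) := by
    intro t
    have h2 := sub_smul_dslope g z (sig s s1 t)
    rw [smul_eq_mul] at h2
    have h3 : g (sig s s1 t) = g z + (sig s s1 t - z) * dslope g z (sig s s1 t) := by
      rw [h2]; ring
    rw [h3, smul_eq_mul]
    have := hne t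
    field_simp
  have hdc : Continuous (fun t => dslope g z (sig s s1 t)) :=
    hd.continuousOn.comp_continuous hc.sig_cont (fun t => by
      have := hr 1 (by constructor <;> norm_num) t
      simpa using this)
  have e4 := intervalIntegral.integral_add (μ := volume) (a := 0) (b := 2 * π)
    (f := fun t => g z * ((sig s s1 t - z)⁻¹ * sigD R t))
    (g := fun t => sigD R t • dslope g z (sig s s1 t))
    ((continuous_const.mul (hi.mul hc.dsig_cont)).intervalIntegrable _ _)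
    ((hc.dsig_cont.smul hdc).intervalIntegrable _ _)
  unfold Cc
  simp only [e1]
  rw [e4, h1, add_zero, intervalIntegral.integral_const_mul, winding_in hc hz]
  have := two_pi_I_ne
  field_simp

end Formula

end Vale.Agent.Lib.P123C.Calc
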