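import Vale.Agent.Lib.P123C.Limits
import Vale.Agent.Lib.P123C.Calc

/-!
# A1 and A2 in terms of the `Geom` curve and the Cauchy transform `Calc.Cc`
-/

open Complex ComplexConjugate MeasureTheory intervalIntegral

noncomputable section

namespace Vale.Agent.Lib.P123C.LimitsGeom

open Vale.Agent.Lib.P123C.Geom

variable {s s1 R : ℝ → ℝ}

/-- Standing hypotheses on the curve. -/
structure CurveBd (s s1 R : ℝ → ℝ) (rmin rmax smin : ℝ) : Prop where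
  crv : Calc.IsCrv s s1 R
  rmin_pos : 0 < rmin
  smin_pos : 0 < smin
  R_ge : ∀ t, rmin ≤ R t
  R_le : ∀ t, R t ≤ rmax
  s_ge : ∀ t, smin ≤ s t

variable {rmin rmax smin : ℝ}

theorem exists_sig_bound (H : CurveBd s s1 R rmin rmax smin) : ∃ D, ∀ t, ‖sig s s1 t‖ ≤ D := by
  have hper : Function.Periodic (sig s s1) (2 * Real.pi) := fun t => H.crv.sig_per t
  have h2pi : (2 * Real.pi) ≠ 0 := by positivity
  obtain ⟨D, hD⟩ := (hper.isBounded_of_continuous h2pi H.crv.sig_cont).exists_norm_le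
  exact ⟨D, fun t => hD _ (Set.mem_range_self t)⟩

/-- The bundled `Setup` of a curve. -/
def mkSetup (H : CurveBd s s1 R rmin rmax smin) : Limits.Setup where
  sig := sig s s1
  e := e
  s := s
  R := R
  sig_cont := H.crv.sig_cont
  e_cont := Calc.e_cont
  s_cont := H.crv.s_cont
  R_cont := H.crv.hRc
  e_norm := norm_e
  re_sig := fun t => by
    have h1 := hh_self (s := s) (s1 := s1) t
    unfold hh at h1
    linarith
  rmin := rmin
  rmax := rmax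
  smin := smin
  D := (exists_sig_bound H).choose
  rmin_pos := H.rmin_pos
  smin_pos := H.smin_pos
  R_ge := H.R_ge
  R_le := H.R_le
  s_ge := H.s_ge
  sig_le := (exists_sig_bound H).choose_spec
  hh_ge := fun t t₀ =>
    (hh_sig_bounds H.crv.hs H.crv.hs1 H.crv.hper H.R_ge H.R_le t t₀).1
  hh_le := fun t t₀ =>
    (hh_sig_bounds H.crv.hs H.crv.hs1 H.crv.hper H.R_ge H.R_le t t₀).2
  chord_ge := fun t t₀ =>
    chord_lower H.crv.hs H.crv.hs1 H.crv.hper H.crv.hper1 H.rmin_pos.le H.R_ge t t₀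
  winding_in := fun z hz =>
    wind_inside H.crv.hs H.crv.hs1 H.crv.hper H.crv.hper1 H.crv.hRc hz
  winding_out := fun z ⟨_, ht⟩ =>
    wind_outside H.crv.hs H.crv.hs1 H.crv.hper H.crv.hper1 H.crv.hRc H.R_ge H.rmin_pos.le H.R_le ht
  mass := fun t₀ => by
    have h1 := mass_one H.crv.hs H.crv.hs1 H.crv.hper H.crv.hper1 H.crv.hRper H.crv.hRc H.rmin_pos
      H.R_ge H.R_le t₀
    refine Eq.trans (intervalIntegral.integral_congr (fun t _ => ?_)) h1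
    simp only [Pk, hh]
    ring

variable (H : CurveBd s s1 R rmin rmax smin)

include H

theorem Cc_eq (h : ℝ → ℂ) (z : ℂ) : (mkSetup H).Cc h z = Calc.Cc s s1 R h z := by
  unfold Limits.Setup.Cc Calc.Cc Limits.Setup.dsig Oper.sigD
  congr 1
  · simp
  · refine intervalIntegral.integral_congr (fun t _ => ?_)
    simp only [mkSetup]
    rw [div_eq_mul_inv]
    ring

theorem Pk_eq (z : ℂ) (t : ℝ) : (mkSetup H).Pk z t = Pk s s1 R z t := by
  simp only [Limits.Setup.Pk, Pk, Limits.Setup.hh, hh, mkSetup]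
  ring

/-- **A1**: jump of the Cauchy transform across the curve along rays, uniform in the base point. -/
theorem jump_cauchy {h : ℝ → ℂ} (hc : Continuous h) (hp : ∀ t, h (t + 2 * Real.pi) = h t)
    {ε : ℝ} (hε : 0 < ε) :
    ∃ q₀ : ℝ, 1 / 2 ≤ q₀ ∧ q₀ < 1 ∧ ∀ q : ℝ, q₀ < q → q < 1 → ∀ t₀ : ℝ,
      ‖Calc.Cc s s1 R h ((q : ℂ) * sig s s1 t₀) - Calc.Cc s s1 R h (sig s s1 t₀ / (q : ℂ)) - h t₀‖
        ≤ ε := by
  obtain ⟨q₀, h1, h2, h3⟩ := (mkSetup H).jump_cauchy hc hp hε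
  refine ⟨q₀, h1, h2, fun q hq hq1 t₀ => ?_⟩
  have := h3 q hq hq1 t₀
  rwa [Cc_eq, Cc_eq] at this

/-- **A2**: boundary values of the double layer potential, uniform in the base point. -/
theorem jump_double_layer {h : ℝ → ℂ} (hc : Continuous h) (hp : ∀ t, h (t + 2 * Real.pi) = h t)
    {ε : ℝ} (hε : 0 < ε) :
    ∃ q₀ : ℝ, 0 ≤ q₀ ∧ q₀ < 1 ∧ ∀ q : ℝ, q₀ < q → q < 1 → ∀ t₀ : ℝ,
      ‖(∫ t in (0 : ℝ)..(2 * Real.pi), (Pk s s1 R ((q : ℂ) * sig s s1 t₀) t : ℂ) * h t)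
        - h t₀ - ∫ t in (0 : ℝ)..(2 * Real.pi), (Pk s s1 R (sig s s1 t₀) t : ℂ) * h t‖ ≤ ε := by
  obtain ⟨q₀, h1, h2, h3⟩ := (mkSetup H).jump_double_layer hc hp hε
  refine ⟨q₀, h1, h2, fun q hq hq1 t₀ => ?_⟩
  have := h3 q hq hq1 t₀
  simp only [Limits.Setup.Nn, Pk_eq H] at this
  exact this

/-- The two Cauchy transforms of `h` and its conjugate add up to the double layer potential. -/
theorem Cc_add_conj {h : ℝ → ℂ} (hc : Continuous h) {z : ℂ} (hz : ∀ t, sig s s1 t - z ≠ 0) :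
    Calc.Cc s s1 R h z + conj (Calc.Cc s s1 R (fun t => conj (h t)) z)
      = ∫ t in (0 : ℝ)..(2 * Real.pi), (Pk s s1 R z t : ℂ) * h t := by
  have := (mkSetup H).Cc_add_conj hc (z := z) hz
  simp only [Cc_eq H, Pk_eq H] at this
  exact this

/-- A1 in terms of radii `r > 1`. -/
theorem jump_cauchy' {h : ℝ → ℂ} (hc : Continuous h) (hp : ∀ t, h (t + 2 * Real.pi) = h t)
    {ε : ℝ} (hε : 0 < ε) :
    ∃ r₀ : ℝ, 1 < r₀ ∧ ∀ r : ℝ, 1 < r → r < r₀ → ∀ t₀ : ℝ,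
      ‖Calc.Cc s s1 R h (sig s s1 t₀ / (r : ℂ)) - Calc.Cc s s1 R h ((r : ℂ) * sig s s1 t₀) - h t₀‖
        ≤ ε := by
  obtain ⟨q₀, h1, h2, h3⟩ := jump_cauchy H hc hp hε
  have hq₀ : 0 < q₀ := by linarith
  refine ⟨1 / q₀, by rw [lt_div_iff₀ hq₀]; linarith, fun r hr hr₀ t₀ => ?_⟩
  have hr0 : 0 < r := by linarith
  have hq : q₀ < 1 / r := by
    rw [lt_div_iff₀ hr0]
    rw [lt_div_iff₀ hq₀] at hr₀
    linarith
  have hq1 : 1 / r < 1 := by
    rw [div_lt_iff₀ hr0]; linarith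
  have := h3 (1 / r) hq hq1 t₀
  have hrc : (r : ℂ) ≠ 0 := by exact_mod_cast hr0.ne'
  have e1 : ((1 / r : ℝ) : ℂ) * sig s s1 t₀ = sig s s1 t₀ / (r : ℂ) := by
    push_cast; field_simp
  have e2 : sig s s1 t₀ / ((1 / r : ℝ) : ℂ) = (r : ℂ) * sig s s1 t₀ := by
    push_cast; field_simp
  rwa [e1, e2] at this

/-- A2 in terms of radii `r > 1`. -/
theorem jump_double_layer' {h : ℝ → ℂ} (hc : Continuous h) (hp : ∀ t, h (t + 2 * Real.pi) = h t)
    {ε : ℝ} (hε : 0 < ε) :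
    ∃ r₀ : ℝ, 1 < r₀ ∧ ∀ r : ℝ, 1 < r → r < r₀ → ∀ t₀ : ℝ,
      ‖Calc.Cc s s1 R h (sig s s1 t₀ / (r : ℂ))
        + conj (Calc.Cc s s1 R (fun t => conj (h t)) (sig s s1 t₀ / (r : ℂ)))
        - h t₀ - ∫ t in (0 : ℝ)..(2 * Real.pi), (Pk s s1 R (sig s s1 t₀) t : ℂ) * h t‖ ≤ ε := by
  obtain ⟨q₀, h1, h2, h3⟩ := jump_double_layer H hc hp hε
  set q₁ := max q₀ (1 / 2) with hq₁
  have hq₁pos : 0 < q₁ := lt_of_lt_of_le (by norm_num) (le_max_right _ _)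
  have hq₁lt : q₁ < 1 := max_lt h2 (by norm_num)
  refine ⟨1 / q₁, by rw [lt_div_iff₀ hq₁pos]; linarith, fun r hr hr₀ t₀ => ?_⟩
  have hr0 : 0 < r := by linarith
  have hq : q₁ < 1 / r := by
    rw [lt_div_iff₀ hr0]
    rw [lt_div_iff₀ hq₁pos] at hr₀
    linarith
  have hq1 : 1 / r < 1 := by
    rw [div_lt_iff₀ hr0]; linarith
  have hq2 : q₀ < 1 / r := lt_of_le_of_lt (le_max_left _ _) hq
  have := h3 (1 / r) hq2 hq1 t₀
  have hrc : (r : ℂ) ≠ 0 := by exact_mod_cast hr0.ne'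
  have e1 : ((1 / r : ℝ) : ℂ) * sig s s1 t₀ = sig s s1 t₀ / (r : ℂ) := by
    push_cast; field_simp
  rw [e1] at this
  have hz : ∀ t, sig s s1 t - sig s s1 t₀ / (r : ℂ) ≠ 0 := by
    intro t
    have := (mkSetup H).sub_ne_of_radial (q := 1 / r) (by positivity) hq1 t t₀
    simpa only [mkSetup, e1] using this
  rw [Cc_add_conj H hc hz]
  exact this

end Vale.Agent.Lib.P123C.LimitsGeom
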