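import Vale.Agent.Lib.P123C.Facts
import Vale.Agent.Lib.P123C.EquilGeom
import Vale.Agent.Lib.P123C.CrvData
import Vale.Agent.Lib.P123C.Inside
import Vale.Agent.Lib.P123C.CalcQ
import Vale.Agent.Lib.P123C.LimitsGeom

/-!
# Assembly of the curve-level theorem: the hypotheses of `Facts.FactHyps` for the concrete curve.
-/

open Complex Set Filter Topology MeasureTheory
open scoped Real ComplexConjugate BoundedContinuousFunction Interval

namespace Vale.Agent.Lib.P123C.CrvData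

open Vale.Agent.Lib.P123C.Geom
open Vale.Agent.Lib.P123C.Doeblin (B Pos)

noncomputable section

open Classical in
/-- Functions of the period as elements of `B`. -/
def mkB (f : ℝ → ℂ) : B :=
  if h : Continuous f ∧ Function.Periodic f (2 * π) then (Equil.exists_mkB h.1 h.2).choose else 0

theorem mkB_apply {f : ℝ → ℂ} (hc : Continuous f) (hp : Function.Periodic f (2 * π)) (t : ℝ) :
    mkB f t = f t := by
  have h : Continuous f ∧ Function.Periodic f (2 * π) := ⟨hc, hp⟩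
  unfold mkB
  rw [dif_pos h]
  exact (Equil.exists_mkB h.1 h.2).choose_spec t

namespace Crv

variable (c : Crv)

/-- The curve. -/
def sg : ℝ → ℂ := sig c.s c.s1

/-- Its velocity. -/
def dsg : ℝ → ℂ := fun t => I * (c.R t : ℂ) * e t

/-- The inner region. -/
def Ins : Set ℂ := Calc.In c.s

/-- The Cauchy transform. -/
def CC (h : B) (z : ℂ) : ℂ := Calc.Cc c.s c.s1 c.R h z

theorem isCrv : Calc.IsCrv c.s c.s1 c.R where
  hs := c.hs
  hs1 := c.hs1
  hper := c.hper
  hper1 := c.hper1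
  hRc := c.hRc
  hRper := c.hRper

theorem R_nonneg (t : ℝ) : 0 ≤ c.R t := c.hr0.le.trans (c.hmin t)

theorem continuous_sg : Continuous c.sg := c.continuous_sig

theorem continuous_dsg : Continuous c.dsg := by
  have : Continuous fun t : ℝ => (c.R t : ℂ) := Complex.continuous_ofReal.comp c.hRc
  exact (continuous_const.mul this).mul Geom.continuous_e

theorem sg_periodic : Function.Periodic c.sg (2 * π) := fun t => Geom.sig_periodic c.hper c.hper1 t

theorem Cc_eq_cT (h : ℝ → ℂ) (z : ℂ) : Calc.Cc c.s c.s1 c.R h z = Equil.cT c.sg c.dsg h z := by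
  unfold Calc.Cc Equil.cT
  congr 1
  · simp
  · refine intervalIntegral.integral_congr fun t _ => ?_
    simp only [dsg, sg, Oper.sigD]
    rw [div_eq_mul_inv]
    ring

theorem curve (hs0 : ∀ t, 0 < c.s t) : Equil.Curve c.sg c.dsg c.Ins :=
  Equil.curve_geom c.hs c.hs1 c.hper c.hper1 c.hRc c.hr0.le c.hmin c.hmax hs0

theorem lin_eq_re (z : ℂ) (t : ℝ) : Vale.Agent.Lib.P123C.lin z t = (conj (e t) * z).re := by
  have := Vale.Agent.Lib.P123C.lin_eq z t
  rw [this]
  rfl

theorem Ins_eq : c.Ins = Vale.Agent.Lib.P123C.In c.s := by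
  ext z
  simp only [Ins, Calc.In, Vale.Agent.Lib.P123C.In, Set.mem_ofPred_eq, hh, lin_eq_re, sub_pos]

theorem s_cont : Continuous c.s := continuous_s c

theorem per_s : Function.Periodic c.s (2 * π) := c.hper

theorem isOpen_Ins : IsOpen c.Ins := by
  rw [Ins_eq]
  exact Vale.Agent.Lib.P123C.isOpen_In c.s_cont c.per_s

theorem isBounded_Ins : Bornology.IsBounded c.Ins := by
  rw [Ins_eq]
  exact Vale.Agent.Lib.P123C.isBounded_In c.s_cont c.per_s

theorem isPreconnected_Ins : IsPreconnected c.Ins := by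
  rw [Ins_eq]
  exact (Vale.Agent.Lib.P123C.convex_In c.s).isPreconnected

theorem frontier_Ins : frontier c.Ins ⊆ Set.range c.sg := by
  rw [Ins_eq]
  have h := Vale.Agent.Lib.P123C.frontier_In_subset c.hs c.per_s
  intro z hz
  obtain ⟨t, ht⟩ := h hz
  exact ⟨t, ht⟩

theorem closure_Ins_hh {z : ℂ} (hz : z ∈ closure c.Ins) (t : ℝ) : (conj (e t) * z).re ≤ c.s t := by
  rw [Ins_eq] at hz
  have := Vale.Agent.Lib.P123C.closure_In_subset c.s hz t
  rwa [lin_eq_re] at this

theorem hdil (hs0 : ∀ t, 0 < c.s t) : ∀ r : ℝ, 1 < r → ∀ z ∈ closure c.Ins, z / r ∈ c.Ins := by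
  intro r hr z hz t
  have h1 := c.closure_Ins_hh hz t
  have hr0 : 0 < r := by linarith
  have e1 : (conj (e t) * (z / r)).re = (conj (e t) * z).re / r := by
    have : conj (e t) * (z / r) = (conj (e t) * z) / r := by ring
    rw [this, Complex.div_ofReal_re]
  unfold hh
  rw [e1, sub_pos]
  have hs := hs0 t
  by_cases ha : (conj (e t) * z).re ≤ 0
  · have : (conj (e t) * z).re / r ≤ 0 := div_nonpos_of_nonpos_of_nonneg ha hr0.le
    linarith
  · push Not at ha
    have : (conj (e t) * z).re / r < (conj (e t) * z).re := div_lt_self ha hr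
    linarith

theorem sg_div_mem (hs0 : ∀ t, 0 < c.s t) {r : ℝ} (hr : 1 < r) (t : ℝ) : c.sg t / r ∈ c.Ins := by
  have := (c.curve hs0).hS r hr t
  rwa [div_eq_inv_mul]

theorem sg_mem_closure (hs0 : ∀ t, 0 < c.s t) (t : ℝ) : c.sg t ∈ closure c.Ins := by
  have hlim : Tendsto (fun r : ℝ => ((r : ℂ))⁻¹ * c.sg t) (𝓝[>] 1) (𝓝 (c.sg t)) := by
    have hc : ContinuousAt (fun r : ℝ => ((r : ℂ))⁻¹ * c.sg t) 1 := by
      apply ContinuousAt.mul _ continuousAt_const
      apply ContinuousAt.inv₀ Complex.continuous_ofReal.continuousAt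
      simp
    have h1 := hc.tendsto.mono_left (nhdsWithin_le_nhds (s := Set.Ioi (1 : ℝ)))
    simpa using h1
  refine mem_closure_of_tendsto hlim ?_
  filter_upwards [self_mem_nhdsWithin] with r hr
  exact (c.curve hs0).hS r hr t

/-- The Cauchy transform is holomorphic in the inner region. -/
theorem differentiableOn_CC (h : B) : DifferentiableOn ℂ (c.CC h) c.Ins :=
  Calc.Cc_diffOn c.isCrv h.continuous

theorem exists_smin (hs0 : ∀ t, 0 < c.s t) : ∃ smin : ℝ, 0 < smin ∧ ∀ t, smin ≤ c.s t := by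
  obtain ⟨t0, -, ht0⟩ := isCompact_Icc.exists_isMinOn (s := Icc (0 : ℝ) (2 * π))
    ⟨0, by simp [Real.pi_pos.le]⟩ c.s_cont.continuousOn
  refine ⟨c.s t0, hs0 t0, fun t => ?_⟩
  obtain ⟨y, hy, hyt⟩ := c.per_s.exists_mem_Ico₀ (by positivity) t
  rw [hyt]
  exact ht0 ⟨hy.1, hy.2.le⟩

theorem curveBd {smin : ℝ} (h0 : 0 < smin) (hs : ∀ t, smin ≤ c.s t) :
    LimitsGeom.CurveBd c.s c.s1 c.R c.rmin c.rmax smin where
  crv := c.isCrv
  rmin_pos := c.hr0
  smin_pos := h0
  R_ge := c.hmin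
  R_le := c.hmax
  s_ge := hs

/-- The inner traces. -/
def G (r : ℝ) (h : B) : B := mkB fun t => c.CC h (c.sg t / r)

/-- The outer traces. -/
def E (r : ℝ) (h : B) : B := mkB fun t => c.CC h (r * c.sg t)

theorem G_apply (hs0 : ∀ t, 0 < c.s t) {r : ℝ} (hr : 1 < r) (h : B) (t : ℝ) :
    c.G r h t = c.CC h (c.sg t / r) := by
  refine mkB_apply ?_ ?_ t
  · refine ((c.differentiableOn_CC h).continuousOn).comp_continuous
      (c.continuous_sg.div_const _) (fun t => c.sg_div_mem hs0 hr t)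
  · intro t
    simp only [c.sg_periodic t]

theorem E_apply (hs0 : ∀ t, 0 < c.s t) {r : ℝ} (hr : 1 < r) (h : B) (t : ℝ) :
    c.E r h t = c.CC h (r * c.sg t) := by
  refine mkB_apply ?_ ?_ t
  · exact Calc.Er_cont c.isCrv c.R_nonneg hs0 h.continuous hr
  · intro t
    simp only [c.sg_periodic t]

/-- The stationary functional. -/
def lam : B →L[ℂ] ℂ := c.data.lam

theorem state : Facts.IsState c.lam where
  one := c.data.lam_one
  pos := fun a => (c.data.lam_normSq a).2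
  star_eq := c.data.lam_star
  norm_le := c.data.norm_lam_apply_le

theorem NL_per (h : B) : Facts.Per (c.NL h) := fun t => c.Nf_periodic h t

theorem mix (h : B) : Tendsto (fun n : ℕ => (c.NL ^ n) h) atTop (𝓝 (c.lam h • (1 : B))) := by
  rw [tendsto_iff_norm_sub_tendsto_zero]
  have hb := fun n => c.data.pow_close h n
  have hlim : Tendsto (fun n : ℕ => 2 * c.κ ^ n * ‖h‖) atTop (𝓝 0) := by
    have := (tendsto_pow_atTop_nhds_zero_of_lt_one c.κ_nonneg c.κ_lt).const_mul 2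
    have := this.mul_const ‖h‖
    simpa using this
  exact squeeze_zero (fun _ => norm_nonneg _) hb hlim

theorem a2 {smin : ℝ} (h0 : 0 < smin) (hs : ∀ t, smin ≤ c.s t) (h : B) (hp : Facts.Per h) {ε : ℝ}
    (hε : 0 < ε) : ∃ r₀ : ℝ, 1 < r₀ ∧ ∀ r : ℝ, 1 < r → r < r₀ → ∀ t₀ : ℝ,
      ‖c.CC h (c.sg t₀ / (r : ℂ)) + conj (c.CC (star h) (c.sg t₀ / (r : ℂ))) - h t₀ - c.NL h t₀‖ ≤ ε :=
  LimitsGeom.jump_double_layer' (c.curveBd h0 hs) h.continuous hp hε

theorem a1 {smin : ℝ} (h0 : 0 < smin) (hs : ∀ t, smin ≤ c.s t) (h : B) (hp : Facts.Per h) {ε : ℝ}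
    (hε : 0 < ε) : ∃ r₀ : ℝ, 1 < r₀ ∧ ∀ r : ℝ, 1 < r → r < r₀ → ∀ t₀ : ℝ,
      ‖c.CC h (c.sg t₀ / (r : ℂ)) - c.CC h ((r : ℂ) * c.sg t₀) - h t₀‖ ≤ ε :=
  LimitsGeom.jump_cauchy' (c.curveBd h0 hs) h.continuous hp hε

theorem dyn (hs0 : ∀ t, 0 < c.s t) : Equil.Dyn c.sg c.dsg c.NL c.lam where
  hNper := c.NL_per
  hNconj := c.data.N_star
  hmix := c.mix
  hA2 := by
    obtain ⟨smin, h0, hs⟩ := c.exists_smin hs0
    intro h hp ε hε
    obtain ⟨r₀, h1, h2⟩ := c.a2 h0 hs h hp hε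
    refine ⟨r₀, h1, fun r hr hr0 t => ?_⟩
    have := h2 r hr hr0 t
    have e1 : ((r : ℂ))⁻¹ * c.sg t = c.sg t / r := by rw [div_eq_inv_mul]
    rw [e1, ← c.Cc_eq_cT, ← c.Cc_eq_cT]
    exact this

/-- Uniform limits along `r → 1⁺` from the explicit thresholds. -/
theorem tendsto_of_forall {f : ℝ → B} {L : B}
    (hf : ∀ ε : ℝ, 0 < ε → ∃ r₀ : ℝ, 1 < r₀ ∧ ∀ r : ℝ, 1 < r → r < r₀ → ∀ t, ‖f r t - L t‖ ≤ ε) :
    Tendsto f (𝓝[>] 1) (𝓝 L) := by
  rw [Metric.tendsto_nhdsWithin_nhds]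
  intro ε hε
  obtain ⟨r₀, h1, h2⟩ := hf (ε / 2) (by positivity)
  refine ⟨r₀ - 1, by linarith, fun r hr hd => ?_⟩
  have hr1 : (1 : ℝ) < r := hr
  rw [Real.dist_eq, abs_of_pos (by linarith)] at hd
  rw [dist_eq_norm]
  have : ‖f r - L‖ ≤ ε / 2 := by
    refine (BoundedContinuousFunction.norm_le (by positivity)).2 fun t => ?_
    simpa using h2 r hr1 (by linarith) t
  linarith

/-- The hypotheses of the two facts, for the concrete curve. -/
theorem factHyps (hs0 : ∀ t, 0 < c.s t) :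
    Facts.FactHyps c.sg c.Ins c.CC c.NL c.lam c.G c.E := by
  obtain ⟨smin, h0, hs⟩ := c.exists_smin hs0
  have hC := c.curve hs0
  have hD := c.dyn hs0
  refine
    { hopen := c.isOpen_Ins
      hbdd := c.isBounded_Ins
      hconn := c.isPreconnected_Ins
      hfront := c.frontier_Ins
      hdil := c.hdil hs0
      hσ := c.sg_mem_closure hs0
      hCd := c.differentiableOn_CC
      hG := fun r hr h t => c.G_apply hs0 hr h t
      state := c.state
      A1 := ?_
      A2 := ?_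
      L1 := ?_
      L2 := ?_
      Nper := c.NL_per }
  · intro h hp
    refine tendsto_of_forall fun ε hε => ?_
    obtain ⟨r₀, h1, h2⟩ := c.a1 h0 hs h hp hε
    refine ⟨r₀, h1, fun r hr hr0 t => ?_⟩
    have := h2 r hr hr0 t
    simp only [BoundedContinuousFunction.coe_sub, Pi.sub_apply]
    rw [c.G_apply hs0 hr, c.E_apply hs0 hr]
    exact this
  · intro h hp
    refine tendsto_of_forall fun ε hε => ?_
    obtain ⟨r₀, h1, h2⟩ := c.a2 h0 hs h hp hε
    refine ⟨r₀, h1, fun r hr hr0 t => ?_⟩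
    have := h2 r hr hr0 t
    simp only [BoundedContinuousFunction.coe_add, Pi.add_apply,
      BoundedContinuousFunction.star_apply]
    rw [c.G_apply hs0 hr, c.G_apply hs0 hr]
    have e1 : c.CC h (c.sg t / r) + star (c.CC (star h) (c.sg t / r)) - (h t + c.NL h t)
        = c.CC h (c.sg t / r) + conj (c.CC (star h) (c.sg t / r)) - h t - c.NL h t := by
      rw [Complex.star_def]
      ring
    rw [e1]
    exact this
  · intro h hp r hr
    refine Equil.lam_E hC hD hr h.continuous (fun t => ?_)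
    rw [c.E_apply hs0 hr, ← c.Cc_eq_cT]
    rfl
  · intro h k hp hk r hr
    refine Equil.lam_EE hC hD hr h.continuous k.continuous (fun t => ?_) (fun t => ?_)
    · rw [c.E_apply hs0 hr, ← c.Cc_eq_cT]
      rfl
    · rw [c.E_apply hs0 hr, ← c.Cc_eq_cT]
      rfl

end Crv

end

end Vale.Agent.Lib.P123C.CrvData
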