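import Vale.Agent.Lib.P123C.CalcQ
import Vale.Agent.Lib.P123C.LimitsGeom

/-!
# Crouzeix route: the operator identities of the key step

`S ψ = T α` when the Cauchy transforms of `ψ`, `conj ψ` are known; the operator `Brr h r`,
`β_r = C[h](· / r) / 2`; its limit as `r → 1`.
-/

open Complex ComplexConjugate MeasureTheory Set Filter Topology
open scoped Interval InnerProductSpace Real

namespace Vale.Agent.Lib.P123C.Calc

open Geom Oper

variable {s s1 R : ℝ → ℝ}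

theorem Cc_sub (hc : IsCrv s s1 R) {h k : ℝ → ℂ} (hh' : Continuous h) (hk : Continuous k) {z : ℂ} (hz : z ∈ In s) :
    Cc s s1 R (fun t => h t - k t) z = Cc s s1 R h z - Cc s s1 R k z := by
  have hne : ∀ t, sig s s1 t - z ≠ 0 := fun t => sig_sub_ne (hz t)
  have hi : Continuous (fun t => (sig s s1 t - z)⁻¹) := (hc.sig_cont.sub continuous_const).inv₀ hne
  have e := intervalIntegral.integral_sub (μ := volume) (a := 0) (b := 2 * π)
    (f := fun t => (sig s s1 t - z)⁻¹ * (h t * sigD R t))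
    (g := fun t => (sig s s1 t - z)⁻¹ * (k t * sigD R t))
    ((hi.mul (hh'.mul hc.dsig_cont)).intervalIntegrable _ _)
    ((hi.mul (hk.mul hc.dsig_cont)).intervalIntegrable _ _)
  unfold Cc
  rw [← mul_sub, ← e]
  congr 2
  ext1 t
  ring

theorem Cc_const_mul (a : ℂ) (h : ℝ → ℂ) (z : ℂ) :
    Cc s s1 R (fun t => a * h t) z = a * Cc s s1 R h z := by
  unfold Cc
  have e : ∀ t, (sig s s1 t - z)⁻¹ * (a * h t * sigD R t) = a * ((sig s s1 t - z)⁻¹ * (h t * sigD R t)) := by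
    intro t; ring
  simp only [e]
  rw [intervalIntegral.integral_const_mul]
  ring

section Ops

variable {H : Type*} [NormedAddCommGroup H] [InnerProductSpace ℂ H] [CompleteSpace H]
variable {A : H →L[ℂ] H} {η : ℝ}

/-- The identity `S ψ = T α`. -/
theorem S_eq_T_of_Cc (hA : Inside s A η) (hc : IsCrv s s1 R) {ψ α : ℝ → ℂ} (hψ : Continuous ψ) (hα : Continuous α)
    {c : ℂ} (h1 : ∀ z ∈ In s, Cc s s1 R ψ z = Cc s s1 R α z - conj c)
    (h2 : ∀ z ∈ In s, Cc s s1 R (fun t => conj (ψ t)) z = c) :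
    S s s1 R A ψ = T s s1 R A α := by
  have hψc : Continuous (fun t => conj (ψ t)) := Complex.continuous_conj.comp hψ
  have e1 := ins_T_eq_of_Cc_const hA hc hψc h2
  have e2 := ins_T_eq_of_Cc_const hA hc (h := fun t => ψ t - α t) (hψ.sub hα) (κ := - conj c) (fun z hz => by
    rw [Cc_sub hc hψ hα hz, h1 z hz]; ring)
  rw [T_sub hA hc hψ hα] at e2
  have e3 : ContinuousLinearMap.adjoint (c • (1 : H →L[ℂ] H)) = conj c • (1 : H →L[ℂ] H) := by
    rw [← ContinuousLinearMap.star_eq_adjoint, star_smul, star_one]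
    rfl
  have e4 : T s s1 R A ψ = (- conj c) • (1 : H →L[ℂ] H) + T s s1 R A α := sub_eq_iff_eq_add.1 e2
  unfold S
  rw [e1, e3, e4, neg_smul]
  abel

/-- The operator `T[β_r]`, `β_r = C[h](· / r) / 2`. -/
noncomputable def Brr (s s1 R : ℝ → ℝ) (A : H →L[ℂ] H) (h : ℝ → ℂ) (r : ℝ) : H →L[ℂ] H :=
  (1 / 2 : ℂ) • T s s1 R A (Gq s s1 R h r⁻¹)

/-- the function `p β_r` along the curve -/
noncomputable def alphar (s s1 R : ℝ → ℝ) (p : Polynomial ℂ) (h : ℝ → ℂ) (r : ℝ) (t : ℝ) : ℂ :=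
  (1 / 2 : ℂ) * (p.eval (sig s s1 t) * Gq s s1 R h r⁻¹ t)

theorem inv_mem_Ico {r : ℝ} (hr : 1 < r) : 0 ≤ r⁻¹ ∧ r⁻¹ < 1 :=
  ⟨by positivity, inv_lt_one_of_one_lt₀ hr⟩

theorem alphar_cont (hc : IsCrv s s1 R) (hR0 : ∀ t, 0 ≤ R t) (hs0 : ∀ t, 0 < s t) (p : Polynomial ℂ) {h : ℝ → ℂ}
    (hh' : Continuous h) {r : ℝ} (hr : 1 < r) : Continuous (alphar s s1 R p h r) := by
  unfold alphar
  exact continuous_const.mul ((p.continuous.comp hc.sig_cont).mul
    (Gq_cont hc hR0 hs0 hh' (inv_mem_Ico hr).1 (inv_mem_Ico hr).2))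

/-- `Brr` commutes with polynomials in `A`. -/
theorem Brr_comm (hA : Inside s A η) (hc : IsCrv s s1 R) (hR0 : ∀ t, 0 ≤ R t) (hs0 : ∀ t, 0 < s t) {h : ℝ → ℂ}
    (hh' : Continuous h) {r : ℝ} (hr : 1 < r) (p : Polynomial ℂ) :
    Brr s s1 R A h r * Polynomial.aeval A p = Polynomial.aeval A p * Brr s s1 R A h r := by
  unfold Brr
  rw [smul_mul_assoc, mul_smul_comm,
    T_comm_aeval hA hc (Gq_cont hc hR0 hs0 hh' (inv_mem_Ico hr).1 (inv_mem_Ico hr).2) p]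

/-- `p(A) Brr = T[p β_r]`. -/
theorem aeval_mul_Brr (hA : Inside s A η) (hc : IsCrv s s1 R) (hR0 : ∀ t, 0 ≤ R t) (hs0 : ∀ t, 0 < s t) {h : ℝ → ℂ}
    (hh' : Continuous h) {r : ℝ} (hr : 1 < r) (p : Polynomial ℂ) :
    Polynomial.aeval A p * Brr s s1 R A h r = T s s1 R A (alphar s s1 R p h r) := by
  unfold Brr alphar
  rw [T_const_mul, T_poly_Gq hA hc hR0 hs0 hh' (inv_mem_Ico hr).1 (inv_mem_Ico hr).2 p, mul_smul_comm]

/-- The Cauchy transform of `p β_r` inside. -/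
theorem Cc_alphar (hc : IsCrv s s1 R) (hR0 : ∀ t, 0 ≤ R t) (hs0 : ∀ t, 0 < s t) {h : ℝ → ℂ}
    (hh' : Continuous h) {r : ℝ} (hr : 1 < r) (p : Polynomial ℂ) {z : ℂ} (hz : z ∈ In s) :
    Cc s s1 R (alphar s s1 R p h r) z = (1 / 2 : ℂ) * (p.eval z * Cc s s1 R h ((r⁻¹ : ℝ) * z)) := by
  unfold alphar
  rw [Cc_const_mul, Cc_poly_Gq hc hR0 hs0 hh' (inv_mem_Ico hr).1 (inv_mem_Ico hr).2 p hz]

/-- `T` is bounded by the `L¹` norm. -/
theorem exists_T_bound_int (hA : Inside s A η) (hc : IsCrv s s1 R) :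
    ∃ K : ℝ, 0 ≤ K ∧ ∀ h : ℝ → ℂ, Continuous h → ‖T s s1 R A h‖ ≤ K * ∫ t in (0 : ℝ)..(2 * π), ‖h t‖ := by
  obtain ⟨Rm, hRm⟩ := IsCrv.bdd_of_per (f := fun t => ‖sigD R t‖) hc.dsig_cont.norm
    (fun t => by simp only [hc.dsig_per])
  have hRm' : ∀ t, ‖sigD R t‖ ≤ Rm := fun t => (le_abs_self _).trans (hRm t)
  have hRm0 : 0 ≤ Rm := (norm_nonneg _).trans (hRm' 0)
  have hη := hA.1
  have hpi := Real.pi_pos
  refine ⟨(2 * π)⁻¹ * (Rm * (2 / η)), by positivity, ?_⟩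
  intro h hh'
  have hR := ins_res_sig_cont hA hc
  unfold T
  rw [norm_smul]
  have h4 : ‖(2 * (π : ℂ) * I)⁻¹‖ = (2 * π)⁻¹ := by
    rw [norm_inv, norm_mul, norm_mul, Complex.norm_I, Complex.norm_real, Real.norm_eq_abs,
      abs_of_pos Real.pi_pos]
    simp
  rw [h4, mul_assoc]
  apply mul_le_mul_of_nonneg_left _ (by positivity)
  have h5 := intervalIntegral.norm_integral_le_integral_norm (μ := volume) (a := 0) (b := 2 * π)
    (f := fun t => (h t * sigD R t) • Res A (sig s s1 t)) Real.two_pi_pos.le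
  refine h5.trans ?_
  rw [← intervalIntegral.integral_const_mul]
  apply intervalIntegral.integral_mono_on Real.two_pi_pos.le
  · exact (((hh'.mul hc.dsig_cont).smul hR).norm).intervalIntegrable _ _
  · exact (continuous_const.mul hh'.norm).intervalIntegrable _ _
  · intro t _
    rw [norm_smul, norm_mul]
    have h2 := ins_res_norm' hA (sig_mem_Out (s := s) (s1 := s1) hη t)
    calc ‖h t‖ * ‖sigD R t‖ * ‖Res A (sig s s1 t)‖ ≤ ‖h t‖ * Rm * (2 / η) :=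
          mul_le_mul (mul_le_mul_of_nonneg_left (hRm' t) (norm_nonneg _)) h2 (norm_nonneg _) (by positivity)
      _ = Rm * (2 / η) * ‖h t‖ := by ring

/-- As `r → 1`, `T[G_{1/r}[h]] → T[h]` in norm. -/
theorem T_Gq_tendsto {rmin rmax smin : ℝ} (H' : LimitsGeom.CurveBd s s1 R rmin rmax smin) (hA : Inside s A η)
    {h : ℝ → ℂ} (hh' : Continuous h) (hp : ∀ t, h (t + 2 * π) = h t) :
    Tendsto (fun r : ℝ => T s s1 R A (Gq s s1 R h r⁻¹)) (𝓝[>] 1) (𝓝 (T s s1 R A h)) := by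
  have hc := H'.crv
  have hR0 : ∀ t, 0 ≤ R t := fun t => H'.rmin_pos.le.trans (H'.R_ge t)
  have hs0 : ∀ t, 0 < s t := fun t => lt_of_lt_of_le H'.smin_pos (H'.s_ge t)
  obtain ⟨K, hK0, hK⟩ := exists_T_bound hA hc
  rw [Metric.tendsto_nhdsWithin_nhds]
  intro ε hε
  have hε' : 0 < ε / (2 * (K + 1)) := by positivity
  obtain ⟨r₀, hr₀, hj⟩ := LimitsGeom.jump_cauchy' H' hh' hp hε'
  refine ⟨r₀ - 1, by linarith, fun r hr hd => ?_⟩
  have hr1 : 1 < r := hr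
  have hrr : r < r₀ := by
    rw [Real.dist_eq] at hd
    have := (abs_lt.1 hd).2
    linarith
  have hG := Gq_cont hc hR0 hs0 hh' (inv_mem_Ico hr1).1 (inv_mem_Ico hr1).2
  have hE := Er_cont hc hR0 hs0 hh' hr1
  have hzero := T_Er hA hc hR0 H'.smin_pos H'.s_ge hh' hr1
  have e1 : T s s1 R A (Gq s s1 R h r⁻¹) - T s s1 R A h =
      T s s1 R A (fun t => (Gq s s1 R h r⁻¹ t - Er s s1 R h r t) - h t) := by
    have hGE : Continuous (fun t => Gq s s1 R h r⁻¹ t - Er s s1 R h r t) := hG.sub hE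
    rw [T_sub hA hc hGE hh', T_sub hA hc hG hE, hzero, sub_zero]
  rw [dist_eq_norm, e1]
  have hb : ∀ t, ‖(Gq s s1 R h r⁻¹ t - Er s s1 R h r t) - h t‖ ≤ ε / (2 * (K + 1)) := by
    intro t
    have h1 := hj r hr1 hrr t
    have e2 : Gq s s1 R h r⁻¹ t = Cc s s1 R h (sig s s1 t / (r : ℂ)) := by
      unfold Gq
      congr 1
      push_cast
      rw [div_eq_inv_mul]
    rw [e2]
    exact h1
  have h2 := hK _ ((hG.sub hE).sub hh') _ hb
  refine lt_of_le_of_lt h2 ?_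
  have h3 : K * (ε / (2 * (K + 1))) = ε * (K / (2 * (K + 1))) := by
    field_simp
  rw [h3]
  have h4 : K / (2 * (K + 1)) < 1 := by
    rw [div_lt_one (by positivity)]
    linarith
  nlinarith

/-- Limit of the quadratic form of `Brr`. -/
theorem Brr_inner_tendsto {rmin rmax smin : ℝ} (H' : LimitsGeom.CurveBd s s1 R rmin rmax smin)
    (hA : Inside s A η) {h : ℝ → ℂ} (hh' : Continuous h) (hp : ∀ t, h (t + 2 * π) = h t) (u v : H) :
    Tendsto (fun r : ℝ => inner ℂ v (Brr s s1 R A h r u)) (𝓝[>] 1)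
      (𝓝 ((1 / 2 : ℂ) * inner ℂ v (T s s1 R A h u))) := by
  have h1 := T_Gq_tendsto H' hA hh' hp
  have hcont : Continuous (fun X : H →L[ℂ] H => (1 / 2 : ℂ) * inner ℂ v (X u)) := by
    fun_prop
  have h2 := hcont.continuousAt.tendsto.comp h1
  refine h2.congr (fun r => ?_)
  simp only [Function.comp, Brr, ContinuousLinearMap.coe_smul', Pi.smul_apply, inner_smul_right]

/-- Eventual bound for `Brr`. -/
theorem Brr_norm_eventually {rmin rmax smin : ℝ} (H' : LimitsGeom.CurveBd s s1 R rmin rmax smin)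
    (hA : Inside s A η) {h : ℝ → ℂ} (hh' : Continuous h) (hp : ∀ t, h (t + 2 * π) = h t) :
    ∀ᶠ r in 𝓝[>] (1 : ℝ), ‖Brr s s1 R A h r‖ ≤ ‖T s s1 R A h‖ + 1 := by
  have h1 := T_Gq_tendsto H' hA hh' hp
  have h2 := (Metric.tendsto_nhds.1 h1) 1 one_pos
  filter_upwards [h2] with r hr
  rw [dist_eq_norm] at hr
  unfold Brr
  rw [norm_smul]
  have h3 : ‖(1 / 2 : ℂ)‖ = 1 / 2 := by simp
  rw [h3]
  have h4 := norm_sub_norm_le (T s s1 R A (Gq s s1 R h r⁻¹)) (T s s1 R A h)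
  have h5 := norm_nonneg (T s s1 R A (Gq s s1 R h r⁻¹))
  have h6 := norm_nonneg (T s s1 R A h)
  linarith

end Ops

end Vale.Agent.Lib.P123C.Calc
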