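import Vale.Agent.Lib.P123C.MainAbs

/-!
# P123, Crouzeix: the main inequality with an exact singular pair

In finite dimension the singular vectors are exact, so no bound on the operators `Br` is needed.
-/

open scoped InnerProductSpace
open Filter Topology

namespace Vale.Agent.Lib.P123C

variable {H : Type*} [NormedAddCommGroup H] [InnerProductSpace ℂ H] [CompleteSpace H]

/-- The main inequality from the facts on the curve, given an exact singular pair. -/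
theorem main_exact (T0 : H →L[ℂ] H) {Test : Type*} [SMul ℝ Test]
    (nsq : Test → ℝ) (L : H → Test → ℝ)
    (hnsq_smul : ∀ (c : ℝ) g, 0 < c → nsq (c • g) = c ^ 2 * nsq g)
    (hL_smul : ∀ (c : ℝ) g u, 0 < c → L u (c • g) = c * L u g)
    (one : Test) (hone : nsq one ≤ 1) (hLone : ∀ u, ‖u‖ = 1 → L u one = 2)
    {Cbd M : ℝ} (hM : 0 ≤ M)
    (hLbd : ∀ u, ‖u‖ = 1 → ∀ h, nsq h ≤ 1 → L u h ≤ Cbd)
    (Br : Test → ℝ → H →L[ℂ] H) (gsq : Test → ℝ → ℝ)
    (hcomm : ∀ h r, 1 < r → Br h r * T0 = T0 * Br h r)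
    (hlim : ∀ h u, Tendsto (fun r => (⟪u, Br h r u⟫_ℂ).re) (𝓝[>] 1) (𝓝 (L u h / 4)))
    (hdom : ∀ h r, 1 < r → ∃ g, nsq g ≤ M ^ 2 * gsq h r ∧ ∀ x y : H,
      ‖⟪y, T0 (Br h r x)⟫_ℂ‖ ≤ (L x g + L y g) / 2)
    (hfact2 : ∀ h, ∀ ε : ℝ, 0 < ε → ∀ᶠ r in 𝓝[>] (1 : ℝ), gsq h r ≤ nsq h / 4 + ε)
    {x y : H} (hx : ‖x‖ = 1) (hy : ‖y‖ = 1) (hs1 : T0 x = ((‖T0‖ : ℝ) : ℂ) • y)
    (hs2 : (ContinuousLinearMap.adjoint T0) y = ((‖T0‖ : ℝ) : ℂ) • x) :
    ‖T0‖ ≤ 2 * M := by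
  set K := ‖T0‖ with hK
  have hK0 : 0 ≤ K := norm_nonneg _
  -- the supremum
  set S : Set ℝ := {t | ∃ g, nsq g ≤ 1 ∧ t = (L x g + L y g) / 2} with hS
  have hSbdd : BddAbove S := by
    refine ⟨Cbd, ?_⟩
    rintro t ⟨g, hg, rfl⟩
    have := hLbd x hx g hg
    have := hLbd y hy g hg
    linarith
  have hSne : S.Nonempty := ⟨_, one, hone, rfl⟩
  set Q := sSup S with hQdef
  have hQg : ∀ g, nsq g ≤ 1 → (L x g + L y g) / 2 ≤ Q := fun g hg => le_csSup hSbdd ⟨g, hg, rfl⟩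
  have hQ2 : 2 ≤ Q := by
    have := hQg one hone
    rw [hLone x hx, hLone y hy] at this
    linarith
  -- each test function
  have hmain : ∀ h, nsq h ≤ 1 → K * ((L x h + L y h) / 2) / 4 ≤ Q * M * (1 / 2) := by
    intro h hh
    refine le_of_forall_pos_le_add fun ε hε => ?_
    -- the constants
    set ε₁ : ℝ := ε / (2 * (K + 1)) with hε₁
    have hε₁0 : 0 < ε₁ := by positivity
    have hε₁1 : K * ε₁ ≤ ε / 2 := by
      rw [hε₁, ← mul_div_assoc, div_le_iff₀ (by positivity)]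
      nlinarith
    set d : ℝ := ε / (2 * (|Q| + 1)) with hd
    have hd0 : 0 < d := by positivity
    set c : ℝ := M / 2 + d with hc
    have hc0 : 0 < c := by positivity
    set ε' : ℝ := d ^ 2 / (M ^ 2 + 1) with hε'
    have hε'0 : 0 < ε' := by positivity
    have hε'1 : M ^ 2 * ε' ≤ d ^ 2 := by
      rw [hε', ← mul_div_assoc, div_le_iff₀ (by positivity)]
      nlinarith [sq_nonneg d]
    -- a good `r`
    have hr1 : ∀ᶠ r in 𝓝[>] (1 : ℝ), L x h / 4 - ε₁ ≤ (⟪x, Br h r x⟫_ℂ).re :=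
      (hlim h x).eventually (lt_mem_nhds (by linarith)) |>.mono fun _ hr => le_of_lt hr
    have hr2 : ∀ᶠ r in 𝓝[>] (1 : ℝ), L y h / 4 - ε₁ ≤ (⟪y, Br h r y⟫_ℂ).re :=
      (hlim h y).eventually (lt_mem_nhds (by linarith)) |>.mono fun _ hr => le_of_lt hr
    have hr3 : ∀ᶠ r in 𝓝[>] (1 : ℝ), 1 < r := eventually_mem_nhdsWithin
    obtain ⟨r, ⟨⟨hrf, hrx⟩, hry⟩, hr⟩ :=
      (((((hfact2 h ε' hε'0)).and hr1).and hr2).and hr3).exists
    obtain ⟨g, hg1, hg2⟩ := hdom h r hr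
    -- scale `g`
    have hgc : nsq (c⁻¹ • g) ≤ 1 := by
      rw [hnsq_smul _ _ (inv_pos.2 hc0)]
      have h1 : nsq g ≤ c ^ 2 := by
        have h2 : M ^ 2 * gsq h r ≤ M ^ 2 * (nsq h / 4 + ε') :=
          mul_le_mul_of_nonneg_left hrf (by positivity)
        have h3 : M ^ 2 * (nsq h / 4 + ε') ≤ M ^ 2 * (1 / 4 + ε') :=
          mul_le_mul_of_nonneg_left (by linarith) (by positivity)
        have h4 : c ^ 2 = M ^ 2 / 4 + M * d + d ^ 2 := by
          rw [hc]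
          ring
        have h5 : 0 ≤ M * d := by positivity
        nlinarith
      rw [inv_pow, inv_mul_le_iff₀ (by positivity)]
      linarith
    have h6 := hQg _ hgc
    rw [hL_smul _ _ _ (inv_pos.2 hc0), hL_smul _ _ _ (inv_pos.2 hc0)] at h6
    have h7 : (L x g + L y g) / 2 ≤ Q * c := by
      have h8 : c⁻¹ * ((L x g + L y g) / 2) ≤ Q := by
        calc _ = (c⁻¹ * L x g + c⁻¹ * L y g) / 2 := by ring
          _ ≤ Q := h6
      rw [inv_mul_le_iff₀ hc0] at h8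
      linarith
    have h9 : Q * d ≤ ε / 2 := by
      have h10 : Q * d ≤ |Q| * d := mul_le_mul_of_nonneg_right (le_abs_self Q) hd0.le
      have h11 : (|Q| + 1) * d = ε / 2 := by
        rw [hd]
        field_simp
      nlinarith
    -- the pairing
    set B := Br h r with hB
    set w := ⟪y, T0 (B x)⟫_ℂ with hw
    have e1 : w = (K : ℂ) * ⟪x, B x⟫_ℂ := by
      rw [hw, ← ContinuousLinearMap.adjoint_inner_left, hs2, inner_smul_left]
      simp
    have e2 : w = (K : ℂ) * ⟪y, B y⟫_ℂ := by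
      have h0 : T0 (B x) = B (T0 x) := by
        have := congrArg (fun S : H →L[ℂ] H => S x) (hcomm h r hr)
        simpa using this.symm
      rw [hw, h0, hs1, map_smul, inner_smul_right]
    have r1 : K * (⟪x, B x⟫_ℂ).re = w.re := by
      rw [e1]
      simp
    have r2 : K * (⟪y, B y⟫_ℂ).re = w.re := by
      rw [e2]
      simp
    have r3 : w.re ≤ (L x g + L y g) / 2 := (Complex.re_le_norm w).trans (hg2 x y)
    have r4 : K * (L x h / 4 - ε₁) ≤ K * (⟪x, B x⟫_ℂ).re := mul_le_mul_of_nonneg_left hrx hK0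
    have r5 : K * (L y h / 4 - ε₁) ≤ K * (⟪y, B y⟫_ℂ).re := mul_le_mul_of_nonneg_left hry hK0
    have r6 : Q * c = Q * M * (1 / 2) + Q * d := by
      rw [hc]
      ring
    nlinarith
  -- the supremum over test functions
  by_contra hcon
  have hcon := not_le.1 hcon
  have hKpos : 0 < K := lt_of_le_of_lt (by positivity) hcon
  have hsup : K * Q / 4 ≤ Q * M * (1 / 2) := by
    have hK4 : 0 < K / 4 := by positivity
    have h1 : Q ≤ (Q * M * (1 / 2)) / (K / 4) := by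
      refine csSup_le hSne ?_
      rintro t ⟨g, hg, rfl⟩
      rw [le_div_iff₀ hK4]
      have := hmain g hg
      linarith
    have h2 := (le_div_iff₀ hK4).1 h1
    linarith
  nlinarith

end Vale.Agent.Lib.P123C
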