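import Vale.Agent.Lib.P123C.Calc

/-!
# The operator `S(h) = T[h] + T[conj h]^*` and its positive density `M`

`A` is a bounded operator on a complex Hilbert space whose numerical range lies strictly inside the
curve with support function `s` (`Oper.Inside`). `T[h]` is `T`.  The inner product of Mathlib is
conjugate linear in the first variable.

Main results: `inner_S` (`S` has the density `M`), `M_re_nonneg`, `M_im`, `norm_inner_M_le`
(pointwise Cauchy-Schwarz), `norm_inner_S_le`, `S_one`, `inner_S_real`, `Lam` and its properties,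
`norm_T_le`.
-/

open Complex Set Filter Topology MeasureTheory
open scoped Real ComplexConjugate

set_option linter.unusedSectionVars false

namespace Vale.Agent.Lib.P123C.OperS

open Vale.Agent.Lib.P123C.Geom Vale.Agent.Lib.P123C.Oper Vale.Agent.Lib.P123C.Calc

noncomputable section

variable {H : Type*} [NormedAddCommGroup H] [InnerProductSpace ℂ H] [CompleteSpace H]

/-- The real functional `h ↦ ⟨S(h) u, u⟩` on real functions. -/
def Lam (s s1 R : ℝ → ℝ) (A : H →L[ℂ] H) (u : H) (h : ℝ → ℝ) : ℝ :=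
  (inner ℂ u (S s s1 R A (fun t => (h t : ℂ)) u)).re

variable {s s1 R : ℝ → ℝ} {A : H →L[ℂ] H} {η : ℝ}

/-- The coefficient `(2 π i)⁻¹ σ'`. -/
theorem coeff_dsig (t : ℝ) :
    (2 * (π : ℂ) * I)⁻¹ * sigD R t = ((R t / (2 * π) : ℝ) : ℂ) * e t := by
  have hpi : (π : ℂ) ≠ 0 := by exact_mod_cast Real.pi_ne_zero
  simp only [sigD]
  push_cast
  field_simp

/-- The scalar form of `T[h]`. -/
theorem inner_T (hA : Inside s A η) (hc : IsCrv s s1 R) {h : ℝ → ℂ} (hh' : Continuous h) (x y : H) :
    inner ℂ y (T s s1 R A h x) = ∫ t in (0 : ℝ)..(2 * π),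
      h t * (((R t / (2 * π) : ℝ) : ℂ) * (e t * inner ℂ y (Res A (sig s s1 t) x))) := by
  have hR := ins_res_sig_cont hA hc
  have hF : Continuous fun t => (h t * sigD R t) • Res A (sig s s1 t) :=
    (hh'.mul hc.dsig_cont).smul hR
  set L : (H →L[ℂ] H) →L[ℂ] ℂ := (innerSL ℂ y).comp (ContinuousLinearMap.apply ℂ H x) with hL
  have hLa : ∀ F : H →L[ℂ] H, L F = inner ℂ y (F x) := fun F => rfl
  have h1 : inner ℂ y (T s s1 R A h x) = L (T s s1 R A h) := rfl
  rw [h1, T, map_smul, ← L.intervalIntegral_comp_comm (hF.intervalIntegrable _ _), smul_eq_mul,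
    ← intervalIntegral.integral_const_mul]
  apply intervalIntegral.integral_congr
  intro t _
  have hsm : inner ℂ y (((h t * sigD R t) • Res A (sig s s1 t)) x) =
      h t * sigD R t * inner ℂ y (Res A (sig s s1 t) x) := by
    rw [smul_apply, inner_smul_right]
  beta_reduce
  rw [hLa, hsm]
  have := coeff_dsig (R := R) t
  calc (2 * (π : ℂ) * I)⁻¹ * (h t * sigD R t * inner ℂ y (Res A (sig s s1 t) x))
      = h t * (((2 * (π : ℂ) * I)⁻¹ * sigD R t) * inner ℂ y (Res A (sig s s1 t) x)) := by ring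
    _ = _ := by rw [this]; ring

/-- The scalar form of `T[conj h]^*`. -/
theorem inner_adjoint_T (hA : Inside s A η) (hc : IsCrv s s1 R) {h : ℝ → ℂ} (hh' : Continuous h)
    (x y : H) :
    inner ℂ y (ContinuousLinearMap.adjoint (T s s1 R A (fun t => conj (h t))) x) =
      ∫ t in (0 : ℝ)..(2 * π),
        h t * (((R t / (2 * π) : ℝ) : ℂ) * (conj (e t) * conj (inner ℂ x (Res A (sig s s1 t) y)))) := by
  have hh'' : Continuous fun t => conj (h t) := Complex.continuous_conj.comp hh'
  rw [ContinuousLinearMap.adjoint_inner_right, ← inner_conj_symm, inner_T hA hc hh'' y x,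
    ← intervalIntegral.intervalIntegral_conj]
  apply intervalIntegral.integral_congr
  intro t _
  simp only [map_mul, Complex.conj_conj, Complex.conj_ofReal]

/-- The scalar form of `M`. -/
theorem inner_M (x y : H) (t : ℝ) :
    inner ℂ y (M s s1 R A t x) = ((R t / (2 * π) : ℝ) : ℂ) *
      (e t * inner ℂ y (Res A (sig s s1 t) x) +
        conj (e t) * conj (inner ℂ x (Res A (sig s s1 t) y))) := by
  have h1 : inner ℂ y ((ContinuousLinearMap.adjoint (Res A (sig s s1 t))) x) =
      conj (inner ℂ x (Res A (sig s s1 t) y)) := by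
    rw [ContinuousLinearMap.adjoint_inner_right, inner_conj_symm]
  simp only [M, smul_apply, add_apply, inner_smul_right,
    inner_add_right, h1]

/-- `S` has the density `M`. -/
theorem inner_S (hA : Inside s A η) (hc : IsCrv s s1 R) {h : ℝ → ℂ} (hh' : Continuous h) (x y : H) :
    inner ℂ y (S s s1 R A h x) = ∫ t in (0 : ℝ)..(2 * π), h t * inner ℂ y (M s s1 R A t x) := by
  have hR := ins_res_sig_cont hA hc
  have hRr : Continuous fun t => ((R t / (2 * π) : ℝ) : ℂ) :=
    Complex.continuous_ofReal.comp (hc.hRc.div_const _)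
  have he : Continuous e := e_cont
  have h1 : Continuous fun t => inner ℂ y (Res A (sig s s1 t) x) :=
    continuous_const.inner (hR.clm_apply continuous_const)
  have h2 : Continuous fun t => inner ℂ x (Res A (sig s s1 t) y) :=
    continuous_const.inner (hR.clm_apply continuous_const)
  have hc1 : Continuous fun t => h t * (((R t / (2 * π) : ℝ) : ℂ) *
      (e t * inner ℂ y (Res A (sig s s1 t) x))) := hh'.mul (hRr.mul (he.mul h1))
  have hc2 : Continuous fun t => h t * (((R t / (2 * π) : ℝ) : ℂ) *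
      (conj (e t) * conj (inner ℂ x (Res A (sig s s1 t) y)))) :=
    hh'.mul (hRr.mul ((Complex.continuous_conj.comp he).mul (Complex.continuous_conj.comp h2)))
  have hS : inner ℂ y (S s s1 R A h x) = inner ℂ y (T s s1 R A h x) +
      inner ℂ y (ContinuousLinearMap.adjoint (T s s1 R A (fun t => conj (h t))) x) := by
    simp only [S, add_apply, inner_add_right]
  rw [hS, inner_T hA hc hh', inner_adjoint_T hA hc hh',
    ← intervalIntegral.integral_add (hc1.intervalIntegrable _ _) (hc2.intervalIntegrable _ _)]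
  apply intervalIntegral.integral_congr
  intro t _
  simp only [inner_M]
  ring

theorem continuous_inner_M (hA : Inside s A η) (hc : IsCrv s s1 R) (x y : H) :
    Continuous fun t => inner ℂ y (M s s1 R A t x) := by
  have hR := ins_res_sig_cont hA hc
  have hRr : Continuous fun t => ((R t / (2 * π) : ℝ) : ℂ) :=
    Complex.continuous_ofReal.comp (hc.hRc.div_const _)
  have he : Continuous e := e_cont
  have h1 : Continuous fun t => inner ℂ y (Res A (sig s s1 t) x) :=
    continuous_const.inner (hR.clm_apply continuous_const)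
  have h2 : Continuous fun t => inner ℂ x (Res A (sig s s1 t) y) :=
    continuous_const.inner (hR.clm_apply continuous_const)
  simp only [inner_M]
  exact hRr.mul ((he.mul h1).add
    ((Complex.continuous_conj.comp he).mul (Complex.continuous_conj.comp h2)))

/-- `M` is Hermitian. -/
theorem conj_inner_M (x y : H) (t : ℝ) :
    conj (inner ℂ x (M s s1 R A t y)) = inner ℂ y (M s s1 R A t x) := by
  simp only [inner_M, map_mul, map_add, Complex.conj_conj, Complex.conj_ofReal]
  ring

theorem M_im (x : H) (t : ℝ) : (inner ℂ x (M s s1 R A t x)).im = 0 := by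
  have := conj_inner_M (s := s) (s1 := s1) (R := R) (A := A) x x t
  exact Complex.conj_eq_iff_im.1 this

/-- `M` is a positive operator. -/
theorem M_re_nonneg (hA : Inside s A η) (hR0 : ∀ t, 0 ≤ R t) (x : H) (t : ℝ) :
    0 ≤ (inner ℂ x (M s s1 R A t x)).re := by
  set σ := sig s s1 t with hσ
  have hg : 0 < η - hh s t σ := by rw [hσ, hh_self]; simpa using hA.1
  set w := Res A σ x with hw
  have hxw : (σ • (1 : H →L[ℂ] H) - A) w = x := by
    have := congrArg (fun T : H →L[ℂ] H => T x) (ins_mul_res hA t hg)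
    simpa using this
  have hco := ins_coer hA t w (ζ := σ)
  rw [hxw] at hco
  have hw2 : 0 ≤ (η - hh s t σ) * ‖w‖ ^ 2 := by positivity
  have hco' : 0 ≤ (conj (e t) * inner ℂ w x).re := hw2.trans hco
  have hinner : inner ℂ x w = conj (inner ℂ w x) := (inner_conj_symm _ _).symm
  have hre : (e t * inner ℂ x w + conj (e t) * conj (inner ℂ x w)).re =
      2 * (conj (e t) * inner ℂ w x).re := by
    rw [hinner, Complex.conj_conj]
    simp only [Complex.add_re, Complex.mul_re, Complex.conj_re, Complex.conj_im]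
    ring
  rw [inner_M, ← hσ, ← hw, Complex.re_ofReal_mul, hre]
  have hRp : 0 ≤ R t / (2 * π) := div_nonneg (hR0 t) (by positivity)
  exact mul_nonneg hRp (by linarith)

/-- Pointwise Cauchy-Schwarz, arithmetic mean form. -/
theorem norm_inner_M_le (hA : Inside s A η) (hR0 : ∀ t, 0 ≤ R t) (x y : H) (t : ℝ) :
    ‖inner ℂ y (M s s1 R A t x)‖ ≤
      ((inner ℂ x (M s s1 R A t x)).re + (inner ℂ y (M s s1 R A t y)).re) / 2 := by
  set w := inner ℂ y (M s s1 R A t x) with hw
  by_cases hw0 : w = 0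
  · rw [hw0, norm_zero]
    have h1 := M_re_nonneg (s := s) (s1 := s1) hA hR0 x t
    have h2 := M_re_nonneg (s := s) (s1 := s1) hA hR0 y t
    linarith
  have hn : (‖w‖ : ℂ) ≠ 0 := by
    exact_mod_cast (norm_ne_zero_iff.2 hw0)
  set c : ℂ := w / ‖w‖ with hc
  have hcn : conj c * c = 1 := by
    rw [hc, map_div₀, Complex.conj_ofReal]
    have : conj w * w = ((‖w‖ ^ 2 : ℝ) : ℂ) := by
      rw [mul_comm, Complex.mul_conj, Complex.normSq_eq_norm_sq]
    field_simp
    rw [this]
    push_cast
    ring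
  have hcw : conj c * w = (‖w‖ : ℂ) := by
    rw [hc, map_div₀, Complex.conj_ofReal]
    have : conj w * w = ((‖w‖ ^ 2 : ℝ) : ℂ) := by
      rw [mul_comm, Complex.mul_conj, Complex.normSq_eq_norm_sq]
    field_simp
    rw [this]
    push_cast
    ring
  have hpos := M_re_nonneg (s := s) (s1 := s1) hA hR0 (x - c • y) t
  have hexp : inner ℂ (x - c • y) (M s s1 R A t (x - c • y)) =
      inner ℂ x (M s s1 R A t x) + (conj c * c) * inner ℂ y (M s s1 R A t y)
        - conj c * w - c * conj w := by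
    have h3 : inner ℂ x (M s s1 R A t y) = conj w := by
      rw [hw, conj_inner_M]
    simp only [map_sub, map_smul, inner_sub_left, inner_sub_right, inner_smul_left, inner_smul_right,
      h3, ← hw]
    ring
  rw [hexp, hcn, hcw, one_mul] at hpos
  have h4 : (c * conj w).re = ‖w‖ := by
    have : c * conj w = conj (conj c * w) := by
      simp [mul_comm]
    rw [this, hcw, Complex.conj_ofReal, Complex.ofReal_re]
  simp only [Complex.sub_re, Complex.add_re, h4, Complex.ofReal_re] at hpos
  linarith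

/-- The functional `Lam` in terms of the density. -/
theorem Lam_eq (hA : Inside s A η) (hc : IsCrv s s1 R) {h : ℝ → ℝ} (hh' : Continuous h) (u : H) :
    Lam s s1 R A u h = ∫ t in (0 : ℝ)..(2 * π), h t * (inner ℂ u (M s s1 R A t u)).re := by
  have hhc : Continuous fun t => (h t : ℂ) := Complex.continuous_ofReal.comp hh'
  have hF : Continuous fun t => (h t : ℂ) * inner ℂ u (M s s1 R A t u) :=
    hhc.mul (continuous_inner_M hA hc u u)
  have h1 := Complex.reCLM.intervalIntegral_comp_comm (hF.intervalIntegrable (μ := volume) 0 (2 * π))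
  simp only [Complex.reCLM_apply] at h1
  rw [Lam, inner_S hA hc hhc, ← h1]
  apply intervalIntegral.integral_congr
  intro t _
  simp only [Complex.re_ofReal_mul]

theorem continuous_M_re (hA : Inside s A η) (hc : IsCrv s s1 R) (u : H) :
    Continuous fun t => (inner ℂ u (M s s1 R A t u)).re :=
  Complex.continuous_re.comp (continuous_inner_M hA hc u u)

theorem Lam_nonneg (hA : Inside s A η) (hc : IsCrv s s1 R) (hR0 : ∀ t, 0 ≤ R t) {h : ℝ → ℝ}
    (hh' : Continuous h) (h0 : ∀ t, 0 ≤ h t) (u : H) : 0 ≤ Lam s s1 R A u h := by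
  rw [Lam_eq hA hc hh']
  apply intervalIntegral.integral_nonneg (by positivity)
  intro t _
  exact mul_nonneg (h0 t) (M_re_nonneg hA hR0 u t)

theorem Lam_add (hA : Inside s A η) (hc : IsCrv s s1 R) {h k : ℝ → ℝ} (hh' : Continuous h)
    (hk : Continuous k) (u : H) :
    Lam s s1 R A u (fun t => h t + k t) = Lam s s1 R A u h + Lam s s1 R A u k := by
  have hi1 : Continuous fun t => h t * (inner ℂ u (M s s1 R A t u)).re :=
    hh'.mul (continuous_M_re hA hc u)
  have hi2 : Continuous fun t => k t * (inner ℂ u (M s s1 R A t u)).re :=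
    hk.mul (continuous_M_re hA hc u)
  rw [Lam_eq hA hc hh', Lam_eq hA hc hk, Lam_eq hA hc (h := fun t => h t + k t) (hh'.add hk),
    ← intervalIntegral.integral_add (hi1.intervalIntegrable _ _) (hi2.intervalIntegrable _ _)]
  apply intervalIntegral.integral_congr
  intro t _
  ring

theorem Lam_smul (hA : Inside s A η) (hc : IsCrv s s1 R) {h : ℝ → ℝ} (hh' : Continuous h)
    (c : ℝ) (u : H) : Lam s s1 R A u (fun t => c * h t) = c * Lam s s1 R A u h := by
  rw [Lam_eq hA hc hh', Lam_eq hA hc (h := fun t => c * h t) (continuous_const.mul hh'),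
    ← intervalIntegral.integral_const_mul]
  apply intervalIntegral.integral_congr
  intro t _
  ring

/-- `S(h)` for real `h` is twice the real part of `T[h]`. -/
theorem Lam_eq_two_re (h : ℝ → ℝ) (u : H) :
    Lam s s1 R A u h = 2 * (inner ℂ u (T s s1 R A (fun t => (h t : ℂ)) u)).re := by
  have h1 : (fun t => conj ((h t : ℂ))) = fun t => (h t : ℂ) := by
    funext t; exact Complex.conj_ofReal _
  have h2 : inner ℂ u (ContinuousLinearMap.adjoint (T s s1 R A (fun t => (h t : ℂ))) u) =
      conj (inner ℂ u (T s s1 R A (fun t => (h t : ℂ)) u)) := by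
    rw [ContinuousLinearMap.adjoint_inner_right, inner_conj_symm]
  simp only [Lam, S, h1, add_apply, inner_add_right, Complex.add_re, h2, Complex.conj_re]
  ring

/-- `S(1) = 2`. -/
theorem S_one (hA : Inside s A η) (hc : IsCrv s s1 R) :
    S s s1 R A (fun _ => (1 : ℂ)) = (2 : ℂ) • (1 : H →L[ℂ] H) := by
  have h1 : (fun _ : ℝ => conj (1 : ℂ)) = fun _ => (1 : ℂ) := by
    funext t; simp
  simp only [S, h1, ins_T_one hA hc, two_smul]
  congr 1
  exact star_one _

theorem Lam_one (hA : Inside s A η) (hc : IsCrv s s1 R) (u : H) :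
    Lam s s1 R A u (fun _ => 1) = 2 * ‖u‖ ^ 2 := by
  have h1 : (fun t : ℝ => (((fun _ : ℝ => (1 : ℝ)) t : ℝ) : ℂ)) = fun _ => (1 : ℂ) := by
    funext t; simp
  have h2 : inner ℂ u u = ((‖u‖ ^ 2 : ℝ) : ℂ) := by
    rw [inner_self_eq_norm_sq_to_K]; simp
  have h3 : S s s1 R A (fun t : ℝ => (((fun _ : ℝ => (1 : ℝ)) t : ℝ) : ℂ)) =
      (2 : ℂ) • (1 : H →L[ℂ] H) := by
    rw [h1]; exact S_one hA hc
  unfold Lam
  have h4 : ((2 : ℂ) • (1 : H →L[ℂ] H)) u = (2 : ℂ) • u := rfl
  rw [h3, h4, inner_smul_right, h2]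
  rw [show ((2 : ℂ)) = ((2 : ℝ) : ℂ) by norm_num, ← Complex.ofReal_mul, Complex.ofReal_re]

/-- **The Cauchy-Schwarz bound for `S`.** -/
theorem norm_inner_S_le (hA : Inside s A η) (hc : IsCrv s s1 R) (hR0 : ∀ t, 0 ≤ R t) {ψ : ℝ → ℂ}
    (hψ : Continuous ψ) (x y : H) :
    ‖inner ℂ y (S s s1 R A ψ x)‖ ≤
      (Lam s s1 R A x (fun t => ‖ψ t‖) + Lam s s1 R A y (fun t => ‖ψ t‖)) / 2 := by
  have hn : Continuous fun t => ‖ψ t‖ := hψ.norm
  have hmx := continuous_M_re hA hc x
  have hmy := continuous_M_re hA hc y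
  have hm := continuous_inner_M hA hc x y
  have hi1 : Continuous fun t => ‖ψ t‖ * (inner ℂ x (M s s1 R A t x)).re := hn.mul hmx
  have hi2 : Continuous fun t => ‖ψ t‖ * (inner ℂ y (M s s1 R A t y)).re := hn.mul hmy
  rw [inner_S hA hc hψ, Lam_eq hA hc hn, Lam_eq hA hc hn,
    ← intervalIntegral.integral_add (hi1.intervalIntegrable _ _)
      (hi2.intervalIntegrable _ _), ← intervalIntegral.integral_div]
  refine (intervalIntegral.norm_integral_le_integral_norm (by positivity)).trans ?_
  apply intervalIntegral.integral_mono_on (by positivity)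
  · have h5 : Continuous fun t => ‖ψ t * inner ℂ y (M s s1 R A t x)‖ := (hψ.mul hm).norm
    exact h5.intervalIntegrable _ _
  · have h6 : Continuous fun t => (‖ψ t‖ * (inner ℂ x (M s s1 R A t x)).re +
        ‖ψ t‖ * (inner ℂ y (M s s1 R A t y)).re) / 2 := (hi1.add hi2).div_const 2
    exact h6.intervalIntegrable _ _
  · intro t _
    rw [norm_mul]
    have := norm_inner_M_le (s1 := s1) hA hR0 x y t
    calc ‖ψ t‖ * ‖inner ℂ y (M s s1 R A t x)‖
        ≤ ‖ψ t‖ * (((inner ℂ x (M s s1 R A t x)).re + (inner ℂ y (M s s1 R A t y)).re) / 2) :=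
          mul_le_mul_of_nonneg_left this (norm_nonneg _)
      _ = _ := by ring

/-- The `L¹` bound for `T`. -/
theorem norm_T_le (hA : Inside s A η) (hc : IsCrv s s1 R) (hR0 : ∀ t, 0 ≤ R t) {rmax : ℝ}
    (hmax : ∀ t, R t ≤ rmax) {h : ℝ → ℂ} (hh' : Continuous h) :
    ‖T s s1 R A h‖ ≤ (rmax / (2 * π * η)) * ∫ t in (0 : ℝ)..(2 * π), ‖h t‖ := by
  have hη := hA.1
  have hpi := Real.pi_pos
  have hrmax : 0 ≤ rmax := (hR0 0).trans (hmax 0)
  have hRes := ins_res_sig_cont hA hc
  have hnorm : ∀ t, ‖(h t * sigD R t) • Res A (sig s s1 t)‖ ≤ ‖h t‖ * (rmax / η) := by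
    intro t
    have hg : 0 < η - hh s t (sig s s1 t) := by rw [hh_self]; simpa using hη
    have h1 := ins_res_norm hA t hg
    rw [hh_self, sub_zero] at h1
    have h2 : ‖sigD R t‖ ≤ rmax := by
      simp only [sigD, norm_mul, Complex.norm_I, one_mul, norm_e, mul_one, Complex.norm_real,
        Real.norm_eq_abs, abs_of_nonneg (hR0 t)]
      exact hmax t
    rw [norm_smul, norm_mul, mul_assoc]
    apply mul_le_mul_of_nonneg_left _ (norm_nonneg _)
    calc ‖sigD R t‖ * ‖Res A (sig s s1 t)‖ ≤ rmax * (1 / η) :=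
          mul_le_mul h2 h1 (norm_nonneg _) hrmax
      _ = rmax / η := by ring
  have hcF : Continuous fun t => (h t * sigD R t) • Res A (sig s s1 t) :=
    (hh'.mul hc.dsig_cont).smul hRes
  have hI : ‖∫ t in (0 : ℝ)..(2 * π), (h t * sigD R t) • Res A (sig s s1 t)‖ ≤
      ∫ t in (0 : ℝ)..(2 * π), ‖h t‖ * (rmax / η) := by
    refine (intervalIntegral.norm_integral_le_integral_norm (by positivity)).trans ?_
    apply intervalIntegral.integral_mono_on (by positivity) (hcF.norm.intervalIntegrable _ _)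
      ((hh'.norm.mul continuous_const).intervalIntegrable _ _)
    intro t _
    exact hnorm t
  rw [intervalIntegral.integral_mul_const] at hI
  have hc0 : ‖(2 * (π : ℂ) * I)⁻¹‖ = 1 / (2 * π) := by
    rw [norm_inv, norm_mul, norm_mul, Complex.norm_I, Complex.norm_real, Real.norm_eq_abs,
      abs_of_pos hpi, one_div]
    simp
  rw [T, norm_smul, hc0]
  calc 1 / (2 * π) * ‖∫ t in (0 : ℝ)..(2 * π), (h t * sigD R t) • Res A (sig s s1 t)‖
      ≤ 1 / (2 * π) * ((∫ t in (0 : ℝ)..(2 * π), ‖h t‖) * (rmax / η)) :=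
        mul_le_mul_of_nonneg_left hI (by positivity)
    _ = _ := by field_simp

/-- The bound for `Lam` from the `L¹` norm. -/
theorem Lam_le (hA : Inside s A η) (hc : IsCrv s s1 R) (hR0 : ∀ t, 0 ≤ R t) {rmax : ℝ}
    (hmax : ∀ t, R t ≤ rmax) {h : ℝ → ℝ} (hh' : Continuous h) (u : H) :
    Lam s s1 R A u h ≤ 2 * ((rmax / (2 * π * η)) * ∫ t in (0 : ℝ)..(2 * π), |h t|) * ‖u‖ ^ 2 := by
  have hhc : Continuous fun t => (h t : ℂ) := Complex.continuous_ofReal.comp hh'
  have h1 := norm_T_le hA hc hR0 hmax hhc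
  simp only [Complex.norm_real, Real.norm_eq_abs] at h1
  rw [Lam_eq_two_re]
  have h2 : (inner ℂ u (T s s1 R A (fun t => (h t : ℂ)) u)).re ≤
      ‖T s s1 R A (fun t => (h t : ℂ))‖ * ‖u‖ ^ 2 := by
    calc (inner ℂ u (T s s1 R A (fun t => (h t : ℂ)) u)).re
        ≤ ‖inner ℂ u (T s s1 R A (fun t => (h t : ℂ)) u)‖ := Complex.re_le_norm _
      _ ≤ ‖u‖ * ‖T s s1 R A (fun t => (h t : ℂ)) u‖ := norm_inner_le_norm _ _
      _ ≤ ‖u‖ * (‖T s s1 R A (fun t => (h t : ℂ))‖ * ‖u‖) :=
          mul_le_mul_of_nonneg_left (ContinuousLinearMap.le_opNorm _ _) (norm_nonneg _)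
      _ = _ := by ring
  have h3 := mul_le_mul_of_nonneg_right h1 (sq_nonneg ‖u‖)
  nlinarith

end

end Vale.Agent.Lib.P123C.OperS
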