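import Vale.Agent.Lib.P123C.Assemble
import Vale.Agent.Lib.P123C.CalcS
import Vale.Agent.Lib.P123C.OperS
import Vale.Agent.Lib.P123C.KeyExact
import Vale.Agent.Lib.P123C.ReduceFinal

/-!
# The curve level theorem: instantiation of `main_exact`.

Test functions: real periodic elements of `B`.
-/

open Complex Set Filter Topology MeasureTheory
open scoped Real ComplexConjugate BoundedContinuousFunction Interval InnerProductSpace

namespace Vale.Agent.Lib.P123C.CrvData

open Vale.Agent.Lib.P123C.Geom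
open Vale.Agent.Lib.P123C.Doeblin (B Pos)
open Vale.Agent.Lib.P123C.Facts (Per Q)

noncomputable section

universe u

/-- Test functions: real periodic elements of `B`. -/
structure TestFn where
  f : B
  per : Per f
  real : star f = f

instance : SMul ℝ TestFn where
  smul a g := ⟨(a : ℂ) • g.f, by
    intro t
    simp only [BoundedContinuousFunction.coe_smul, smul_eq_mul]
    rw [g.per t], by
    rw [star_smul, g.real, Complex.star_def, Complex.conj_ofReal]⟩

theorem TestFn.smul_f (a : ℝ) (g : TestFn) : (a • g).f = (a : ℂ) • g.f := rfl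

theorem TestFn.re_eq (g : TestFn) (t : ℝ) : ((g.f t).re : ℂ) = g.f t := by
  have h := congrArg (fun u : B => u t) g.real
  simp only [BoundedContinuousFunction.star_apply, Complex.star_def] at h
  have := Complex.conj_eq_iff_real.mp h
  obtain ⟨x, hx⟩ := this
  rw [hx]
  simp

namespace Crv

variable (c : Crv)

variable {H : Type*} [NormedAddCommGroup H] [InnerProductSpace ℂ H] [CompleteSpace H]

/-- `λ(g²)`. -/
def nsq (g : TestFn) : ℝ := Q c.lam g.f

/-- `⟨S(g) u, u⟩`. -/
def LL (A : H →L[ℂ] H) (u : H) (g : TestFn) : ℝ :=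
  OperS.Lam c.s c.s1 c.R A u (fun t => (g.f t).re)

/-- The operator `T[β_r]`. -/
def BB (A : H →L[ℂ] H) (g : TestFn) (r : ℝ) : H →L[ℂ] H := Calc.Brr c.s c.s1 c.R A g.f r

/-- `λ |β_r|²`. -/
def gsq (g : TestFn) (r : ℝ) : ℝ := Q c.lam (c.G r g.f) / 4

/-- The test function `|ψ|`. -/
def absT (ψ : B) (hψ : Per ψ) : TestFn where
  f := BoundedContinuousFunction.ofNormedAddCommGroup (fun t => ((‖ψ t‖ : ℝ) : ℂ))
    (Complex.continuous_ofReal.comp ψ.continuous.norm) ‖ψ‖ (fun t => by
      rw [Complex.norm_real, norm_norm]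
      exact ψ.norm_coe_le_norm t)
  per := fun t => by
    simp only [BoundedContinuousFunction.coe_ofNormedAddCommGroup]
    rw [hψ t]
  real := by
    ext t
    simp

@[simp] theorem absT_apply (ψ : B) (hψ : Per ψ) (t : ℝ) :
    (absT ψ hψ).f t = ((‖ψ t‖ : ℝ) : ℂ) := rfl

theorem star_absT (ψ : B) (hψ : Per ψ) : star (absT ψ hψ).f * (absT ψ hψ).f = star ψ * ψ := by
  ext t
  simp only [BoundedContinuousFunction.coe_mul, Pi.mul_apply, BoundedContinuousFunction.star_apply,
    absT_apply, Complex.star_def, Complex.conj_ofReal]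
  rw [Complex.conj_mul', sq]

theorem Q_smul (a : ℝ) (f : B) : Q c.lam ((a : ℂ) • f) = a ^ 2 * Q c.lam f := by
  unfold Q
  have e : star ((a : ℂ) • f) * ((a : ℂ) • f) = (((a ^ 2 : ℝ) : ℂ)) • (star f * f) := by
    rw [star_smul, Complex.star_def, Complex.conj_ofReal]
    ext t
    simp only [BoundedContinuousFunction.coe_mul, Pi.mul_apply, BoundedContinuousFunction.coe_smul,
      smul_eq_mul]
    push_cast
    ring
  rw [e, map_smul, smul_eq_mul, Complex.re_ofReal_mul]

theorem nsq_smul (a : ℝ) (g : TestFn) : c.nsq (a • g) = a ^ 2 * c.nsq g := c.Q_smul a g.f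

/-- The test function one. -/
def oneT : TestFn where
  f := 1
  per := fun t => by simp
  real := star_one _

theorem nsq_one : c.nsq oneT = 1 := by
  unfold nsq Q
  have : star (oneT.f) * oneT.f = (1 : B) := by
    simp [oneT]
  rw [this, c.state.one]
  simp

variable {A : H →L[ℂ] H} {η : ℝ}

theorem re_smul (a : ℝ) (g : TestFn) : (fun t => ((a • g).f t).re) = fun t => a * (g.f t).re := by
  funext t
  rw [TestFn.smul_f]
  simp

theorem continuous_re (g : TestFn) : Continuous fun t => (g.f t).re :=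
  Complex.continuous_re.comp g.f.continuous

theorem LL_smul (hA : Oper.Inside c.s A η) (a : ℝ) (g : TestFn) (u : H) :
    c.LL A u (a • g) = a * c.LL A u g := by
  unfold LL
  rw [re_smul]
  exact OperS.Lam_smul hA c.isCrv (continuous_re g) a u

theorem LL_one (hA : Oper.Inside c.s A η) (u : H) (hu : ‖u‖ = 1) : c.LL A u oneT = 2 := by
  unfold LL
  have e : (fun t => (oneT.f t).re) = fun _ => (1 : ℝ) := by
    funext t
    simp [oneT]
  rw [e, OperS.Lam_one hA c.isCrv, hu]
  norm_num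

/-- `∫ |h| ≤ 1 / c₁` for `λ(h²) ≤ 1`. -/
theorem integral_abs_le {h : TestFn} (hh : c.nsq h ≤ 1) :
    ∫ t in (0 : ℝ)..(2 * π), |(h.f t).re| ≤ 1 / c.c1 := by
  set g := absT h.f h.per with hg
  have hgpos : Pos g.f := fun t => by
    rw [hg, absT_apply]
    simp
  have h1 := c.lam_ge hgpos
  have e1 : ∀ t, (g.f t).re = |(h.f t).re| := by
    intro t
    rw [hg, absT_apply, Complex.ofReal_re]
    have := TestFn.re_eq h t
    rw [← this, Complex.norm_real, Real.norm_eq_abs]
    simp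
  simp only [e1] at h1
  -- the mean of `|h|`
  set v : B := ((1 / 2 : ℝ) : ℂ) • (1 + star h.f * h.f) with hv
  have hle : (c.data.lam g.f).re ≤ (c.data.lam v).re := by
    apply c.data.lam_mono
    intro t
    have e2 : (star h.f * h.f) t = ((‖h.f t‖ ^ 2 : ℝ) : ℂ) := by
      simp only [BoundedContinuousFunction.coe_mul, Pi.mul_apply,
        BoundedContinuousFunction.star_apply, Complex.star_def]
      rw [Complex.conj_mul']
      push_cast
      rfl
    have e3 : (v - g.f) t = (((1 / 2) * (1 + ‖h.f t‖ ^ 2) - ‖h.f t‖ : ℝ) : ℂ) := by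
      simp only [hv, BoundedContinuousFunction.coe_sub, Pi.sub_apply,
        BoundedContinuousFunction.coe_smul, smul_eq_mul, BoundedContinuousFunction.coe_add,
        Pi.add_apply, BoundedContinuousFunction.coe_one, Pi.one_apply, e2, hg, absT_apply]
      push_cast
      ring
    rw [e3]
    simp only [Complex.ofReal_im, Complex.ofReal_re, true_and]
    nlinarith [sq_nonneg (‖h.f t‖ - 1)]
  have hv1 : (c.data.lam v).re = (1 / 2) * (1 + c.nsq h) := by
    rw [hv, map_smul, map_add, smul_eq_mul, Complex.re_ofReal_mul, Complex.add_re]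
    have : c.data.lam 1 = 1 := c.data.lam_one
    rw [this]
    simp [nsq, Q, lam]
  have hc1 := c.c1_pos
  rw [le_div_iff₀ hc1]
  have : c.c1 * ∫ t in (0 : ℝ)..(2 * π), |(h.f t).re| ≤ 1 := by
    refine h1.trans (hle.trans ?_)
    rw [hv1]
    linarith
  linarith

theorem LL_bound (hA : Oper.Inside c.s A η) {u : H} (hu : ‖u‖ = 1) {h : TestFn} (hh : c.nsq h ≤ 1) :
    c.LL A u h ≤ 2 * ((c.rmax / (2 * π * η)) * (1 / c.c1)) := by
  have h1 := OperS.Lam_le hA c.isCrv c.R_nonneg c.hmax (continuous_re h) u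
  rw [hu] at h1
  unfold LL
  refine h1.trans ?_
  have h2 := c.integral_abs_le hh
  have hη := hA.1
  have hr := c.rmax_pos
  have hpos : 0 ≤ c.rmax / (2 * π * η) := by positivity
  have := mul_le_mul_of_nonneg_left h2 hpos
  nlinarith

variable (p : Polynomial ℂ)

theorem bb_comm (hs0 : ∀ t, 0 < c.s t) (hA : Oper.Inside c.s A η) (h : TestFn) {r : ℝ} (hr : 1 < r) :
    c.BB A h r * Polynomial.aeval A p = Polynomial.aeval A p * c.BB A h r :=
  Calc.Brr_comm hA c.isCrv c.R_nonneg hs0 h.f.continuous hr p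

theorem real_fun (h : TestFn) : (fun t => (((h.f t).re : ℝ) : ℂ)) = (h.f : ℝ → ℂ) := by
  funext t
  exact TestFn.re_eq h t

theorem bb_lim (hs0 : ∀ t, 0 < c.s t) (hA : Oper.Inside c.s A η) (h : TestFn) (u : H) :
    Tendsto (fun r => (⟪u, c.BB A h r u⟫_ℂ).re) (𝓝[>] 1) (𝓝 (c.LL A u h / 4)) := by
  obtain ⟨smin, h0, hs⟩ := c.exists_smin hs0
  have h1 := Calc.Brr_inner_tendsto (c.curveBd h0 hs) hA h.f.continuous h.per u u
  have h2 := (Complex.continuous_re.tendsto _).comp h1
  have e : ((1 / 2 : ℂ) * inner ℂ u (Oper.T c.s c.s1 c.R A h.f u)).re = c.LL A u h / 4 := by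
    unfold LL
    rw [OperS.Lam_eq_two_re, real_fun]
    have : (1 / 2 : ℂ) = ((1 / 2 : ℝ) : ℂ) := by push_cast; rfl
    rw [this, Complex.re_ofReal_mul]
    ring
  rw [e] at h2
  exact h2

theorem fact2' (hs0 : ∀ t, 0 < c.s t) (h : TestFn) {ε : ℝ} (hε : 0 < ε) :
    ∀ᶠ r in 𝓝[>] (1 : ℝ), c.gsq h r ≤ c.nsq h / 4 + ε := by
  have hNs : star (c.NL h.f) = c.NL h.f := by
    have := c.data.N_star h.f
    rw [h.real] at this
    exact this.symm
  have hJ : Q c.lam (c.NL h.f) ≤ Q c.lam h.f := c.data.lam_jensen h.f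
  have h1 := Facts.fact2_concrete (c.factHyps hs0) h.per h.real hJ hNs
    (show 0 < 4 * ε by positivity)
  filter_upwards [h1] with r hr
  unfold gsq nsq
  linarith

/-- The main domination. -/
theorem dom_core (hs0 : ∀ t, 0 < c.s t) (hA : Oper.Inside c.s A η) {M : ℝ} (hM : 0 ≤ M)
    (hpM : ∀ t, ‖p.eval (c.sg t)‖ ≤ M) (h : TestFn) {r : ℝ} (hr : 1 < r) :
    ∃ g : TestFn, c.nsq g ≤ M ^ 2 * c.gsq h r ∧ ∀ x y : H,
      ‖⟪y, Polynomial.aeval A p (c.BB A h r x)⟫_ℂ‖ ≤ (c.LL A x g + c.LL A y g) / 2 := by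
  have hr0 : 0 < r := by linarith
  have hrc : (r : ℂ) ≠ 0 := by exact_mod_cast hr0.ne'
  set s := c.s
  set s1 := c.s1
  set R := c.R
  -- the function on the curve
  set αc : ℝ → ℂ := Calc.alphar s s1 R p h.f r with hαc
  have hαcont : Continuous αc := Calc.alphar_cont c.isCrv c.R_nonneg hs0 p h.f.continuous hr
  have hαper : Function.Periodic αc (2 * π) := by
    intro t
    simp only [hαc, Calc.alphar, Calc.Gq]
    have : sig s s1 (t + 2 * π) = sig s s1 t := c.sg_periodic t
    rw [this]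
  set αb : B := mkB αc with hαb
  have hαb_apply : ∀ t, αb t = αc t := mkB_apply hαcont hαper
  -- the function inside
  set αf : ℂ → ℂ := fun z => (1 / 2 : ℂ) * (p.eval z * Calc.Cc s s1 R h.f ((r⁻¹ : ℝ) * z)) with hαf
  have hmaps : ∀ z ∈ closure c.Ins, ((r⁻¹ : ℝ) : ℂ) * z ∈ c.Ins := by
    intro z hz
    have := c.hdil hs0 r hr z hz
    rw [div_eq_inv_mul] at this
    rwa [Complex.ofReal_inv]
  have hCd : DifferentiableOn ℂ (Calc.Cc s s1 R h.f) c.Ins := c.differentiableOn_CC h.f
  have hαd : DifferentiableOn ℂ αf c.Ins := by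
    have h1 : DifferentiableOn ℂ (fun z : ℂ => Calc.Cc s s1 R h.f (((r⁻¹ : ℝ) : ℂ) * z)) c.Ins :=
      hCd.comp (differentiableOn_id.const_mul _) (fun z hz => hmaps z (subset_closure hz))
    exact ((p.differentiable.differentiableOn).mul h1).const_mul _
  have hαcl : ContinuousOn αf (closure c.Ins) := by
    have h1 : ContinuousOn (fun z : ℂ => Calc.Cc s s1 R h.f (((r⁻¹ : ℝ) : ℂ) * z)) (closure c.Ins) :=
      hCd.continuousOn.comp (continuous_const.mul continuous_id).continuousOn hmaps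
    exact continuousOn_const.mul ((p.continuous.continuousOn).mul h1)
  have hαb_eq : ∀ t, αb t = αf (c.sg t) := by
    intro t
    rw [hαb_apply]
    rfl
  have hαbper : Per αb := by
    intro t
    rw [hαb_apply, hαb_apply, hαper t]
  -- the solution of the Neumann equation
  obtain ⟨ψ, hψ⟩ : ∃ ψ : B, ψ + c.NL ψ = αb :=
    Facts.exists_solve (N := c.NL) (N1 := c.N1L) (a := c.aL) (fun h => c.data.hN h)
      (c.norm_N1L_le.trans_lt c.κ_lt) c.NL_one αb
  obtain ⟨κ, hψper, hψ1, hψ2, hQ⟩ :=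
    Facts.fact3 (c.factHyps hs0) hαd hαcl hαb_eq hαbper hψ
  -- the operator identity
  have hS : Oper.S s s1 R A ψ = Oper.T s s1 R A αc := by
    refine Calc.S_eq_T_of_Cc hA c.isCrv ψ.continuous hαcont (c := κ) ?_ ?_
    · intro z hz
      have h1 := hψ1 z hz
      have h2 := Calc.Cc_alphar c.isCrv c.R_nonneg hs0 h.f.continuous hr p hz
      have h3 : Calc.Cc s s1 R ψ z = αf z - conj κ := h1
      rw [h3]
      rw [hαc, h2]
    · intro z hz
      exact hψ2 z hz
  have hT : Polynomial.aeval A p * c.BB A h r = Oper.S s s1 R A ψ := by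
    rw [hS]
    exact Calc.aeval_mul_Brr hA c.isCrv c.R_nonneg hs0 h.f.continuous hr p
  refine ⟨absT ψ hψper, ?_, ?_⟩
  · -- the norm of `|ψ|`
    have e1 : c.nsq (absT ψ hψper) = Q c.lam ψ := by
      unfold nsq Q
      rw [star_absT]
    rw [e1]
    refine hQ.trans ?_
    set G := c.G r h.f with hG
    have hGt : ∀ t, G t = Calc.Gq s s1 R h.f r⁻¹ t := by
      intro t
      rw [hG, c.G_apply hs0 hr]
      simp only [CC, Calc.Gq]
      congr 1
      rw [div_eq_inv_mul, Complex.ofReal_inv]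
      rfl
    have hle : (c.data.lam (star αb * αb)).re
        ≤ (c.data.lam (((M ^ 2 / 4 : ℝ) : ℂ) • (star G * G))).re := by
      apply c.data.lam_mono
      intro t
      have e2 : (star G * G) t = ((‖G t‖ ^ 2 : ℝ) : ℂ) := by
        simp only [BoundedContinuousFunction.coe_mul, Pi.mul_apply,
          BoundedContinuousFunction.star_apply, Complex.star_def]
        rw [Complex.conj_mul']
        push_cast
        rfl
      have e3 : (star αb * αb) t = ((‖αb t‖ ^ 2 : ℝ) : ℂ) := by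
        simp only [BoundedContinuousFunction.coe_mul, Pi.mul_apply,
          BoundedContinuousFunction.star_apply, Complex.star_def]
        rw [Complex.conj_mul']
        push_cast
        rfl
      have e4 : ((((M ^ 2 / 4 : ℝ) : ℂ)) • (star G * G) - star αb * αb) t
          = (((M ^ 2 / 4) * ‖G t‖ ^ 2 - ‖αb t‖ ^ 2 : ℝ) : ℂ) := by
        simp only [BoundedContinuousFunction.coe_sub, Pi.sub_apply,
          BoundedContinuousFunction.coe_smul, smul_eq_mul, e2, e3]
        push_cast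
        ring
      rw [e4]
      simp only [Complex.ofReal_im, Complex.ofReal_re, true_and]
      have e5 : ‖αb t‖ = (1 / 2) * (‖p.eval (c.sg t)‖ * ‖G t‖) := by
        rw [hαb_apply, hαc, hGt]
        have h12 : ‖(1 / 2 : ℂ)‖ = 1 / 2 := by norm_num
        simp only [Calc.alphar, norm_mul, h12]
        rfl
      rw [e5]
      have h5 := hpM t
      have h6 : ‖p.eval (c.sg t)‖ * ‖G t‖ ≤ M * ‖G t‖ :=
        mul_le_mul_of_nonneg_right h5 (norm_nonneg _)
      have h7 : 0 ≤ ‖p.eval (c.sg t)‖ * ‖G t‖ := by positivity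
      have h8 : (‖p.eval (c.sg t)‖ * ‖G t‖) ^ 2 ≤ (M * ‖G t‖) ^ 2 := pow_le_pow_left₀ h7 h6 2
      nlinarith
    have e6 : (c.data.lam (((M ^ 2 / 4 : ℝ) : ℂ) • (star G * G))).re = M ^ 2 * c.gsq h r := by
      rw [map_smul, smul_eq_mul, Complex.re_ofReal_mul]
      unfold gsq Q
      simp only [lam]
      ring
    rw [← e6]
    exact hle
  · intro x y
    have e1 : Polynomial.aeval A p (c.BB A h r x) = Oper.S s s1 R A ψ x := by
      rw [← hT]
      rfl
    rw [e1]
    have h1 := OperS.norm_inner_S_le hA c.isCrv c.R_nonneg ψ.continuous x y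
    have e2 : (fun t => ((absT ψ hψper).f t).re) = fun t => ‖ψ t‖ := by
      funext t
      rw [absT_apply, Complex.ofReal_re]
    unfold LL
    rw [e2]
    exact h1

/-- **The inequality on the curve.** -/
theorem curve_main (hs0 : ∀ t, 0 < c.s t) (hA : Oper.Inside c.s A η) {M : ℝ} (hM : 0 ≤ M)
    (hpM : ∀ t, ‖p.eval (c.sg t)‖ ≤ M) {x y : H} (hx : ‖x‖ = 1) (hy : ‖y‖ = 1)
    (h1 : Polynomial.aeval A p x = ((‖Polynomial.aeval A p‖ : ℝ) : ℂ) • y)
    (h2 : ContinuousLinearMap.adjoint (Polynomial.aeval A p) y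
      = ((‖Polynomial.aeval A p‖ : ℝ) : ℂ) • x) :
    ‖Polynomial.aeval A p‖ ≤ 2 * M := by
  refine main_exact (Polynomial.aeval A p) (Test := TestFn) c.nsq (c.LL A)
    (fun a g _ => c.nsq_smul a g) (fun a g u _ => c.LL_smul hA a g u) oneT
    (le_of_eq c.nsq_one) (fun u hu => c.LL_one hA u hu) hM
    (Cbd := 2 * ((c.rmax / (2 * π * η)) * (1 / c.c1)))
    (fun u hu h hh => c.LL_bound hA hu hh) (c.BB A) c.gsq
    (fun h r hr => c.bb_comm p hs0 hA h hr) (fun h u => c.bb_lim hs0 hA h u)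
    (fun h r hr => c.dom_core p hs0 hA hM hpM h hr) (fun h ε hε => c.fact2' hs0 h hε) hx hy h1 h2

end Crv

/-- The support form. -/
theorem dot_eq_re (t : ℝ) (z : ℂ) : ReduceFinal.dot t z = (conj (e t) * z).re := by
  rw [← Crv.lin_eq_re]
  rfl

/-- **The curve theorem.** -/
theorem curveThm : ReduceFinal.CurveThm.{u} := by
  intro H _ _ _ _ _ A s hcurve hs0 ⟨δ, hδ, hmargin⟩ p M hpM
  set c := ofSupport s hcurve.smooth hcurve.per hcurve.R_pos with hc
  have hcs : c.s = s := rfl
  have hA : Oper.Inside c.s A δ := by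
    refine ⟨hδ, fun t x => ?_⟩
    by_cases hx : x = 0
    · simp [hx]
    have hxn : ‖x‖ ≠ 0 := norm_ne_zero_iff.2 hx
    have hxc : ((‖x‖ : ℝ) : ℂ) ≠ 0 := by exact_mod_cast hxn
    set u : H := ((‖x‖ : ℝ) : ℂ)⁻¹ • x with hu
    have hun : ‖u‖ = 1 := by
      rw [hu, norm_smul, norm_inv, Complex.norm_real, norm_norm]
      exact inv_mul_cancel₀ hxn
    have h1 := hmargin u hun t
    rw [dot_eq_re] at h1
    have hxu : x = ((‖x‖ : ℝ) : ℂ) • u := by
      rw [hu, smul_smul, mul_inv_cancel₀ hxc, one_smul]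
    have e1 : inner ℂ x (A x) = ((‖x‖ ^ 2 : ℝ) : ℂ) * inner ℂ u (A u) := by
      conv_lhs => rw [hxu]
      rw [map_smul, inner_smul_left, inner_smul_right, Complex.conj_ofReal]
      push_cast
      ring
    have e2 : (conj (e t) * inner ℂ x (A x)).re = ‖x‖ ^ 2 * (conj (e t) * inner ℂ u (A u)).re := by
      rw [e1]
      have : conj (e t) * (((‖x‖ ^ 2 : ℝ) : ℂ) * inner ℂ u (A u))
          = ((‖x‖ ^ 2 : ℝ) : ℂ) * (conj (e t) * inner ℂ u (A u)) := by ring
      rw [this, Complex.re_ofReal_mul]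
    rw [e2]
    have h2 : (conj (e t) * inner ℂ u (A u)).re ≤ c.s t - δ := by
      have : c.s t = s t := rfl
      rw [this]
      have h3 : (conj (e t) * inner ℂ u (A u)).re + δ ≤ s t := h1
      linarith
    have h3 : 0 ≤ ‖x‖ ^ 2 := by positivity
    calc ‖x‖ ^ 2 * (conj (e t) * inner ℂ u (A u)).re ≤ ‖x‖ ^ 2 * (c.s t - δ) :=
          mul_le_mul_of_nonneg_left h2 h3
      _ = (c.s t - δ) * ‖x‖ ^ 2 := by ring
  have hM0 : 0 ≤ M := by
    have h0 := hpM 0 (fun t => by
      have := hs0 t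
      simp [ReduceFinal.dot]
      linarith)
    exact (norm_nonneg _).trans h0
  have hpσ : ∀ t, ‖p.eval (c.sg t)‖ ≤ M := by
    intro t
    apply hpM
    intro τ
    rw [dot_eq_re]
    have h1 := Calc.hh_sig_nonneg c.isCrv c.R_nonneg τ t
    unfold hh at h1
    have : c.s τ = s τ := rfl
    rw [this] at h1
    have h2 : (conj (e τ) * sig c.s c.s1 t).re ≤ s τ := by linarith
    exact h2
  obtain ⟨x, y, hx, hy, h1, h2⟩ := ReduceFinal.exists_singular_pair (Polynomial.aeval A p)
  exact c.curve_main p (fun t => hs0 t) hA hM0 hpσ hx hy h1 h2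

end

end Vale.Agent.Lib.P123C.CrvData
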