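import Mathlib

/-!
# Equilibrium property of the stationary functional (module EQUILIBRIUM of route 1600)

Raw hypotheses: a closed curve `sig` with derivative `sig'`, a set `In` of inner points, winding
numbers; a bounded operator `N` on bounded continuous functions and a functional `lam` such that
`N ^ n h` tends to the constant `lam h`, and the jump relation A2.

Output: `lam (1/(sig - w)) = 0` for `w` in `In`, and for the outer Cauchy transforms
`E_r[h](t) = C[h](r * sig t)`, `lam E_r[h] = 0` and `lam (E_r[h] * E_r[k]) = 0`.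
-/

open Complex MeasureTheory Set Filter Topology
open scoped Real ComplexConjugate BoundedContinuousFunction

namespace Vale.Agent.Lib.P123C.Equil

/-- Bounded continuous functions on the line. -/
abbrev BB := ℝ →ᵇ ℂ

/-- The Cauchy transform over one period. -/
noncomputable def cT (sig sig' h : ℝ → ℂ) (z : ℂ) : ℂ :=
  (1 / (2 * π * I)) * ∫ t in (0:ℝ)..(2 * π), h t * sig' t / (sig t - z)

/-- Raw hypotheses on the curve. -/
structure Curve (sig sig' : ℝ → ℂ) (In : Set ℂ) : Prop where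
  hc : Continuous sig
  hc' : Continuous sig'
  hp : Function.Periodic sig (2 * π)
  hd : ∀ t, HasDerivAt sig (sig' t) t
  hIn : ∀ z ∈ In, ∀ t, sig t ≠ z
  hW1 : ∀ z ∈ In, ∫ t in (0:ℝ)..(2 * π), sig' t / (sig t - z) = 2 * π * I
  hS : ∀ r : ℝ, 1 < r → ∀ τ, ((r:ℂ)⁻¹ * sig τ) ∈ In
  hOut : ∀ r : ℝ, 1 < r → ∀ τ t, sig t ≠ (r:ℂ) * sig τ
  hW0 : ∀ r : ℝ, 1 < r → ∀ τ, ∫ t in (0:ℝ)..(2 * π), sig' t / (sig t - (r:ℂ) * sig τ) = 0

/-- Raw hypotheses on the operator and the functional. -/
structure Dyn (sig sig' : ℝ → ℂ) (N : BB →L[ℂ] BB) (lam : BB →L[ℂ] ℂ) : Prop where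
  hNper : ∀ h, Function.Periodic (N h) (2 * π)
  hNconj : ∀ h, N (star h) = star (N h)
  hmix : ∀ h, Tendsto (fun n : ℕ => (N ^ n) h) atTop (𝓝 (lam h • (1 : BB)))
  hA2 : ∀ h : BB, Function.Periodic h (2 * π) → ∀ ε > 0, ∃ r0 : ℝ, 1 < r0 ∧ ∀ r : ℝ, 1 < r → r < r0 →
    ∀ t, ‖cT sig sig' h ((r:ℂ)⁻¹ * sig t)
        + conj (cT sig sig' (fun u => conj (h u)) ((r:ℂ)⁻¹ * sig t)) - h t - N h t‖ ≤ ε

theorem two_pi_I_ne : (2 * (π:ℂ) * I) ≠ 0 := by
  simp [Real.pi_ne_zero, I_ne_zero]

theorem two_pi_pos : (0:ℝ) ≤ 2 * π := by positivity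

theorem exists_mkB {f : ℝ → ℂ} (hc : Continuous f) (hp : Function.Periodic f (2 * π)) :
    ∃ b : BB, ∀ t, b t = f t := by
  obtain ⟨C, hC⟩ : ∃ C, ∀ t, ‖f t‖ ≤ C := by
    have hpos : (0:ℝ) < 2 * π := by positivity
    have hcpt : IsCompact (f '' Icc 0 (2 * π)) := isCompact_Icc.image hc
    obtain ⟨C, hC⟩ := hcpt.isBounded.exists_norm_le
    refine ⟨C, fun t => ?_⟩
    obtain ⟨y, hy, hyt⟩ := hp.exists_mem_Ico₀ hpos t
    rw [hyt]
    exact hC _ ⟨y, Ico_subset_Icc_self hy, rfl⟩
  exact ⟨BoundedContinuousFunction.ofNormedAddCommGroup f hc C hC, fun t => rfl⟩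

section Basic

variable {sig sig' : ℝ → ℂ} {In : Set ℂ}

theorem cont_integrand (hsig : Continuous sig) (hsig' : Continuous sig') {h : ℝ → ℂ}
    (hh : Continuous h) {z : ℂ} (hz : ∀ t, sig t ≠ z) :
    Continuous fun t => h t * sig' t / (sig t - z) :=
  (hh.mul hsig').div (hsig.sub continuous_const) (fun t => sub_ne_zero.2 (hz t))

theorem cT_add (hsig : Continuous sig) (hsig' : Continuous sig') {h k : ℝ → ℂ}
    (hh : Continuous h) (hk : Continuous k) {z : ℂ} (hz : ∀ t, sig t ≠ z) :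
    cT sig sig' (fun t => h t + k t) z = cT sig sig' h z + cT sig sig' k z := by
  unfold cT
  rw [← mul_add, ← intervalIntegral.integral_add
    ((cont_integrand hsig hsig' hh hz).intervalIntegrable _ _)
    ((cont_integrand hsig hsig' hk hz).intervalIntegrable _ _)]
  congr 1
  refine intervalIntegral.integral_congr fun t _ => ?_
  simp only [add_mul, add_div]

theorem cT_sub (hsig : Continuous sig) (hsig' : Continuous sig') {h k : ℝ → ℂ}
    (hh : Continuous h) (hk : Continuous k) {z : ℂ} (hz : ∀ t, sig t ≠ z) :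
    cT sig sig' (fun t => h t - k t) z = cT sig sig' h z - cT sig sig' k z := by
  unfold cT
  rw [← mul_sub, ← intervalIntegral.integral_sub
    ((cont_integrand hsig hsig' hh hz).intervalIntegrable _ _)
    ((cont_integrand hsig hsig' hk hz).intervalIntegrable _ _)]
  congr 1
  refine intervalIntegral.integral_congr fun t _ => ?_
  simp only [sub_mul, sub_div]

theorem cT_const_mul (c : ℂ) {h : ℝ → ℂ} {z : ℂ} :
    cT sig sig' (fun t => c * h t) z = c * cT sig sig' h z := by
  unfold cT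
  have : ∀ t, c * h t * sig' t / (sig t - z) = c * (h t * sig' t / (sig t - z)) := fun t => by ring
  simp_rw [this, intervalIntegral.integral_const_mul]
  ring

/-- The weight that controls the Cauchy transform at `z` in sup norm. -/
noncomputable def wgt (sig sig' : ℝ → ℂ) (z : ℂ) : ℝ :=
  ‖(1 / (2 * π * I) : ℂ)‖ * ∫ t in (0:ℝ)..(2 * π), ‖sig' t / (sig t - z)‖

theorem norm_cT_le (hsig : Continuous sig) (hsig' : Continuous sig') {h : ℝ → ℂ}
    {z : ℂ} (hz : ∀ t, sig t ≠ z) {ε : ℝ} (hε : ∀ t, ‖h t‖ ≤ ε) :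
    ‖cT sig sig' h z‖ ≤ ε * wgt sig sig' z := by
  have hW : Continuous fun t => ‖sig' t / (sig t - z)‖ := by
    have := cont_integrand hsig hsig' (h := fun _ => (1:ℂ)) continuous_const hz
    simpa using this.norm
  have h0 : ‖∫ t in (0:ℝ)..(2 * π), h t * sig' t / (sig t - z)‖
      ≤ ∫ t in (0:ℝ)..(2 * π), ε * ‖sig' t / (sig t - z)‖ := by
    refine intervalIntegral.norm_integral_le_of_norm_le two_pi_pos
      (Eventually.of_forall fun t _ => ?_) ((continuous_const.mul hW).intervalIntegrable _ _)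
    rw [mul_div_assoc, norm_mul]
    exact mul_le_mul_of_nonneg_right (hε t) (norm_nonneg _)
  rw [intervalIntegral.integral_const_mul] at h0
  unfold cT wgt
  rw [norm_mul]
  calc _ ≤ ‖(1 / (2 * π * I) : ℂ)‖ * (ε * ∫ t in (0:ℝ)..(2 * π), ‖sig' t / (sig t - z)‖) :=
        mul_le_mul_of_nonneg_left h0 (norm_nonneg _)
    _ = _ := by ring

theorem cT_continuousAt (hsig : Continuous sig) (hsig' : Continuous sig') {h : ℝ → ℂ}
    (hh : Continuous h) {z : ℂ} (hz : ∀ t, sig t ≠ z) : ContinuousAt (cT sig sig' h) z := by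
  -- separation on the compact parameter interval
  have hne : (Icc (0:ℝ) (2 * π)).Nonempty := ⟨0, le_refl _, by positivity⟩
  obtain ⟨t0, -, ht0⟩ := (isCompact_Icc (a := (0:ℝ)) (b := 2 * π)).exists_isMinOn
    (f := fun t => ‖sig t - z‖) hne ((hsig.sub continuous_const).norm.continuousOn)
  set d : ℝ := ‖sig t0 - z‖ with hd
  have hdpos : 0 < d := norm_pos_iff.2 (sub_ne_zero.2 (hz t0))
  have hmin : ∀ t ∈ Icc (0:ℝ) (2 * π), d ≤ ‖sig t - z‖ := fun t ht => by
    have := ht0 ht
    simpa using this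
  unfold cT
  have hmain : ContinuousAt
      (fun u : ℂ => ∫ t in (0:ℝ)..(2 * π), h t * sig' t / (sig t - u)) z := by
    refine intervalIntegral.continuousAt_of_dominated_interval
      (bound := fun t => ‖h t * sig' t‖ * (2 / d)) ?_ ?_ ?_ ?_
    · refine Eventually.of_forall fun u => ?_
      exact (((hh.mul hsig').measurable).div ((hsig.sub continuous_const).measurable)).aestronglyMeasurable
    · have hball : ∀ᶠ u in 𝓝 z, ‖u - z‖ < d / 2 := by
        have : Tendsto (fun u : ℂ => ‖u - z‖) (𝓝 z) (𝓝 0) := by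
          have := (continuous_id.sub (continuous_const (y := z))).norm.tendsto z
          simpa using this
        exact this.eventually (gt_mem_nhds (by positivity))
      filter_upwards [hball] with u hu
      refine Eventually.of_forall fun t ht => ?_
      rw [uIoc_of_le two_pi_pos] at ht
      have hlow : d / 2 ≤ ‖sig t - u‖ := by
        have h1 := hmin t ⟨ht.1.le, ht.2⟩
        have h2 : ‖sig t - z‖ ≤ ‖sig t - u‖ + ‖u - z‖ := by
          have : sig t - z = (sig t - u) + (u - z) := by ring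
          rw [this]; exact norm_add_le _ _
        linarith
      rw [norm_div]
      rw [div_eq_mul_inv]
      refine mul_le_mul_of_nonneg_left ?_ (norm_nonneg _)
      rw [show 2 / d = (d / 2)⁻¹ by field_simp]
      exact inv_anti₀ (by positivity) hlow
    · exact ((hh.mul hsig').norm.mul continuous_const).intervalIntegrable _ _
    · refine Eventually.of_forall fun t _ => ?_
      have hne : sig t - z ≠ 0 := sub_ne_zero.2 (hz t)
      exact (continuousAt_const.div (continuousAt_const.sub continuousAt_id) hne)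
  exact continuousAt_const.mul hmain

/-- Fubini for continuous functions on a rectangle of interval integrals. -/
theorem interval_swap {F : ℝ → ℝ → ℂ} (hF : Continuous (Function.uncurry F)) (a b c d : ℝ) :
    ∫ x in a..b, ∫ y in c..d, F x y = ∫ y in c..d, ∫ x in a..b, F x y := by
  apply MeasureTheory.intervalIntegral_intervalIntegral_swap
  have hcpt : IsCompact ((uIcc a b) ×ˢ (uIcc c d)) := isCompact_uIcc.prod isCompact_uIcc
  exact (hF.continuousOn.integrableOn_compact hcpt).mono_set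
    (prod_mono uIoc_subset_uIcc uIoc_subset_uIcc)

end Basic

section Fubini

variable {sig sig' : ℝ → ℂ} {In : Set ℂ}

/-- The split fraction computation behind the Cauchy formula. -/
theorem inner_kernel (hC : Curve sig sig' In) {r : ℝ} (hr : 1 < r) {z : ℂ} (hz : z ∈ In) (τ : ℝ) :
    ∫ t in (0:ℝ)..(2 * π), sig' t / (((sig τ) - (r:ℂ)⁻¹ * sig t) * (sig t - z))
      = 2 * π * I / (sig τ - (r:ℂ)⁻¹ * z) := by
  have hr0 : (r:ℂ) ≠ 0 := by
    have : r ≠ 0 := by linarith
    exact_mod_cast this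
  set u : ℂ := (r:ℂ) * sig τ with hu
  have hne : u ≠ z := by
    intro h
    have h1 := hC.hW1 z hz
    have h2 := hC.hW0 r hr τ
    rw [← hu, h, h1] at h2
    exact two_pi_I_ne h2
  have hzr : sig τ - (r:ℂ)⁻¹ * z ≠ 0 := by
    intro h
    apply hne
    rw [hu]
    have : sig τ = (r:ℂ)⁻¹ * z := sub_eq_zero.1 h
    rw [this]; field_simp
  have hpt : ∀ t, sig' t / ((sig τ - (r:ℂ)⁻¹ * sig t) * (sig t - z))
      = ((r:ℂ) / (u - z)) * (sig' t / (sig t - z) - sig' t / (sig t - u)) := by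
    intro t
    have h1 : sig t - z ≠ 0 := sub_ne_zero.2 (hC.hIn z hz t)
    have h2 : sig t - u ≠ 0 := sub_ne_zero.2 (hC.hOut r hr τ t)
    have h3 : u - z ≠ 0 := sub_ne_zero.2 hne
    have h4 : sig τ - (r:ℂ)⁻¹ * sig t ≠ 0 := by
      intro h
      apply hC.hOut r hr τ t
      have : sig τ = (r:ℂ)⁻¹ * sig t := sub_eq_zero.1 h
      rw [this]; field_simp
    have h5 : sig τ - (r:ℂ)⁻¹ * sig t = (u - sig t) / (r:ℂ) := by
      rw [hu]; field_simp
    have h6 : u - sig t ≠ 0 := fun h => h2 (by rw [← neg_sub, h, neg_zero])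
    rw [h5]
    have h7 : sig t - u = -(u - sig t) := by ring
    rw [h7]
    field_simp
    ring
  have hi1 : IntervalIntegrable (fun t => sig' t / (sig t - z)) volume 0 (2 * π) :=
    (hC.hc'.div (hC.hc.sub continuous_const)
      (fun t => sub_ne_zero.2 (hC.hIn z hz t))).intervalIntegrable _ _
  have hi2 : IntervalIntegrable (fun t => sig' t / (sig t - u)) volume 0 (2 * π) :=
    (hC.hc'.div (hC.hc.sub continuous_const)
      (fun t => sub_ne_zero.2 (hC.hOut r hr τ t))).intervalIntegrable _ _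
  simp_rw [hpt]
  rw [intervalIntegral.integral_const_mul, intervalIntegral.integral_sub hi1 hi2, hC.hW1 z hz,
    hu, hC.hW0 r hr τ, ← hu, sub_zero]
  have h3 : u - z ≠ 0 := sub_ne_zero.2 hne
  have h5 : sig τ - (r:ℂ)⁻¹ * z = (u - z) / (r:ℂ) := by
    rw [hu]; field_simp
  rw [h5]
  field_simp

/-- The Cauchy formula for the inner function `C[e](./r)`. -/
theorem cT_comp (hC : Curve sig sig' In) {e : ℝ → ℂ} (he : Continuous e) {r : ℝ} (hr : 1 < r)
    {z : ℂ} (hz : z ∈ In) :
    cT sig sig' (fun t => cT sig sig' e ((r:ℂ)⁻¹ * sig t)) z = cT sig sig' e ((r:ℂ)⁻¹ * z) := by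
  have hr0 : (r:ℂ) ≠ 0 := by
    have : r ≠ 0 := by linarith
    exact_mod_cast this
  have hne1 : ∀ τ t, sig τ - (r:ℂ)⁻¹ * sig t ≠ 0 := by
    intro τ t h
    apply hC.hOut r hr τ t
    have : sig τ = (r:ℂ)⁻¹ * sig t := sub_eq_zero.1 h
    rw [this]; field_simp
  have hne2 : ∀ t, sig t - z ≠ 0 := fun t => sub_ne_zero.2 (hC.hIn z hz t)
  set F : ℝ → ℝ → ℂ := fun t τ =>
    e τ * sig' τ / (sig τ - (r:ℂ)⁻¹ * sig t) * (sig' t / (sig t - z)) with hF
  have hFc : Continuous (Function.uncurry F) := by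
    have h1 : Continuous fun p : ℝ × ℝ => sig' p.1 / (sig p.1 - z) :=
      (hC.hc'.comp continuous_fst).div ((hC.hc.comp continuous_fst).sub continuous_const)
        (fun p => hne2 _)
    have h2 : Continuous fun p : ℝ × ℝ => e p.2 * sig' p.2 / (sig p.2 - (r:ℂ)⁻¹ * sig p.1) :=
      ((he.comp continuous_snd).mul (hC.hc'.comp continuous_snd)).div
        ((hC.hc.comp continuous_snd).sub (continuous_const.mul (hC.hc.comp continuous_fst)))
        (fun p => hne1 _ _)
    exact h2.mul h1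
  have hL : ∀ t, (cT sig sig' e ((r:ℂ)⁻¹ * sig t)) * sig' t / (sig t - z)
      = (1 / (2 * π * I)) * ∫ τ in (0:ℝ)..(2 * π), F t τ := by
    intro t
    unfold cT
    simp only [hF]
    rw [intervalIntegral.integral_mul_const]
    ring
  have hinner : ∀ τ, ∫ t in (0:ℝ)..(2 * π), F t τ
      = e τ * sig' τ * (2 * π * I / (sig τ - (r:ℂ)⁻¹ * z)) := by
    intro τ
    rw [← inner_kernel hC hr hz τ, ← intervalIntegral.integral_const_mul]
    refine intervalIntegral.integral_congr fun t _ => ?_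
    simp only [hF]
    have h1 := hne1 τ t
    have h2 := hne2 t
    field_simp
  have hI := two_pi_I_ne
  show (1 / (2 * π * I)) * (∫ t in (0:ℝ)..(2 * π),
    (cT sig sig' e ((r:ℂ)⁻¹ * sig t)) * sig' t / (sig t - z)) = _
  simp_rw [hL]
  unfold cT
  rw [intervalIntegral.integral_const_mul, interval_swap hFc]
  simp_rw [hinner]
  rw [← mul_assoc]
  have : ∀ τ, e τ * sig' τ * (2 * π * I / (sig τ - (r:ℂ)⁻¹ * z))
      = (2 * π * I) * (e τ * sig' τ / (sig τ - (r:ℂ)⁻¹ * z)) := fun τ => by ring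
  simp_rw [this]
  rw [intervalIntegral.integral_const_mul]
  have key : ∀ X : ℂ, 1 / (2 * π * I) * (1 / (2 * π * I)) * (2 * π * I * X)
      = 1 / (2 * π * I) * X := by
    intro X
    field_simp
  exact key _

end Fubini

section Closure

variable {sig sig' : ℝ → ℂ} {In : Set ℂ} {N : BB →L[ℂ] BB} {lam : BB →L[ℂ] ℂ}

theorem star_periodic {e : BB} (he : Function.Periodic e (2 * π)) :
    Function.Periodic (star e : BB) (2 * π) := by
  intro t
  simp [BoundedContinuousFunction.star_apply, he t]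

/-- If the inner Cauchy transform of `e` vanishes, so does that of `N (star e)`. -/
theorem Z_step (hC : Curve sig sig' In) (hD : Dyn sig sig' N lam) {e : BB}
    (hep : Function.Periodic e (2 * π)) (heZ : ∀ z ∈ In, cT sig sig' e z = 0) :
    ∀ z ∈ In, cT sig sig' (N (star e)) z = 0 := by
  intro z hz
  have hzs : ∀ t, sig t ≠ z := hC.hIn z hz
  set e' : BB := star e with he'
  have hep' : Function.Periodic e' (2 * π) := star_periodic hep
  have hss : (star e' : BB) = e := star_star e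
  set g : ℂ → ℂ := cT sig sig' e' with hg
  have he'c : Continuous e' := e'.continuous
  have hNc : Continuous (N e') := (N e').continuous
  -- continuity of the boundary function
  have hgc : ∀ r : ℝ, 1 < r → Continuous fun t => g ((r:ℂ)⁻¹ * sig t) := by
    intro r hr
    have hr0 : (r:ℂ) ≠ 0 := by
      have : r ≠ 0 := by linarith
      exact_mod_cast this
    have hne1 : ∀ τ t, sig τ - (r:ℂ)⁻¹ * sig t ≠ 0 := by
      intro τ t h
      apply hC.hOut r hr τ t
      have : sig τ = (r:ℂ)⁻¹ * sig t := sub_eq_zero.1 h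
      rw [this]; field_simp
    have hJ : Continuous (Function.uncurry fun (t τ : ℝ) =>
        e' τ * sig' τ / (sig τ - (r:ℂ)⁻¹ * sig t)) :=
      ((he'c.comp continuous_snd).mul (hC.hc'.comp continuous_snd)).div
        ((hC.hc.comp continuous_snd).sub (continuous_const.mul (hC.hc.comp continuous_fst)))
        (fun p => hne1 _ _)
    have := intervalIntegral.continuous_parametric_intervalIntegral_of_continuous'
      (μ := volume) hJ 0 (2 * π)
    simp only [hg, cT]
    exact continuous_const.mul this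
  -- main estimate for every ε
  have hkey : ∀ ε > 0, ‖g z - cT sig sig' (fun t => e' t + N e' t) z‖ ≤ ε * wgt sig sig' z := by
    intro ε hε
    obtain ⟨r0, hr0, hA⟩ := hD.hA2 e' hep' ε hε
    have hbd : ∀ r : ℝ, 1 < r → r < r0 →
        ‖g ((r:ℂ)⁻¹ * z) - cT sig sig' (fun t => e' t + N e' t) z‖ ≤ ε * wgt sig sig' z := by
      intro r hr hrr
      have h1 : cT sig sig' (fun t => g ((r:ℂ)⁻¹ * sig t)) z = g ((r:ℂ)⁻¹ * z) :=
        cT_comp hC he'c hr hz
      rw [← h1, ← cT_sub (k := fun t => e' t + N e' t) hC.hc hC.hc' (hgc r hr) (he'c.add hNc) hzs]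
      refine norm_cT_le hC.hc hC.hc' hzs (fun t => ?_)
      have h2 := hA r hr hrr t
      have hfun : (fun u => conj (e' u)) = (e : ℝ → ℂ) := by
        funext u
        rw [he', BoundedContinuousFunction.star_apply]
        simp
      rw [hfun, heZ _ (hC.hS r hr t), map_zero, add_zero] at h2
      have h3 : g ((r:ℂ)⁻¹ * sig t) - (e' t + N e' t)
          = cT sig sig' e' ((r:ℂ)⁻¹ * sig t) - e' t - N e' t := by
        rw [hg]; ring
      rw [h3]; exact h2
    have hcont := cT_continuousAt hC.hc hC.hc' he'c hzs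
    have hlim : Tendsto (fun r : ℝ => g ((r:ℂ)⁻¹ * z)) (𝓝[>] 1) (𝓝 (g z)) := by
      have h1 : Tendsto (fun r : ℝ => ((r:ℂ)⁻¹ * z)) (𝓝[>] 1) (𝓝 z) := by
        have h2 : ContinuousAt (fun r : ℝ => ((r:ℂ)⁻¹ * z)) 1 := by
          refine ContinuousAt.mul ?_ continuousAt_const
          refine ContinuousAt.inv₀ ?_ (by simp)
          exact Complex.continuous_ofReal.continuousAt
        have h3 := h2.tendsto
        simp only [ofReal_one, inv_one, one_mul] at h3
        exact h3.mono_left nhdsWithin_le_nhds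
      exact hcont.tendsto.comp h1
    have hlim2 : Tendsto (fun r : ℝ => ‖g ((r:ℂ)⁻¹ * z)
        - cT sig sig' (fun t => e' t + N e' t) z‖) (𝓝[>] 1)
        (𝓝 ‖g z - cT sig sig' (fun t => e' t + N e' t) z‖) :=
      (hlim.sub tendsto_const_nhds).norm
    refine le_of_tendsto hlim2 ?_
    have : Ioo 1 r0 ∈ 𝓝[>] (1:ℝ) := Ioo_mem_nhdsGT hr0
    filter_upwards [this] with r hr
    exact hbd r hr.1 hr.2
  have hzero : ‖g z - cT sig sig' (fun t => e' t + N e' t) z‖ = 0 := by
    refine le_antisymm ?_ (norm_nonneg _)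
    by_contra hcon
    rw [not_le] at hcon
    set w := wgt sig sig' z with hw
    have hw0 : 0 ≤ w := by
      have := hkey 1 one_pos
      have h2 := norm_nonneg (g z - cT sig sig' (fun t => e' t + N e' t) z)
      rw [one_mul] at this
      linarith
    have := hkey (‖g z - cT sig sig' (fun t => e' t + N e' t) z‖ / (2 * (w + 1)))
      (by positivity)
    have h3 : ‖g z - cT sig sig' (fun t => e' t + N e' t) z‖ / (2 * (w + 1)) * w
        ≤ ‖g z - cT sig sig' (fun t => e' t + N e' t) z‖ / 2 := by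
      rw [div_mul_eq_mul_div, div_le_div_iff₀ (by positivity) (by positivity)]
      nlinarith [norm_nonneg (g z - cT sig sig' (fun t => e' t + N e' t) z)]
    linarith
  have h4 := norm_eq_zero.1 hzero
  rw [cT_add (h := e') (k := N e') hC.hc hC.hc' he'c hNc hzs, hg] at h4
  have h5 : cT sig sig' (N e') z = 0 := by
    have : cT sig sig' e' z - (cT sig sig' e' z + cT sig sig' (N e') z) = - cT sig sig' (N e') z := by
      ring
    rw [this] at h4
    simpa using h4
  exact h5

theorem Z_two (hC : Curve sig sig' In) (hD : Dyn sig sig' N lam) {e : BB}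
    (hep : Function.Periodic e (2 * π)) (heZ : ∀ z ∈ In, cT sig sig' e z = 0) :
    ∀ z ∈ In, cT sig sig' (N (N e)) z = 0 := by
  have h1 := Z_step hC hD hep heZ
  have h2 := Z_step hC hD (hD.hNper (star e)) h1
  have h3 : N (star (N (star e))) = N (N e) := by
    rw [← hD.hNconj, star_star]
  rwa [h3] at h2

theorem Z_iter (hC : Curve sig sig' In) (hD : Dyn sig sig' N lam) {e : BB}
    (hep : Function.Periodic e (2 * π)) (heZ : ∀ z ∈ In, cT sig sig' e z = 0) (n : ℕ) :
    Function.Periodic ((N ^ (2 * n)) e) (2 * π) ∧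
      ∀ z ∈ In, cT sig sig' ((N ^ (2 * n)) e) z = 0 := by
  induction n with
  | zero => simpa using ⟨hep, heZ⟩
  | succ n ih =>
    have heq : (N ^ (2 * (n + 1))) e = N (N ((N ^ (2 * n)) e)) := by
      rw [show 2 * (n + 1) = 2 + 2 * n by ring, pow_add, pow_two]
      rfl
    rw [heq]
    exact ⟨hD.hNper _, Z_two hC hD ih.1 ih.2⟩

/-- The equilibrium lemma: a periodic function with vanishing inner Cauchy transform has
`lam e = 0`. -/
theorem lam_Z (hC : Curve sig sig' In) (hD : Dyn sig sig' N lam) {e : BB}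
    (hep : Function.Periodic e (2 * π)) (heZ : ∀ z ∈ In, cT sig sig' e z = 0) : lam e = 0 := by
  have hz0 : ((2:ℝ):ℂ)⁻¹ * sig 0 ∈ In := hC.hS 2 (by norm_num) 0
  set z0 : ℂ := ((2:ℝ):ℂ)⁻¹ * sig 0 with hz0def
  have hzs : ∀ t, sig t ≠ z0 := hC.hIn z0 hz0
  have hone : cT sig sig' (fun _ => lam e) z0 = lam e := by
    unfold cT
    have : ∀ t, lam e * sig' t / (sig t - z0) = lam e * (sig' t / (sig t - z0)) := fun t => by ring
    simp_rw [this]
    rw [intervalIntegral.integral_const_mul, hC.hW1 z0 hz0]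
    have := two_pi_I_ne
    field_simp
  have hconv : Tendsto (fun n : ℕ => (N ^ (2 * n)) e) atTop (𝓝 (lam e • (1 : BB))) :=
    (hD.hmix e).comp (tendsto_atTop_mono (fun n => by simp only [id]; omega) tendsto_id)
  have hdist : Tendsto (fun n : ℕ => ‖(N ^ (2 * n)) e - lam e • (1 : BB)‖) atTop (𝓝 0) := by
    have := (hconv.sub_const (lam e • (1 : BB))).norm
    simpa using this
  have hbound : ∀ n : ℕ, ‖lam e‖ ≤ ‖(N ^ (2 * n)) e - lam e • (1 : BB)‖ * wgt sig sig' z0 := by
    intro n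
    have hc1 : Continuous ((N ^ (2 * n)) e : ℝ → ℂ) := ((N ^ (2 * n)) e).continuous
    have h1 : cT sig sig' (fun t => ((N ^ (2 * n)) e) t - lam e) z0 = - lam e := by
      rw [cT_sub hC.hc hC.hc' hc1 continuous_const hzs, (Z_iter hC hD hep heZ n).2 z0 hz0, hone]
      ring
    rw [← norm_neg (lam e), ← h1]
    refine norm_cT_le hC.hc hC.hc' hzs (fun t => ?_)
    have h2 := BoundedContinuousFunction.norm_coe_le_norm ((N ^ (2 * n)) e - lam e • (1 : BB)) t
    simpa using h2
  have hlim : Tendsto (fun n : ℕ => ‖(N ^ (2 * n)) e - lam e • (1 : BB)‖ * wgt sig sig' z0)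
      atTop (𝓝 0) := by
    simpa using hdist.mul_const (wgt sig sig' z0)
  have hle : ‖lam e‖ ≤ 0 := ge_of_tendsto' hlim hbound
  exact norm_le_zero_iff.1 hle

end Closure

section Kernels

variable {sig sig' : ℝ → ℂ} {In : Set ℂ} {N : BB →L[ℂ] BB} {lam : BB →L[ℂ] ℂ}

theorem ftc_inv2 (hC : Curve sig sig' In) {w : ℂ} (hw : w ∈ In) :
    ∫ t in (0:ℝ)..(2 * π), sig' t / (sig t - w) ^ 2 = 0 := by
  have hne : ∀ t, sig t - w ≠ 0 := fun t => sub_ne_zero.2 (hC.hIn w hw t)
  have hder : ∀ t ∈ uIcc (0:ℝ) (2 * π), HasDerivAt (fun t => -(sig t - w)⁻¹)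
      (sig' t / (sig t - w) ^ 2) t := by
    intro t _
    have h1 : HasDerivAt (fun t => sig t - w) (sig' t) t := (hC.hd t).sub_const w
    have h2 := (h1.inv (hne t)).neg
    have h3 : sig' t / (sig t - w) ^ 2 = -(-sig' t / (sig t - w) ^ 2) := by ring
    rw [h3]
    exact h2
  have hint : IntervalIntegrable (fun t => sig' t / (sig t - w) ^ 2) volume 0 (2 * π) :=
    (hC.hc'.div ((hC.hc.sub continuous_const).pow 2)
      (fun t => pow_ne_zero 2 (hne t))).intervalIntegrable _ _
  rw [intervalIntegral.integral_eq_sub_of_hasDerivAt hder hint]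
  have hp := hC.hp 0
  rw [zero_add] at hp
  rw [hp]
  ring

theorem ftc_inv3 (hC : Curve sig sig' In) {w : ℂ} (hw : w ∈ In) :
    ∫ t in (0:ℝ)..(2 * π), sig' t / (sig t - w) ^ 3 = 0 := by
  have hne : ∀ t, sig t - w ≠ 0 := fun t => sub_ne_zero.2 (hC.hIn w hw t)
  have hder : ∀ t ∈ uIcc (0:ℝ) (2 * π), HasDerivAt (fun t => -(1 / 2 : ℂ) * ((sig t - w)⁻¹) ^ 2)
      (sig' t / (sig t - w) ^ 3) t := by
    intro t _
    have h1 : HasDerivAt (fun t => sig t - w) (sig' t) t := (hC.hd t).sub_const w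
    have h2 := ((h1.inv (hne t)).pow 2).const_mul (-(1 / 2 : ℂ))
    refine HasDerivAt.congr_deriv h2 ?_
    have := hne t
    simp only [Pi.inv_apply]
    norm_num
    field_simp
  have hint : IntervalIntegrable (fun t => sig' t / (sig t - w) ^ 3) volume 0 (2 * π) :=
    (hC.hc'.div ((hC.hc.sub continuous_const).pow 3)
      (fun t => pow_ne_zero 3 (hne t))).intervalIntegrable _ _
  rw [intervalIntegral.integral_eq_sub_of_hasDerivAt hder hint]
  have hp := hC.hp 0
  rw [zero_add] at hp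
  rw [hp]
  ring

/-- The kernel `1 / (sig - w)` has vanishing inner Cauchy transform. -/
theorem cT_k (hC : Curve sig sig' In) {w : ℂ} (hw : w ∈ In) {z : ℂ} (hz : z ∈ In) :
    cT sig sig' (fun t => 1 / (sig t - w)) z = 0 := by
  unfold cT
  have hne : ∀ t, sig t - w ≠ 0 := fun t => sub_ne_zero.2 (hC.hIn w hw t)
  have hnz : ∀ t, sig t - z ≠ 0 := fun t => sub_ne_zero.2 (hC.hIn z hz t)
  by_cases hwz : w = z
  · subst hwz
    have : ∀ t, 1 / (sig t - w) * sig' t / (sig t - w) = sig' t / (sig t - w) ^ 2 := by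
      intro t
      have := hne t
      field_simp
    simp_rw [this]
    rw [ftc_inv2 hC hw, mul_zero]
  · have hwz' : w - z ≠ 0 := sub_ne_zero.2 hwz
    have : ∀ t, 1 / (sig t - w) * sig' t / (sig t - z)
        = (1 / (w - z)) * (sig' t / (sig t - w) - sig' t / (sig t - z)) := by
      intro t
      have h1 := hne t
      have h2 := hnz t
      field_simp
      ring
    simp_rw [this]
    have hi : ∀ u ∈ In, IntervalIntegrable (fun t => sig' t / (sig t - u)) volume 0 (2 * π) :=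
      fun u hu => (hC.hc'.div (hC.hc.sub continuous_const)
        (fun t => sub_ne_zero.2 (hC.hIn u hu t))).intervalIntegrable _ _
    rw [intervalIntegral.integral_const_mul, intervalIntegral.integral_sub (hi w hw) (hi z hz),
      hC.hW1 w hw, hC.hW1 z hz]
    ring

/-- The kernel `1 / (sig - w) ^ 2` has vanishing inner Cauchy transform. -/
theorem cT_k2 (hC : Curve sig sig' In) {w : ℂ} (hw : w ∈ In) {z : ℂ} (hz : z ∈ In) :
    cT sig sig' (fun t => 1 / (sig t - w) ^ 2) z = 0 := by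
  unfold cT
  have hne : ∀ t, sig t - w ≠ 0 := fun t => sub_ne_zero.2 (hC.hIn w hw t)
  have hnz : ∀ t, sig t - z ≠ 0 := fun t => sub_ne_zero.2 (hC.hIn z hz t)
  by_cases hwz : w = z
  · subst hwz
    have : ∀ t, 1 / (sig t - w) ^ 2 * sig' t / (sig t - w) = sig' t / (sig t - w) ^ 3 := by
      intro t
      have := hne t
      field_simp
    simp_rw [this]
    rw [ftc_inv3 hC hw, mul_zero]
  · have hwz' : w - z ≠ 0 := sub_ne_zero.2 hwz
    have : ∀ t, 1 / (sig t - w) ^ 2 * sig' t / (sig t - z)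
        = (1 / (w - z)) * (sig' t / (sig t - w) ^ 2)
          - (1 / (w - z)) ^ 2 * (sig' t / (sig t - w) - sig' t / (sig t - z)) := by
      intro t
      have h1 := hne t
      have h2 := hnz t
      field_simp
      ring
    simp_rw [this]
    have hi : ∀ u ∈ In, IntervalIntegrable (fun t => sig' t / (sig t - u)) volume 0 (2 * π) :=
      fun u hu => (hC.hc'.div (hC.hc.sub continuous_const)
        (fun t => sub_ne_zero.2 (hC.hIn u hu t))).intervalIntegrable _ _
    have hi2 : IntervalIntegrable (fun t => sig' t / (sig t - w) ^ 2) volume 0 (2 * π) :=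
      (hC.hc'.div ((hC.hc.sub continuous_const).pow 2)
        (fun t => pow_ne_zero 2 (hne t))).intervalIntegrable _ _
    rw [intervalIntegral.integral_sub (hi2.const_mul _) (((hi w hw).sub (hi z hz)).const_mul _),
      intervalIntegral.integral_const_mul, intervalIntegral.integral_const_mul,
      intervalIntegral.integral_sub (hi w hw) (hi z hz), hC.hW1 w hw, hC.hW1 z hz, ftc_inv2 hC hw]
    ring

theorem per_k (hC : Curve sig sig' In) (w : ℂ) :
    Function.Periodic (fun t => 1 / (sig t - w)) (2 * π) := by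
  intro t
  simp only [hC.hp t]

theorem lam_k (hC : Curve sig sig' In) (hD : Dyn sig sig' N lam) {w : ℂ} (hw : w ∈ In) {b : BB}
    (hb : ∀ t, b t = 1 / (sig t - w)) : lam b = 0 := by
  have hfun : (b : ℝ → ℂ) = fun t => 1 / (sig t - w) := funext hb
  refine lam_Z hC hD ?_ ?_
  · rw [hfun]; exact per_k hC w
  · intro z hz
    rw [hfun]; exact cT_k hC hw hz

theorem lam_k2 (hC : Curve sig sig' In) (hD : Dyn sig sig' N lam) {w : ℂ} (hw : w ∈ In) {b : BB}
    (hb : ∀ t, b t = 1 / (sig t - w) ^ 2) : lam b = 0 := by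
  have hfun : (b : ℝ → ℂ) = fun t => 1 / (sig t - w) ^ 2 := funext hb
  refine lam_Z hC hD ?_ ?_
  · rw [hfun]
    intro t
    simp only [hC.hp t]
  · intro z hz
    rw [hfun]; exact cT_k2 hC hw hz

/-- Product of two kernels. -/
theorem lam_kk (hC : Curve sig sig' In) (hD : Dyn sig sig' N lam) {w w' : ℂ} (hw : w ∈ In)
    (hw' : w' ∈ In) {b : BB} (hb : ∀ t, b t = 1 / (sig t - w) * (1 / (sig t - w'))) : lam b = 0 := by
  have hne : ∀ t, sig t - w ≠ 0 := fun t => sub_ne_zero.2 (hC.hIn w hw t)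
  have hne' : ∀ t, sig t - w' ≠ 0 := fun t => sub_ne_zero.2 (hC.hIn w' hw' t)
  by_cases h : w = w'
  · subst h
    refine lam_k2 hC hD hw fun t => ?_
    rw [hb t]
    have := hne t
    field_simp
  · have hww : w - w' ≠ 0 := sub_ne_zero.2 h
    obtain ⟨b1, hb1⟩ := exists_mkB (f := fun t => 1 / (sig t - w))
      (continuous_const.div (hC.hc.sub continuous_const) hne) (per_k hC w)
    obtain ⟨b2, hb2⟩ := exists_mkB (f := fun t => 1 / (sig t - w'))
      (continuous_const.div (hC.hc.sub continuous_const) hne') (per_k hC w')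
    have hcomb : b = (1 / (w - w')) • (b1 - b2) := by
      ext t
      simp only [BoundedContinuousFunction.coe_smul, BoundedContinuousFunction.coe_sub,
        Pi.sub_apply, hb t, hb1 t, hb2 t, smul_eq_mul]
      have h1 := hne t
      have h2 := hne' t
      field_simp
      ring
    rw [hcomb, map_smul, map_sub, lam_k hC hD hw hb1, lam_k hC hD hw' hb2]
    simp

end Kernels

section Outer

variable {sig sig' : ℝ → ℂ} {In : Set ℂ} {N : BB →L[ℂ] BB} {lam : BB →L[ℂ] ℂ}

/-- Uniform separation between the curve and its outward dilate. -/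
theorem exists_sep (hC : Curve sig sig' In) {r : ℝ} (hr : 1 < r) :
    ∃ c : ℝ, 0 < c ∧ ∀ τ t, c ≤ ‖sig τ - (r:ℂ) * sig t‖ := by
  have hpos : (0:ℝ) < 2 * π := by positivity
  have hcpt : IsCompact (Icc (0:ℝ) (2 * π) ×ˢ Icc (0:ℝ) (2 * π)) :=
    isCompact_Icc.prod isCompact_Icc
  have hne : (Icc (0:ℝ) (2 * π) ×ˢ Icc (0:ℝ) (2 * π)).Nonempty :=
    ⟨(0, 0), ⟨⟨le_refl _, hpos.le⟩, ⟨le_refl _, hpos.le⟩⟩⟩
  obtain ⟨p0, -, hmin⟩ := hcpt.exists_isMinOn
    (f := fun p : ℝ × ℝ => ‖sig p.1 - (r:ℂ) * sig p.2‖) hne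
    (Continuous.continuousOn
      ((hC.hc.comp continuous_fst).sub (continuous_const.mul (hC.hc.comp continuous_snd))).norm)
  refine ⟨‖sig p0.1 - (r:ℂ) * sig p0.2‖,
    norm_pos_iff.2 (sub_ne_zero.2 (hC.hOut r hr _ _)), fun τ t => ?_⟩
  obtain ⟨y1, hy1, h1⟩ := hC.hp.exists_mem_Ico₀ hpos τ
  obtain ⟨y2, hy2, h2⟩ := hC.hp.exists_mem_Ico₀ hpos t
  rw [h1, h2]
  have := hmin (show (y1, y2) ∈ Icc (0:ℝ) (2 * π) ×ˢ Icc (0:ℝ) (2 * π) from
    ⟨Ico_subset_Icc_self hy1, Ico_subset_Icc_self hy2⟩)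
  simpa using this

/-- The family of outer kernels as a continuous curve in the Banach space. -/
theorem exists_K (hC : Curve sig sig' In) {r : ℝ} (hr : 1 < r) :
    ∃ K : ℝ → BB, Continuous K ∧ ∀ τ t, K τ t = 1 / (sig τ - (r:ℂ) * sig t) := by
  obtain ⟨c, hc, hsep⟩ := exists_sep hC hr
  have hne : ∀ τ t, sig τ - (r:ℂ) * sig t ≠ 0 := fun τ t =>
    norm_pos_iff.1 (lt_of_lt_of_le hc (hsep τ t))
  have hcont : ∀ τ, Continuous fun t => 1 / (sig τ - (r:ℂ) * sig t) := fun τ =>
    continuous_const.div (continuous_const.sub (continuous_const.mul hC.hc)) (hne τ)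
  have hbd : ∀ τ t, ‖1 / (sig τ - (r:ℂ) * sig t)‖ ≤ 1 / c := by
    intro τ t
    rw [norm_div, norm_one]
    exact one_div_le_one_div_of_le hc (hsep τ t)
  refine ⟨fun τ => BoundedContinuousFunction.ofNormedAddCommGroup _ (hcont τ) (1 / c) (hbd τ), ?_,
    fun _ _ => rfl⟩
  rw [Metric.continuous_iff]
  intro τ0 ε hε
  obtain ⟨δ, hδ, hsc⟩ := Metric.continuous_iff.1 hC.hc τ0 (ε * c ^ 2 / 2) (by positivity)
  refine ⟨δ, hδ, fun τ hτ => ?_⟩
  have hle : dist (BoundedContinuousFunction.ofNormedAddCommGroup _ (hcont τ) (1 / c) (hbd τ))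
      (BoundedContinuousFunction.ofNormedAddCommGroup _ (hcont τ0) (1 / c) (hbd τ0))
      ≤ ε / 2 := by
    refine (BoundedContinuousFunction.dist_le (by positivity)).2 fun t => ?_
    simp only [BoundedContinuousFunction.coe_ofNormedAddCommGroup]
    rw [dist_eq_norm]
    have h1 := hne τ t
    have h2 := hne τ0 t
    have heq : 1 / (sig τ - (r:ℂ) * sig t) - 1 / (sig τ0 - (r:ℂ) * sig t)
        = (sig τ0 - sig τ) / ((sig τ - (r:ℂ) * sig t) * (sig τ0 - (r:ℂ) * sig t)) := by
      field_simp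
      ring
    rw [heq, norm_div, norm_mul]
    have h3 : ‖sig τ0 - sig τ‖ ≤ ε * c ^ 2 / 2 := by
      have := hsc τ hτ
      rw [dist_comm, dist_eq_norm] at this
      exact this.le
    have h4 : c * c ≤ ‖sig τ - (r:ℂ) * sig t‖ * ‖sig τ0 - (r:ℂ) * sig t‖ :=
      mul_le_mul (hsep τ t) (hsep τ0 t) hc.le (norm_nonneg _)
    rw [div_le_iff₀ (lt_of_lt_of_le (by positivity) h4)]
    calc ‖sig τ0 - sig τ‖ ≤ ε * c ^ 2 / 2 := h3
      _ = ε / 2 * (c * c) := by ring
      _ ≤ _ := mul_le_mul_of_nonneg_left h4 (by positivity)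
  exact lt_of_le_of_lt hle (half_lt_self hε)

/-- Pull a bounded linear functional through the Cauchy integral representation. -/
theorem L_E (hC : Curve sig sig' In) {r : ℝ} {K : ℝ → BB} (hK : Continuous K)
    (hKt : ∀ τ t, K τ t = 1 / (sig τ - (r:ℂ) * sig t)) {h : ℝ → ℂ} (hh : Continuous h) {b : BB}
    (hb : ∀ t, b t = cT sig sig' h ((r:ℂ) * sig t)) (L : BB →L[ℂ] ℂ) :
    L b = (1 / (2 * π * I)) * ∫ τ in (0:ℝ)..(2 * π), (h τ * sig' τ) * L (K τ) := by
  have hFc : Continuous fun τ => (h τ * sig' τ) • K τ := (hh.mul hC.hc').smul hK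
  have hFi : IntervalIntegrable (fun τ => (h τ * sig' τ) • K τ) volume 0 (2 * π) :=
    hFc.intervalIntegrable _ _
  set E : BB := (1 / (2 * π * I) : ℂ) • ∫ τ in (0:ℝ)..(2 * π), (h τ * sig' τ) • K τ with hE
  have hbE : b = E := by
    ext t
    rw [hb t, hE]
    have h1 : (∫ τ in (0:ℝ)..(2 * π), (h τ * sig' τ) • K τ) t
        = ∫ τ in (0:ℝ)..(2 * π), (h τ * sig' τ) * K τ t := by
      have := (BoundedContinuousFunction.evalCLM ℂ t).intervalIntegral_comp_comm hFi
      simpa [BoundedContinuousFunction.evalCLM] using this.symm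
    simp only [BoundedContinuousFunction.coe_smul, smul_eq_mul]
    rw [h1]
    unfold cT
    congr 1
    refine intervalIntegral.integral_congr fun τ _ => ?_
    simp only [hKt]
    ring
  rw [hbE, hE, map_smul, smul_eq_mul]
  congr 1
  have := L.intervalIntegral_comp_comm hFi
  rw [← this]
  refine intervalIntegral.integral_congr fun τ _ => ?_
  simp only [map_smul, smul_eq_mul]

/-- The outer kernel in terms of the inner kernel. -/
theorem K_eq {r : ℝ} (hr : 1 < r) (σ x : ℂ) (h : σ - (r:ℂ) * x ≠ 0) :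
    1 / (σ - (r:ℂ) * x) = (-(r:ℂ)⁻¹) * (1 / (x - (r:ℂ)⁻¹ * σ)) := by
  have hr0 : (r:ℂ) ≠ 0 := by
    have : r ≠ 0 := by linarith
    exact_mod_cast this
  have h2 : x - (r:ℂ)⁻¹ * σ ≠ 0 := by
    intro h3
    apply h
    have : x = (r:ℂ)⁻¹ * σ := sub_eq_zero.1 h3
    rw [this]
    field_simp
    ring
  have h3 : σ - (r:ℂ) * x = -((r:ℂ) * (x - (r:ℂ)⁻¹ * σ)) := by
    field_simp
    ring
  rw [h3]
  field_simp

/-- **Equilibrium property.** `lam` kills the outer Cauchy transforms. -/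
theorem lam_E (hC : Curve sig sig' In) (hD : Dyn sig sig' N lam) {r : ℝ} (hr : 1 < r) {h : ℝ → ℂ}
    (hh : Continuous h) {b : BB} (hb : ∀ t, b t = cT sig sig' h ((r:ℂ) * sig t)) : lam b = 0 := by
  obtain ⟨K, hK, hKt⟩ := exists_K hC hr
  rw [L_E hC hK hKt hh hb lam]
  have hzero : ∀ τ, lam (K τ) = 0 := by
    intro τ
    have hw := hC.hS r hr τ
    have hne : ∀ t, sig t - (r:ℂ)⁻¹ * sig τ ≠ 0 := fun t => sub_ne_zero.2 (hC.hIn _ hw t)
    obtain ⟨b1, hb1⟩ := exists_mkB (f := fun t => 1 / (sig t - (r:ℂ)⁻¹ * sig τ))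
      (continuous_const.div (hC.hc.sub continuous_const) hne) (per_k hC _)
    have hcomb : K τ = (-(r:ℂ)⁻¹) • b1 := by
      ext t
      simp only [BoundedContinuousFunction.coe_smul, hKt, hb1 t, smul_eq_mul]
      exact K_eq hr _ _ (sub_ne_zero.2 (hC.hOut r hr t τ))
    rw [hcomb, map_smul, lam_k hC hD hw hb1, smul_zero]
  simp [hzero]

/-- **Isotropy.** `lam` kills products of two outer Cauchy transforms. -/
theorem lam_EE (hC : Curve sig sig' In) (hD : Dyn sig sig' N lam) {r : ℝ} (hr : 1 < r)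
    {h k : ℝ → ℂ} (hh : Continuous h) (hk : Continuous k) {b1 b2 : BB}
    (hb1 : ∀ t, b1 t = cT sig sig' h ((r:ℂ) * sig t))
    (hb2 : ∀ t, b2 t = cT sig sig' k ((r:ℂ) * sig t)) : lam (b1 * b2) = 0 := by
  obtain ⟨K, hK, hKt⟩ := exists_K hC hr
  have hKK : ∀ τ τ', lam (K τ * K τ') = 0 := by
    intro τ τ'
    have hw := hC.hS r hr τ
    have hw' := hC.hS r hr τ'
    have hne : ∀ t, sig t - (r:ℂ)⁻¹ * sig τ ≠ 0 := fun t => sub_ne_zero.2 (hC.hIn _ hw t)
    have hne' : ∀ t, sig t - (r:ℂ)⁻¹ * sig τ' ≠ 0 := fun t => sub_ne_zero.2 (hC.hIn _ hw' t)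
    obtain ⟨b0, hb0⟩ := exists_mkB
      (f := fun t => 1 / (sig t - (r:ℂ)⁻¹ * sig τ) * (1 / (sig t - (r:ℂ)⁻¹ * sig τ')))
      ((continuous_const.div (hC.hc.sub continuous_const) hne).mul
        (continuous_const.div (hC.hc.sub continuous_const) hne'))
      ((per_k hC _).mul (per_k hC _))
    have hcomb : K τ * K τ' = ((r:ℂ)⁻¹ * (r:ℂ)⁻¹) • b0 := by
      ext t
      simp only [BoundedContinuousFunction.coe_smul, BoundedContinuousFunction.coe_mul,
        Pi.mul_apply, hKt, hb0 t, smul_eq_mul]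
      rw [K_eq hr _ _ (sub_ne_zero.2 (hC.hOut r hr t τ)),
        K_eq hr _ _ (sub_ne_zero.2 (hC.hOut r hr t τ'))]
      ring
    rw [hcomb, map_smul, lam_kk hC hD hw hw' hb0, smul_zero]
  have hstep : ∀ τ, lam (K τ * b2) = 0 := by
    intro τ
    have := L_E hC hK hKt hk hb2 (lam.comp (ContinuousLinearMap.mul ℂ BB (K τ)))
    simp only [ContinuousLinearMap.comp_apply, ContinuousLinearMap.mul_apply'] at this
    rw [this]
    simp [hKK]
  have := L_E hC hK hKt hh hb1 (lam.comp ((ContinuousLinearMap.mul ℂ BB).flip b2))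
  simp only [ContinuousLinearMap.comp_apply, ContinuousLinearMap.flip_apply,
    ContinuousLinearMap.mul_apply'] at this
  rw [this]
  simp [hstep]

end Outer

end Vale.Agent.Lib.P123C.Equil
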