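import Vale.Agent.Lib.P123C.EquilGeom
import Vale.Agent.Lib.P123C.CrvData
import Vale.Agent.Lib.P123C.LimitsGeom

/-!
# Adapter: the Doeblin data of a curve satisfies the raw hypotheses `Equil.Dyn`.
-/

open Complex Set Filter Topology
open scoped Real ComplexConjugate

noncomputable section

namespace Vale.Agent.Lib.P123C.Equil

open Vale.Agent.Lib.P123C.Geom Vale.Agent.Lib.P123C.CrvData

/-- The Cauchy transform of `Calc` is the Cauchy transform of `Equil` for the curve of `Geom`. -/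
theorem Cc_eq_cT {s s1 R : ℝ → ℝ} (h : ℝ → ℂ) (z : ℂ) :
    Calc.Cc s s1 R h z = cT (sig s s1) (fun t => I * (R t : ℂ) * e t) h z := by
  unfold Calc.Cc cT
  congr 1
  · simp [one_div]
  · apply intervalIntegral.integral_congr
    intro t _
    simp only [Oper.sigD, div_eq_mul_inv]
    ring

/-- The curve bundle as `CurveBd`. -/
theorem Crv.curveBd (c : Crv) {smin : ℝ} (hsmin : 0 < smin) (hs0 : ∀ t, smin ≤ c.s t) :
    LimitsGeom.CurveBd c.s c.s1 c.R c.rmin c.rmax smin where
  crv := ⟨c.hs, c.hs1, c.hper, c.hper1, c.hRc, c.hRper⟩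
  rmin_pos := c.hr0
  smin_pos := hsmin
  R_ge := c.hmin
  R_le := c.hmax
  s_ge := hs0

/-- The raw curve hypotheses for the curve bundle. -/
theorem Crv.curve (c : Crv) {smin : ℝ} (hsmin : 0 < smin) (hs0 : ∀ t, smin ≤ c.s t) :
    Curve (sig c.s c.s1) (fun t => I * (c.R t : ℂ) * e t) (inRegion c.s) :=
  curve_geom c.hs c.hs1 c.hper c.hper1 c.hRc c.hr0.le c.hmin c.hmax
    (fun t => lt_of_lt_of_le hsmin (hs0 t))

/-- The raw dynamical hypotheses for the Doeblin data of the curve. -/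
theorem Crv.dyn (c : Crv) {smin : ℝ} (hsmin : 0 < smin) (hs0 : ∀ t, smin ≤ c.s t) :
    Dyn (sig c.s c.s1) (fun t => I * (c.R t : ℂ) * e t) c.NL c.data.lam where
  hNper := by
    intro h t
    rw [Crv.NL_apply, Crv.NL_apply]
    exact c.Nf_periodic h t
  hNconj := by
    intro h
    have := c.data.N_star h
    simpa using this
  hmix := by
    intro h
    rw [tendsto_iff_norm_sub_tendsto_zero]
    have hκ0 : 0 ≤ c.data.κ := c.data.hκ0
    have hκ1 : c.data.κ < 1 := c.data.hκ1
    have hlim : Tendsto (fun n : ℕ => 2 * c.data.κ ^ n * ‖h‖) atTop (𝓝 0) := by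
      have h1 := tendsto_pow_atTop_nhds_zero_of_lt_one hκ0 hκ1
      have h2 := (h1.const_mul 2).mul_const ‖h‖
      simpa using h2
    refine squeeze_zero (fun n => norm_nonneg _) (fun n => ?_) hlim
    have := c.data.pow_close h n
    simpa using this
  hA2 := by
    intro h hp ε hε
    have hB := Crv.curveBd c hsmin hs0
    obtain ⟨r₀, h1, h2⟩ := LimitsGeom.jump_double_layer' hB h.continuous (fun t => hp t) hε
    refine ⟨r₀, h1, fun r hr hr₀ t => ?_⟩
    have := h2 r hr hr₀ t
    have hr' : ((r : ℂ)⁻¹ * sig c.s c.s1 t) = sig c.s c.s1 t / (r : ℂ) := by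
      rw [div_eq_mul_inv, mul_comm]
    rw [hr', ← Cc_eq_cT, ← Cc_eq_cT, Crv.NL_apply]
    simpa [Crv.Nf, Crv.n] using this

end Vale.Agent.Lib.P123C.Equil
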