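import Mathlib

/-!
# Crouzeix route of finding 1600: FACT 2 and FACT 3, in abstract form

`A` is a commutative normed star algebra and `lam` a state on it.  The point of these
statements is that they are pure algebra plus the maximum modulus principle:

* `fact2`: if `G - E → h`, `G + star G → h + k`, `lam (E * E) = 0` and `Q k ≤ Q h` then
  `limsup Q G ≤ Q h`, where `Q a = Re lam (star a * a)`.
* `fact3_alg`: the Pythagoras computation `Q ψ ≤ Q α`.
* `exp_trick`: `g1 + conj g2 = α` on the boundary forces `g2` constant and `g1 = α - conj c`.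
* `fact3`: the concrete combination for the Cauchy transform on bounded continuous functions.
-/

open Filter Topology Complex
open scoped ComplexConjugate Real

namespace Vale.Agent.Lib.P123C.Facts

set_option linter.unusedSectionVars false

noncomputable section

section Abstract

variable {A : Type*} [NormedCommRing A] [NormedAlgebra ℂ A] [StarRing A] [StarModule ℂ A]
  [NormedStarGroup A]

/-- A state on a commutative normed star algebra (the norm bound makes it continuous). -/
structure IsState (lam : A →L[ℂ] ℂ) : Prop where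
  one : lam 1 = 1
  pos : ∀ a, 0 ≤ (lam (star a * a)).re
  star_eq : ∀ a, lam (star a) = conj (lam a)
  norm_le : ∀ a, ‖lam a‖ ≤ ‖a‖

/-- The quadratic form of `lam`. -/
def Q (lam : A →L[ℂ] ℂ) (a : A) : ℝ := (lam (star a * a)).re

theorem Q_nonneg {lam : A →L[ℂ] ℂ} (hl : IsState lam) (a : A) : 0 ≤ Q lam a := hl.pos a

theorem Q_star_le {lam : A →L[ℂ] ℂ} (hl : IsState lam) (d : A) : Q lam (star d) ≤ ‖d‖ ^ 2 := by
  unfold Q
  rw [star_star]
  calc (lam (d * star d)).re ≤ ‖lam (d * star d)‖ := Complex.re_le_norm _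
    _ ≤ ‖d * star d‖ := hl.norm_le _
    _ ≤ ‖d‖ * ‖star d‖ := norm_mul_le _ _
    _ = ‖d‖ ^ 2 := by rw [norm_star]; ring

theorem re_lam_le_norm {lam : A →L[ℂ] ℂ} (hl : IsState lam) (a : A) : (lam a).re ≤ ‖a‖ :=
  (Complex.re_le_norm _).trans (hl.norm_le a)

/-- Young inequality for the form of `lam`. -/
theorem re_lam_mul_le {lam : A →L[ℂ] ℂ} (hl : IsState lam) (d G : A) {η : ℝ} (hη : 0 < η) :
    (lam (d * G)).re ≤ η / 2 * Q lam G + Q lam (star d) / (2 * η) := by
  have h0 := hl.pos (((η : ℝ) : ℂ) • G - star d)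
  have h1 : star (((η : ℝ) : ℂ) • G - star d) * (((η : ℝ) : ℂ) • G - star d)
      = ((η : ℂ) * η) • (star G * G) - (η : ℂ) • star (d * G) - (η : ℂ) • (d * G)
        + star (star d) * star d := by
    rw [star_sub, star_smul, star_star, star_mul]
    simp only [Complex.star_def, Complex.conj_ofReal]
    simp only [sub_mul, mul_sub, smul_mul_assoc, mul_smul_comm, smul_sub, smul_smul]
    rw [mul_comm (star G) (star d)]
    abel
  rw [h1] at h0
  simp only [map_add, map_sub, map_smul, hl.star_eq, smul_eq_mul, Complex.add_re, Complex.sub_re,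
    Complex.mul_re, Complex.ofReal_re, Complex.ofReal_im, Complex.conj_re, zero_mul, sub_zero,
    Complex.mul_im, add_zero, mul_zero] at h0
  have h2 : Q lam (star d) = (lam (d * star d)).re := by
    unfold Q; rw [star_star]
  have h3 : Q lam G = (lam (star G * G)).re := rfl
  have hne : η ≠ 0 := hη.ne'
  rw [star_star] at h0
  rw [h2, h3]
  have h4 : 2 * η * (lam (d * G)).re ≤ η * η * (lam (star G * G)).re + (lam (d * star d)).re := by
    nlinarith
  rw [← sub_nonneg]
  have h5 : η / 2 * (lam (star G * G)).re + (lam (d * star d)).re / (2 * η) - (lam (d * G)).re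
      = (η * η * (lam (star G * G)).re + (lam (d * star d)).re - 2 * η * (lam (d * G)).re)
        / (2 * η) := by
    field_simp
  rw [h5]
  apply div_nonneg <;> linarith

theorem fact2_ineq {lam : A →L[ℂ] ℂ} (hl : IsState lam) {h k G E : A}
    (hh : star h = h) (hk : star k = k) (hE : lam (E * E) = 0)
    (hJ : Q lam k ≤ Q lam h) {η : ℝ} (hη : 0 < η) :
    (1 - η / 2) * Q lam G ≤ Q lam h + ‖k - h‖ * ‖G + star G - h - k‖ / 2
      + ‖(G + star G - h - k) - (2 : ℂ) • (G - E - h)‖ ^ 2 / (2 * η)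
      + 2 * ‖h‖ * ‖G - E - h‖ + ‖G - E - h‖ ^ 2 := by
  set e1 := G - E - h with he1
  set e2 := G + star G - h - k with he2
  set v := k - h with hv
  set d := e2 - (2 : ℂ) • e1 with hd
  have hEeq : E = G - (h + e1) := by rw [he1]; abel
  have hS : star G = h + k + e2 - G := by rw [he2]; abel
  have hexp : lam (star G * G) = lam (v * G) + lam (d * G) + lam ((h + e1) * (h + e1)) := by
    have h1 : lam (E * E) = lam (G * G) - (2 : ℂ) * lam ((h + e1) * G)
        + lam ((h + e1) * (h + e1)) := by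
      rw [hEeq]
      have : (G - (h + e1)) * (G - (h + e1)) = G * G - (2 : ℂ) • ((h + e1) * G)
          + (h + e1) * (h + e1) := by
        rw [two_smul]; ring
      rw [this]
      simp
    rw [hE] at h1
    have h2 : star G * G = (h + k + e2) * G - G * G := by rw [hS]; ring
    rw [h2, map_sub]
    have h3 : (h + k + e2) * G = v * G + d * G + (2 : ℂ) • ((h + e1) * G) := by
      rw [hv, hd, two_smul, two_smul]; ring
    rw [h3]
    simp only [map_add, map_smul, smul_eq_mul] at h1 ⊢
    linear_combination h1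
  have hstar_v : star v = v := by rw [hv, star_sub, hh, hk]
  have hvG : 2 * (lam (v * G)).re = Q lam k - Q lam h + (lam (v * e2)).re := by
    have h1 : lam (star (v * G)) = conj (lam (v * G)) := hl.star_eq _
    rw [star_mul, hstar_v] at h1
    have h2 : lam (v * G) + lam (star G * v) = lam (k * k) - lam (h * h) + lam (v * e2) := by
      rw [← map_add]
      have : v * G + star G * v = k * k - h * h + v * e2 := by
        rw [hS, hv]; ring
      rw [this]; simp
    have h3 := congrArg Complex.re h2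
    rw [h1] at h3
    simp only [Complex.add_re, Complex.conj_re, Complex.sub_re] at h3
    have h4 : Q lam k = (lam (k * k)).re := by unfold Q; rw [hk]
    have h5 : Q lam h = (lam (h * h)).re := by unfold Q; rw [hh]
    rw [h4, h5]; linarith
  have hve2 : (lam (v * e2)).re ≤ ‖v‖ * ‖e2‖ :=
    (re_lam_le_norm hl _).trans (norm_mul_le _ _)
  have hdG := re_lam_mul_le hl d G hη
  have hdstar := Q_star_le hl d
  have hH : (lam ((h + e1) * (h + e1))).re ≤ Q lam h + 2 * ‖h‖ * ‖e1‖ + ‖e1‖ ^ 2 := by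
    have : (h + e1) * (h + e1) = h * h + (2 : ℂ) • (h * e1) + e1 * e1 := by
      rw [two_smul]; ring
    rw [this]
    simp only [map_add, map_smul, smul_eq_mul, Complex.add_re, Complex.mul_re, Complex.re_ofNat,
      Complex.im_ofNat, zero_mul, sub_zero]
    have h5 : Q lam h = (lam (h * h)).re := by unfold Q; rw [hh]
    rw [h5]
    have h6 : (lam (h * e1)).re ≤ ‖h‖ * ‖e1‖ := (re_lam_le_norm hl _).trans (norm_mul_le _ _)
    have h7 : (lam (e1 * e1)).re ≤ ‖e1‖ ^ 2 := by
      refine (re_lam_le_norm hl _).trans ((norm_mul_le _ _).trans (le_of_eq ?_))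
      ring
    nlinarith
  have hQG : Q lam G = (lam (v * G)).re + (lam (d * G)).re + (lam ((h + e1) * (h + e1))).re := by
    unfold Q
    rw [hexp]
    simp only [Complex.add_re]
  have hdiv : Q lam (star d) / (2 * η) ≤ ‖d‖ ^ 2 / (2 * η) :=
    div_le_div_of_nonneg_right hdstar (by positivity)
  have hnn : 0 ≤ ‖v‖ * ‖e2‖ := by positivity
  nlinarith

theorem tendsto_aux {h k : A} {ι : Type*} {l : Filter ι} {G E : ι → A}
    (h1 : Tendsto (fun r => G r - E r) l (𝓝 h))
    (h2 : Tendsto (fun r => G r + star (G r)) l (𝓝 (h + k)))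
    (η : ℝ) :
    Tendsto (fun r => ‖k - h‖ * ‖G r + star (G r) - h - k‖ / 2
      + ‖(G r + star (G r) - h - k) - (2 : ℂ) • (G r - E r - h)‖ ^ 2 / (2 * η)
      + 2 * ‖h‖ * ‖G r - E r - h‖ + ‖G r - E r - h‖ ^ 2) l (𝓝 0) := by
  have he1 : Tendsto (fun r => G r - E r - h) l (𝓝 0) := by
    have := h1.sub_const h
    rwa [sub_self] at this
  have he2 : Tendsto (fun r => G r + star (G r) - h - k) l (𝓝 0) := by
    have := (h2.sub_const h).sub_const k
    rwa [add_sub_cancel_left, sub_self] at this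
  have hd : Tendsto (fun r => (G r + star (G r) - h - k) - (2 : ℂ) • (G r - E r - h)) l (𝓝 0) := by
    have := he2.sub (he1.const_smul (2 : ℂ))
    rwa [smul_zero, sub_zero] at this
  have n1 : Tendsto (fun r => ‖G r - E r - h‖) l (𝓝 0) := by
    have := he1.norm
    rwa [norm_zero] at this
  have n2 : Tendsto (fun r => ‖G r + star (G r) - h - k‖) l (𝓝 0) := by
    have := he2.norm
    rwa [norm_zero] at this
  have nd : Tendsto (fun r => ‖(G r + star (G r) - h - k) - (2 : ℂ) • (G r - E r - h)‖) l (𝓝 0) := by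
    have := hd.norm
    rwa [norm_zero] at this
  have t1 := (n2.const_mul ‖k - h‖).div_const 2
  have t2 := (nd.pow 2).div_const (2 * η)
  have t3 := n1.const_mul (2 * ‖h‖)
  have t4 := n1.pow 2
  have := ((t1.add t2).add t3).add t4
  have h0 : ‖k - h‖ * (0 : ℝ) / 2 + (0 : ℝ) ^ 2 / (2 * η) + 2 * ‖h‖ * (0 : ℝ) + (0 : ℝ) ^ 2 = 0 := by
    ring
  rwa [h0] at this

/-- **FACT 2** (abstract): `limsup Q G ≤ Q h`. -/
theorem fact2 {lam : A →L[ℂ] ℂ} (hl : IsState lam) {h k : A}
    (hh : star h = h) (hk : star k = k) (hJ : Q lam k ≤ Q lam h)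
    {ι : Type*} {l : Filter ι} {G E : ι → A}
    (h1 : Tendsto (fun r => G r - E r) l (𝓝 h))
    (h2 : Tendsto (fun r => G r + star (G r)) l (𝓝 (h + k)))
    (h3 : ∀ᶠ r in l, lam (E r * E r) = 0) {ε : ℝ} (hε : 0 < ε) :
    ∀ᶠ r in l, Q lam (G r) ≤ Q lam h + ε := by
  set q := Q lam h with hq
  have hq0 : 0 ≤ q := Q_nonneg hl h
  set η := min 1 (ε / (4 * (q + 1))) with hη
  have hη0 : 0 < η := lt_min one_pos (by positivity)
  have hη1 : η ≤ 1 := min_le_left _ _
  have hη2 : η * (q + 1) ≤ ε / 4 := by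
    have : η ≤ ε / (4 * (q + 1)) := min_le_right _ _
    calc η * (q + 1) ≤ ε / (4 * (q + 1)) * (q + 1) := by gcongr
      _ = ε / 4 := by field_simp
  have hs0 : 0 < min 1 (ε / 4) := lt_min one_pos (by positivity)
  have ht := (tendsto_aux (k := k) (h := h) h1 h2 η).eventually (gt_mem_nhds hs0)
  filter_upwards [ht, h3] with r hr hE
  have hi := fact2_ineq (G := G r) (E := E r) hl hh hk hE hJ hη0
  have hs1 : ‖k - h‖ * ‖G r + star (G r) - h - k‖ / 2
      + ‖(G r + star (G r) - h - k) - (2 : ℂ) • (G r - E r - h)‖ ^ 2 / (2 * η)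
      + 2 * ‖h‖ * ‖G r - E r - h‖ + ‖G r - E r - h‖ ^ 2 < 1 := hr.trans_le (min_le_left _ _)
  have hs2 : ‖k - h‖ * ‖G r + star (G r) - h - k‖ / 2
      + ‖(G r + star (G r) - h - k) - (2 : ℂ) • (G r - E r - h)‖ ^ 2 / (2 * η)
      + 2 * ‖h‖ * ‖G r - E r - h‖ + ‖G r - E r - h‖ ^ 2 < ε / 4 := hr.trans_le (min_le_right _ _)
  have hQ0 : 0 ≤ Q lam (G r) := Q_nonneg hl _
  set s := ‖k - h‖ * ‖G r + star (G r) - h - k‖ / 2
      + ‖(G r + star (G r) - h - k) - (2 : ℂ) • (G r - E r - h)‖ ^ 2 / (2 * η)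
      + 2 * ‖h‖ * ‖G r - E r - h‖ + ‖G r - E r - h‖ ^ 2 with hs
  have hi' : (1 - η / 2) * Q lam (G r) ≤ q + s := by
    have : q + s = q + ‖k - h‖ * ‖G r + star (G r) - h - k‖ / 2
      + ‖(G r + star (G r) - h - k) - (2 : ℂ) • (G r - E r - h)‖ ^ 2 / (2 * η)
      + 2 * ‖h‖ * ‖G r - E r - h‖ + ‖G r - E r - h‖ ^ 2 := by rw [hs]; ring
    rw [this]; exact hi
  have hQq : Q lam (G r) ≤ (q + s) * (1 + η) := by
    have h5 : (1 - η / 2) * (1 + η) ≥ 1 := by nlinarith
    have h6 : 0 ≤ 1 + η := by linarith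
    calc Q lam (G r) ≤ (1 - η / 2) * (1 + η) * Q lam (G r) := by nlinarith
      _ = ((1 - η / 2) * Q lam (G r)) * (1 + η) := by ring
      _ ≤ (q + s) * (1 + η) := by gcongr
  have hs3 : η * (q + s) ≤ η * (q + 1) := by gcongr
  nlinarith

/-- **FACT 3**, the Pythagoras computation. -/
theorem fact3_alg {lam : A →L[ℂ] ℂ} (hl : IsState lam) {ψ α e1 e2 : A} {c : ℂ}
    (he1 : e1 = α - algebraMap ℂ A (conj c) - ψ) (he2 : e2 = algebraMap ℂ A c - star ψ)
    (h1 : lam e1 = 0) (h2 : lam e2 = 0) (h3 : lam (e1 * e2) = 0) :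
    Q lam ψ ≤ Q lam α := by
  have hψ : ψ = algebraMap ℂ A (conj c) - star e2 := by
    rw [he2, star_sub, star_star, ← algebraMap_star_comm, Complex.star_def]
    abel
  have hα : α = e1 + (2 : ℂ) • algebraMap ℂ A (conj c) - star e2 := by
    rw [two_smul, he1]
    nth_rewrite 1 [hψ]
    abel
  have hlam1 : ∀ x : ℂ, lam (algebraMap ℂ A x) = x := by
    intro x
    rw [Algebra.algebraMap_eq_smul_one, map_smul, hl.one]; simp
  have hs1 : lam (star e1) = 0 := by rw [hl.star_eq, h1]; simp
  have hs2 : lam (star e2) = 0 := by rw [hl.star_eq, h2]; simp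
  have hs3 : lam (star e1 * star e2) = 0 := by
    rw [← star_mul, hl.star_eq, mul_comm, h3]; simp
  have hQe2 : (lam (e2 * star e2)).re = Q lam e2 := by
    unfold Q; rw [mul_comm]
  have hQψ : Q lam ψ = c.normSq + Q lam e2 := by
    unfold Q
    rw [hψ, star_sub, star_star, ← algebraMap_star_comm]
    have : (algebraMap ℂ A (star (conj c)) - e2) * (algebraMap ℂ A (conj c) - star e2)
        = algebraMap ℂ A (c * conj c) - c • star e2 - (conj c) • e2 + star e2 * e2 := by
      simp only [Complex.star_def, Complex.conj_conj, map_mul, Algebra.smul_def]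
      ring
    rw [this]
    simp only [map_add, map_sub, map_smul, hlam1, hs2, h2, smul_eq_mul, mul_zero, sub_zero,
      Complex.add_re]
    rw [Complex.mul_conj]
    simp
  have hQα : Q lam α = Q lam e1 + 4 * c.normSq + Q lam e2 := by
    unfold Q
    rw [hα, star_sub, star_add, star_smul, star_star, ← algebraMap_star_comm]
    have : (star e1 + star (2 : ℂ) • algebraMap ℂ A (star (conj c)) - e2)
        * (e1 + (2 : ℂ) • algebraMap ℂ A (conj c) - star e2)
        = star e1 * e1 + algebraMap ℂ A (4 * (c * conj c)) + ((2 : ℂ) * conj c) • star e1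
          - star e1 * star e2 + ((2 : ℂ) * c) • e1 - ((2 : ℂ) * c) • star e2
          - (e1 * e2) - ((2 : ℂ) * conj c) • e2 + star e2 * e2 := by
      simp only [Complex.star_def, Complex.conj_conj, map_mul, Algebra.smul_def, map_ofNat]
      ring
    rw [this]
    simp only [map_add, map_sub, map_smul, hlam1, hs1, hs2, hs3, h1, h2, h3, smul_eq_mul, mul_zero,
      sub_zero, Complex.add_re, add_zero]
    rw [Complex.mul_conj]
    simp only [Complex.re_ofNat, Complex.mul_re, Complex.ofReal_re, Complex.ofReal_im, mul_zero,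
      Complex.im_ofNat, sub_zero]
  rw [hQψ, hQα]
  have h0 : 0 ≤ Q lam e1 := Q_nonneg hl _
  have h00 : 0 ≤ c.normSq := Complex.normSq_nonneg _
  linarith

end Abstract

section ExpTrick

/-- A holomorphic function whose conjugate is holomorphic has derivative zero. -/
theorem deriv_zero_of_conj_differentiable {g : ℂ → ℂ} {z : ℂ} (h1 : DifferentiableAt ℂ g z)
    (h2 : DifferentiableAt ℂ (fun w => conj (g w)) z) : deriv g z = 0 := by
  have hg := h1.hasDerivAt
  have hc := h2.hasDerivAt
  set D := deriv g z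
  set D' := deriv (fun w => conj (g w)) z
  -- restrict to the real direction
  have hl1 : HasDerivAt (fun t : ℝ => z + (t : ℂ)) 1 (0 : ℝ) := by
    simpa using (Complex.ofRealCLM.hasDerivAt (x := (0 : ℝ))).const_add z
  have hl2 : HasDerivAt (fun t : ℝ => z + (t : ℂ) * I) I (0 : ℝ) := by
    have := ((Complex.ofRealCLM.hasDerivAt (x := (0 : ℝ))).mul_const I).const_add z
    simpa using this
  have hz1 : z = z + ((0 : ℝ) : ℂ) := by simp
  have hz2 : z = z + ((0 : ℝ) : ℂ) * I := by simp
  have a1 : HasDerivAt (fun t : ℝ => g (z + (t : ℂ))) (D * 1) (0 : ℝ) :=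
    HasDerivAt.comp_of_eq (0 : ℝ) hg hl1 hz1
  have a2 : HasDerivAt (fun t : ℝ => conj (g (z + (t : ℂ)))) (D' * 1) (0 : ℝ) :=
    HasDerivAt.comp_of_eq (h₂ := fun w => conj (g w)) (0 : ℝ) hc hl1 hz1
  have a3 : HasDerivAt (fun t : ℝ => g (z + (t : ℂ) * I)) (D * I) (0 : ℝ) :=
    HasDerivAt.comp_of_eq (0 : ℝ) hg hl2 hz2
  have a4 : HasDerivAt (fun t : ℝ => conj (g (z + (t : ℂ) * I))) (D' * I) (0 : ℝ) :=
    HasDerivAt.comp_of_eq (h₂ := fun w => conj (g w)) (0 : ℝ) hc hl2 hz2
  have b1 : HasDerivAt (fun t : ℝ => conj (g (z + (t : ℂ)))) (conj (D * 1)) (0 : ℝ) := a1.star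
  have b3 : HasDerivAt (fun t : ℝ => conj (g (z + (t : ℂ) * I))) (conj (D * I)) (0 : ℝ) :=
    a3.star
  have e1 := a2.unique b1
  have e2 := a4.unique b3
  simp only [mul_one, map_mul, Complex.conj_I] at e1 e2
  rw [e1] at e2
  have : (conj D) * (2 * I) = 0 := by linear_combination e2
  have hI : (2 * I : ℂ) ≠ 0 := by simp
  have h0 : conj D = 0 := by
    rcases mul_eq_zero.mp this with h | h
    · exact h
    · exact absurd h hI
  simpa using h0

variable {In : Set ℂ} {σ : ℝ → ℂ}

/-- Dilated region. -/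
theorem exp_bound (hbdd : Bornology.IsBounded In)
    (hfront : frontier In ⊆ Set.range σ) (hdil : ∀ r : ℝ, 1 < r → ∀ z ∈ closure In, z / r ∈ In)
    {Φ : ℂ → ℂ} (hΦ : DifferentiableOn ℂ Φ In) {r : ℝ} (hr : 1 < r) {C : ℝ}
    (hC : ∀ t, (Φ (σ t / r)).re ≤ C) {z : ℂ} (hz : (r : ℂ) * z ∈ In) : (Φ z).re ≤ C := by
  have hr0 : (r : ℂ) ≠ 0 := by
    have : r ≠ 0 := by linarith
    exact_mod_cast this
  set hom : ℂ ≃ₜ ℂ := Homeomorph.mulLeft₀ (r : ℂ) hr0 with hhom
  set U : Set ℂ := {w | (r : ℂ) * w ∈ In} with hU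
  have hUeq : U = hom ⁻¹' In := rfl
  have hclU : closure U = hom ⁻¹' closure In := by
    rw [hUeq, hom.preimage_closure]
  have hfrU : frontier U = hom ⁻¹' frontier In := by
    rw [hUeq, hom.preimage_frontier]
  have hbU : Bornology.IsBounded U := by
    obtain ⟨R, hR⟩ := hbdd.subset_closedBall 0
    refine (Metric.isBounded_closedBall (x := (0 : ℂ)) (r := R)).subset ?_
    intro w hw
    have h1 := hR hw
    simp only [Metric.mem_closedBall, dist_zero_right, norm_mul, Complex.norm_real,
      Real.norm_eq_abs] at h1 ⊢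
    rw [abs_of_pos (by linarith)] at h1
    nlinarith [norm_nonneg w]
  have hclsub : closure U ⊆ In := by
    intro w hw
    rw [hclU] at hw
    have h1 : (r : ℂ) * w ∈ closure In := hw
    have h2 := hdil r hr _ h1
    rwa [mul_div_cancel_left₀ _ hr0] at h2
  have hexp : DifferentiableOn ℂ (fun w => Complex.exp (Φ w)) (closure U) :=
    (hΦ.mono hclsub).cexp
  have hd : DiffContOnCl ℂ (fun w => Complex.exp (Φ w)) U := hexp.diffContOnCl
  have hfr : ∀ w ∈ frontier U, ‖Complex.exp (Φ w)‖ ≤ Real.exp C := by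
    intro w hw
    rw [hfrU] at hw
    obtain ⟨t, ht⟩ := hfront hw
    have h1 : w = σ t / r := by
      have : (r : ℂ) * w = σ t := ht.symm
      rw [← this, mul_div_cancel_left₀ _ hr0]
    rw [h1, Complex.norm_exp]
    exact Real.exp_le_exp.mpr (hC t)
  have hzU : z ∈ closure U := subset_closure hz
  have := Complex.norm_le_of_forall_mem_frontier_norm_le hbU hd hfr hzU
  rw [Complex.norm_exp] at this
  exact Real.exp_le_exp.mp this

/-- The exponential trick: if `g1 + conj g2` has uniform boundary values `α`, with `α` holomorphic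
inside, then `g2` is a constant `c` and `g1 = α - conj c`. -/
theorem exp_trick (hopen : IsOpen In) (hbdd : Bornology.IsBounded In) (hconn : IsPreconnected In)
    (hfront : frontier In ⊆ Set.range σ) (hdil : ∀ r : ℝ, 1 < r → ∀ z ∈ closure In, z / r ∈ In)
    (hσ : ∀ t, σ t ∈ closure In)
    {g1 g2 α : ℂ → ℂ} (hg1 : DifferentiableOn ℂ g1 In) (hg2 : DifferentiableOn ℂ g2 In)
    (hα : DifferentiableOn ℂ α In) (hαc : ContinuousOn α (closure In))
    (hlim : ∀ ε > 0, ∃ r0 > (1 : ℝ), ∀ r : ℝ, 1 < r → r < r0 → ∀ t,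
      ‖g1 (σ t / r) + conj (g2 (σ t / r)) - α (σ t)‖ ≤ ε) :
    ∃ c : ℂ, ∀ z ∈ In, g2 z = c ∧ g1 z = α z - conj c := by
  -- uniform continuity of α
  have hcomp : IsCompact (closure In) := hbdd.isCompact_closure
  have huc := hcomp.uniformContinuousOn_of_continuous hαc
  obtain ⟨R, hR⟩ := hbdd.isCompact_closure.isBounded.subset_closedBall 0
  have hσR : ∀ t, ‖σ t‖ ≤ R := by
    intro t
    simpa using hR (hσ t)
  have hαlim : ∀ ε > 0, ∃ r0 > (1 : ℝ), ∀ r : ℝ, 1 < r → r < r0 → ∀ t,
      ‖α (σ t / r) - α (σ t)‖ ≤ ε := by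
    intro ε hε
    obtain ⟨δ, hδ, hδ'⟩ := Metric.uniformContinuousOn_iff.mp huc ε hε
    refine ⟨1 + δ / (|R| + 1), ?_, ?_⟩
    · have : 0 < δ / (|R| + 1) := by positivity
      linarith
    · intro r hr hr0 t
      have hmem : σ t / r ∈ closure In := subset_closure (hdil r hr _ (hσ t))
      have hd : dist (σ t / r) (σ t) < δ := by
        have hr0' : (r : ℂ) ≠ 0 := by
          have : r ≠ 0 := by linarith
          exact_mod_cast this
        have h1 : σ t / r - σ t = σ t * ((1 - r) / r) := by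
          field_simp
        rw [dist_eq_norm, h1, norm_mul]
        have h2 : ‖((1 : ℂ) - r) / r‖ = (r - 1) / r := by
          have : ((1 : ℂ) - r) / r = (((1 - r) / r : ℝ) : ℂ) := by push_cast; rfl
          rw [this, Complex.norm_real, Real.norm_eq_abs, abs_div, abs_of_neg (by linarith),
            abs_of_pos (by linarith)]
          ring
        rw [h2]
        have hR' : ‖σ t‖ ≤ |R| + 1 := by
          have := hσR t
          have := le_abs_self R
          linarith
        have h3 : (r - 1) / r ≤ r - 1 := div_le_self (by linarith) hr.le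
        have h4 : r - 1 < δ / (|R| + 1) := by linarith
        have hpos : 0 < |R| + 1 := by positivity
        calc ‖σ t‖ * ((r - 1) / r) ≤ (|R| + 1) * (r - 1) := by
              apply mul_le_mul hR' h3 (by apply div_nonneg <;> linarith) hpos.le
          _ < (|R| + 1) * (δ / (|R| + 1)) := by gcongr
          _ = δ := by field_simp
      have := hδ' _ hmem _ (hσ t) hd
      rw [dist_eq_norm] at this
      exact this.le
  -- the harmonic function vanishes
  have hF : ∀ z ∈ In, g1 z - α z + conj (g2 z) = 0 := by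
    intro z hz
    by_contra hne
    set F := g1 z - α z + conj (g2 z) with hFdef
    have hFpos : 0 < ‖F‖ := norm_pos_iff.mpr hne
    set u : ℂ := conj F / (‖F‖ : ℂ) with hu
    have huF : (u * F).re = ‖F‖ := by
      have h1 : u * F = (‖F‖ : ℂ) := by
        have hn : (‖F‖ : ℂ) ≠ 0 := by exact_mod_cast hFpos.ne'
        rw [hu]
        field_simp
        rw [mul_comm, Complex.mul_conj, Complex.normSq_eq_norm_sq]
        push_cast
        ring
      rw [h1]; simp
    have hunorm : ‖u‖ = 1 := by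
      rw [hu, norm_div, Complex.norm_conj, Complex.norm_real, norm_norm]
      field_simp
    set ε := ‖F‖ / 4 with hεdef
    have hε : 0 < ε := by positivity
    obtain ⟨r1, hr1, h1⟩ := hlim ε hε
    obtain ⟨r2, hr2, h2⟩ := hαlim ε hε
    -- a dilation keeping `z` inside
    have hev : ∀ᶠ r : ℝ in 𝓝[>] 1, (r : ℂ) * z ∈ In := by
      have hc : ContinuousAt (fun r : ℝ => (r : ℂ) * z) 1 := by fun_prop
      have : (fun r : ℝ => (r : ℂ) * z) 1 ∈ In := by simpa using hz
      exact nhdsWithin_le_nhds (hc.eventually (hopen.mem_nhds this))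
    have hev2 : ∀ᶠ r : ℝ in 𝓝[>] 1, r < min r1 r2 :=
      nhdsWithin_le_nhds (gt_mem_nhds (lt_min hr1 hr2))
    obtain ⟨r, ⟨hr3, hr4⟩, hr⟩ := ((hev.and hev2).and self_mem_nhdsWithin).exists
    have hr' : (1 : ℝ) < r := hr
    set Φ : ℂ → ℂ := fun w => u * (g1 w - α w) + conj u * g2 w with hΦ
    have hΦd : DifferentiableOn ℂ Φ In := by
      apply DifferentiableOn.add
      · exact (hg1.sub hα).const_mul u
      · exact hg2.const_mul _
    have hΦre : ∀ w, (Φ w).re = (u * (g1 w - α w + conj (g2 w))).re := by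
      intro w
      simp only [hΦ, mul_add, Complex.add_re]
      congr 1
      rw [← Complex.conj_re (conj u * g2 w)]
      simp
    have hbd : ∀ t, (Φ (σ t / r)).re ≤ 2 * ε := by
      intro t
      rw [hΦre]
      refine (Complex.re_le_norm _).trans ?_
      rw [norm_mul, hunorm, one_mul]
      have e1 := h1 r hr' (hr4.trans_le (min_le_left _ _)) t
      have e2 := h2 r hr' (hr4.trans_le (min_le_right _ _)) t
      have : g1 (σ t / r) - α (σ t / r) + conj (g2 (σ t / r))
          = (g1 (σ t / r) + conj (g2 (σ t / r)) - α (σ t)) - (α (σ t / r) - α (σ t)) := by ring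
      rw [this]
      refine (norm_sub_le _ _).trans ?_
      linarith
    have hfin := exp_bound hbdd hfront hdil hΦd hr' hbd hr3
    rw [hΦre, huF] at hfin
    have : ‖F‖ = 4 * ε := by rw [hεdef]; ring
    linarith
  -- so conj g2 is holomorphic, hence g2 is constant
  have hcd : DifferentiableOn ℂ (fun w => conj (g2 w)) In := by
    have : Set.EqOn (fun w => conj (g2 w)) (fun w => α w - g1 w) In := by
      intro w hw
      have := hF w hw
      simp only
      linear_combination this
    exact (hα.sub hg1).congr this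
  have hder : Set.EqOn (deriv g2) 0 In := by
    intro w hw
    have h1 := (hg2 w hw).differentiableAt (hopen.mem_nhds hw)
    have h2 := (hcd w hw).differentiableAt (hopen.mem_nhds hw)
    exact deriv_zero_of_conj_differentiable h1 h2
  obtain ⟨c, hc⟩ := hopen.exists_is_const_of_deriv_eq_zero hconn hg2 hder
  refine ⟨c, fun z hz => ⟨hc z hz, ?_⟩⟩
  have := hF z hz
  rw [hc z hz] at this
  linear_combination this

end ExpTrick

section Concrete

/-- Bounded continuous functions on the line (the periodic ones are the functions on the curve). -/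
abbrev B := BoundedContinuousFunction ℝ ℂ

/-- Periodic elements of `B`. -/
def Per (h : B) : Prop := Function.Periodic (h : ℝ → ℂ) (2 * π)

theorem Per.star {h : B} (hh : Per h) : Per (star h) := by
  intro t
  simp only [BoundedContinuousFunction.star_apply]
  rw [hh t]

theorem Per.sub {h k : B} (hh : Per h) (hk : Per k) : Per (h - k) := by
  intro t
  simp only [BoundedContinuousFunction.coe_sub, Pi.sub_apply]
  rw [hh t, hk t]

/-- All the hypotheses used for the two facts: the Cauchy transform `C`, its traces `G`, `E` on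
the dilated and contracted curves, the jump relations `A1`, `A2` as limits in `B`, the equilibrium
properties `L1`, `L2` and the geometry of the region `In`. -/
structure FactHyps (σ : ℝ → ℂ) (In : Set ℂ) (C : B → ℂ → ℂ) (N : B →L[ℂ] B) (lam : B →L[ℂ] ℂ)
    (G E : ℝ → B → B) : Prop where
  hopen : IsOpen In
  hbdd : Bornology.IsBounded In
  hconn : IsPreconnected In
  hfront : frontier In ⊆ Set.range σ
  hdil : ∀ r : ℝ, 1 < r → ∀ z ∈ closure In, z / r ∈ In
  hσ : ∀ t, σ t ∈ closure In
  hCd : ∀ h, DifferentiableOn ℂ (C h) In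
  hG : ∀ r : ℝ, 1 < r → ∀ (h : B) (t : ℝ), G r h t = C h (σ t / r)
  state : IsState lam
  A1 : ∀ h, Per h → Tendsto (fun r => G r h - E r h) (𝓝[>] 1) (𝓝 h)
  A2 : ∀ h, Per h → Tendsto (fun r => G r h + star (G r (star h))) (𝓝[>] 1) (𝓝 (h + N h))
  L1 : ∀ h, Per h → ∀ r : ℝ, 1 < r → lam (E r h) = 0
  L2 : ∀ h k, Per h → Per k → ∀ r : ℝ, 1 < r → lam (E r h * E r k) = 0
  Nper : ∀ h, Per (N h)

variable {σ : ℝ → ℂ} {In : Set ℂ} {C : B → ℂ → ℂ} {N : B →L[ℂ] B} {lam : B →L[ℂ] ℂ}
  {G E : ℝ → B → B}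

theorem FactHyps.eventually_gt_one : ∀ᶠ r : ℝ in 𝓝[>] 1, 1 < r := self_mem_nhdsWithin

/-- **FACT 2** for the Cauchy transform. -/
theorem fact2_concrete (H : FactHyps σ In C N lam G E) {h : B} (hper : Per h) (hh : star h = h)
    (hJ : Q lam (N h) ≤ Q lam h) (hNs : star (N h) = N h) {ε : ℝ} (hε : 0 < ε) :
    ∀ᶠ r : ℝ in 𝓝[>] 1, Q lam (G r h) ≤ Q lam h + ε := by
  have h2 := H.A2 h hper
  rw [hh] at h2
  refine fact2 H.state hh hNs hJ (H.A1 h hper) h2 ?_ hε
  filter_upwards [FactHyps.eventually_gt_one] with r hr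
  exact H.L2 h h hper hper r hr

/-- Conversion of a norm limit in `B` along `𝓝[>] 1` to the form with explicit thresholds. -/
theorem pointwise_of_tendsto {f : ℝ → B} {L : B} (hf : Tendsto f (𝓝[>] 1) (𝓝 L)) {ε : ℝ}
    (hε : 0 < ε) : ∃ r0 > (1 : ℝ), ∀ r : ℝ, 1 < r → r < r0 → ∀ t, ‖f r t - L t‖ ≤ ε := by
  obtain ⟨δ, hδ, hδ'⟩ := Metric.tendsto_nhdsWithin_nhds.mp hf ε hε
  refine ⟨1 + δ, by linarith, fun r hr hr0 t => ?_⟩
  have h1 : dist r 1 < δ := by
    rw [Real.dist_eq, abs_of_pos (by linarith)]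
    linarith
  have h2 := hδ' (Set.mem_Ioi.mpr hr) h1
  rw [dist_eq_norm] at h2
  have h3 := (f r - L).norm_coe_le_norm t
  simp only [BoundedContinuousFunction.coe_sub, Pi.sub_apply] at h3
  linarith

/-- **FACT 3** for the Cauchy transform: for `α` holomorphic inside and continuous up to the
boundary, a solution `ψ` of `ψ + N ψ = α` has `C ψ = α - conj c`, `C (star ψ) = c` inside and
`Q ψ ≤ Q α`. -/
theorem fact3 (H : FactHyps σ In C N lam G E) {α : ℂ → ℂ} (hα : DifferentiableOn ℂ α In)
    (hαc : ContinuousOn α (closure In)) {αb ψ : B} (hαb : ∀ t, αb t = α (σ t)) (hαper : Per αb)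
    (hψ : ψ + N ψ = αb) :
    ∃ c : ℂ, Per ψ ∧ (∀ z ∈ In, C ψ z = α z - conj c) ∧ (∀ z ∈ In, C (star ψ) z = c)
      ∧ Q lam ψ ≤ Q lam αb := by
  have hψeq : ψ = αb - N ψ := by rw [← hψ]; abel
  have hper : Per ψ := by
    rw [hψeq]
    exact hαper.sub (H.Nper ψ)
  have hA2 := H.A2 ψ hper
  rw [hψ] at hA2
  obtain ⟨c, hc⟩ : ∃ c : ℂ, ∀ z ∈ In, C (star ψ) z = c ∧ C ψ z = α z - conj c := by
    refine exp_trick (σ := σ) H.hopen H.hbdd H.hconn H.hfront H.hdil H.hσ (H.hCd ψ) (H.hCd (star ψ))
      hα hαc ?_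
    intro ε hε
    obtain ⟨r0, hr0, hr⟩ := pointwise_of_tendsto hA2 hε
    refine ⟨r0, hr0, fun r hr1 hr2 t => ?_⟩
    have := hr r hr1 hr2 t
    simp only [BoundedContinuousFunction.coe_add, Pi.add_apply,
      BoundedContinuousFunction.star_apply] at this
    rw [H.hG r hr1 ψ t, H.hG r hr1 (star ψ) t, hαb t] at this
    exact this
  have hconst : ∀ r : ℝ, 1 < r → G r (star ψ) = algebraMap ℂ B c := by
    intro r hr
    ext t
    rw [H.hG r hr, (hc _ (H.hdil r hr _ (H.hσ t))).1]
    simp [BoundedContinuousFunction.algebraMap_apply]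
  have hev : ∀ᶠ r : ℝ in 𝓝[>] 1, 1 < r := FactHyps.eventually_gt_one
  -- the limits of the exterior traces
  have hGψ : Tendsto (fun r => G r ψ) (𝓝[>] 1) (𝓝 (αb - algebraMap ℂ B (conj c))) := by
    have h1 : Tendsto (fun r => G r ψ + star (G r (star ψ)) - algebraMap ℂ B (conj c)) (𝓝[>] 1)
        (𝓝 (αb - algebraMap ℂ B (conj c))) := hA2.sub_const _
    refine h1.congr' ?_
    filter_upwards [hev] with r hr
    rw [hconst r hr, ← algebraMap_star_comm, Complex.star_def]
    abel
  have hE1 : Tendsto (fun r => E r ψ) (𝓝[>] 1) (𝓝 (αb - algebraMap ℂ B (conj c) - ψ)) := by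
    have h1 := hGψ.sub (H.A1 ψ hper)
    refine h1.congr' ?_
    filter_upwards with r
    abel
  have hE2 : Tendsto (fun r => E r (star ψ)) (𝓝[>] 1) (𝓝 (algebraMap ℂ B c - star ψ)) := by
    have h1 := H.A1 (star ψ) hper.star
    have h2 : Tendsto (fun r => G r (star ψ) - (G r (star ψ) - E r (star ψ))) (𝓝[>] 1)
        (𝓝 (algebraMap ℂ B c - star ψ)) := by
      refine Tendsto.sub ?_ h1
      refine (tendsto_const_nhds (x := algebraMap ℂ B c)).congr' ?_
      filter_upwards [hev] with r hr
      rw [hconst r hr]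
    refine h2.congr' ?_
    filter_upwards with r
    abel
  have hl1 : lam (αb - algebraMap ℂ B (conj c) - ψ) = 0 := by
    have h1 := (lam.continuous.tendsto _).comp hE1
    refine tendsto_nhds_unique h1 ?_
    refine (tendsto_const_nhds (x := (0 : ℂ))).congr' ?_
    filter_upwards [hev] with r hr
    exact (H.L1 ψ hper r hr).symm
  have hl2 : lam (algebraMap ℂ B c - star ψ) = 0 := by
    have h1 := (lam.continuous.tendsto _).comp hE2
    refine tendsto_nhds_unique h1 ?_
    refine (tendsto_const_nhds (x := (0 : ℂ))).congr' ?_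
    filter_upwards [hev] with r hr
    exact (H.L1 (star ψ) hper.star r hr).symm
  have hl3 : lam ((αb - algebraMap ℂ B (conj c) - ψ) * (algebraMap ℂ B c - star ψ)) = 0 := by
    have h1 := (lam.continuous.tendsto _).comp (hE1.mul hE2)
    refine tendsto_nhds_unique h1 ?_
    refine (tendsto_const_nhds (x := (0 : ℂ))).congr' ?_
    filter_upwards [hev] with r hr
    exact (H.L2 ψ (star ψ) hper hper.star r hr).symm
  exact ⟨c, hper, fun z hz => (hc z hz).2, fun z hz => (hc z hz).1,
    fact3_alg H.state rfl rfl hl1 hl2 hl3⟩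

/-- Solving `ψ + N ψ = α` when `N = N1 + a(.) 1` with `‖N1‖ < 1`, `N 1 = 1`. -/
theorem exists_solve {N N1 : B →L[ℂ] B} {a : B →L[ℂ] ℂ} (hN : ∀ h, N h = N1 h + a h • (1 : B))
    (hN1 : ‖N1‖ < 1) (hone : N 1 = 1) (α : B) : ∃ ψ : B, ψ + N ψ = α := by
  have hnorm : ‖-N1‖ < 1 := by rwa [norm_neg]
  set u := Units.oneSub (-N1) hnorm with hu
  have hval : (u : B →L[ℂ] B) = 1 - (-N1) := rfl
  set φ : B := (↑u⁻¹ : B →L[ℂ] B) α with hφ
  have hφeq : φ + N1 φ = α := by
    have h1 : ((u : B →L[ℂ] B) * ↑u⁻¹) α = α := by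
      rw [Units.mul_inv]; rfl
    have h2 : ((u : B →L[ℂ] B) * ↑u⁻¹) α = (u : B →L[ℂ] B) φ := rfl
    rw [h2, hval] at h1
    simpa using h1
  refine ⟨φ - (a φ / 2) • (1 : B), ?_⟩
  rw [map_sub, map_smul, hone, hN φ, ← hφeq]
  have : (a φ) • (1 : B) = (a φ / 2) • (1 : B) + (a φ / 2) • (1 : B) := by
    rw [← add_smul]; congr 1; ring
  rw [this]
  abel

/-- Jensen inequality for a positive unital operator `N` with invariant state. -/
theorem jensen {N : B →L[ℂ] B} {lam : B →L[ℂ] ℂ}
    (hNone : N 1 = 1)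
    (hNpos : ∀ a : B, (∀ t, 0 ≤ (a t).re ∧ (a t).im = 0) → ∀ t, 0 ≤ (N a t).re ∧ (N a t).im = 0)
    (hlamN : ∀ a, lam (N a) = lam a)
    (hlampos : ∀ a : B, (∀ t, 0 ≤ (a t).re ∧ (a t).im = 0) → 0 ≤ (lam a).re)
    {h : B} (hh : star h = h) (hNs : star (N h) = N h) : Q lam (N h) ≤ Q lam h := by
  -- pointwise Kadison inequality
  have hpt : ∀ t, 0 ≤ ((N (h * h) - N h * N h) t).re ∧ ((N (h * h) - N h * N h) t).im = 0 := by
    intro t
    set c := N h t with hc
    have hcreal : c.im = 0 := by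
      have := congrArg (fun f : B => f t) hNs
      simp only [BoundedContinuousFunction.star_apply] at this
      have h2 := Complex.conj_eq_iff_im.mp this
      exact h2
    have hsq : ∀ s, ∃ x : ℝ, h s = x := by
      intro s
      have := congrArg (fun f : B => f s) hh
      simp only [BoundedContinuousFunction.star_apply] at this
      exact Complex.conj_eq_iff_real.mp this
    have hpos : ∀ s, 0 ≤ (((h - algebraMap ℂ B c) * (h - algebraMap ℂ B c)) s).re
        ∧ (((h - algebraMap ℂ B c) * (h - algebraMap ℂ B c)) s).im = 0 := by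
      intro s
      obtain ⟨x, hx⟩ := hsq s
      obtain ⟨y, hy⟩ : ∃ y : ℝ, c = y := ⟨c.re, by apply Complex.ext <;> simp [hcreal]⟩
      simp only [BoundedContinuousFunction.coe_mul, Pi.mul_apply,
        BoundedContinuousFunction.coe_sub, Pi.sub_apply,
        BoundedContinuousFunction.algebraMap_apply, hx, hy]
      simp only [Algebra.algebraMap_self, RingHom.id_apply, Algebra.smul_def, mul_one]
      constructor
      · have : (((x : ℂ) - y) * ((x : ℂ) - y)).re = (x - y) * (x - y) := by
          rw [← Complex.ofReal_sub, ← Complex.ofReal_mul, Complex.ofReal_re]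
        rw [this]
        exact mul_self_nonneg _
      · rw [← Complex.ofReal_sub, ← Complex.ofReal_mul, Complex.ofReal_im]
    have h1 := hNpos _ hpos t
    have h2 : N ((h - algebraMap ℂ B c) * (h - algebraMap ℂ B c))
        = N (h * h) - (2 * c) • N h + (c * c) • (1 : B) := by
      have : (h - algebraMap ℂ B c) * (h - algebraMap ℂ B c)
          = h * h - (2 * c) • h + (c * c) • (1 : B) := by
        simp only [Algebra.algebraMap_eq_smul_one]
        ext s
        simp only [BoundedContinuousFunction.coe_mul, Pi.mul_apply,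
          BoundedContinuousFunction.coe_sub, Pi.sub_apply, BoundedContinuousFunction.coe_add,
          Pi.add_apply, BoundedContinuousFunction.coe_smul, smul_eq_mul,
          BoundedContinuousFunction.coe_one, Pi.one_apply, mul_one]
        ring
      rw [this, map_add, map_sub, map_smul, map_smul, hNone]
    rw [h2] at h1
    simp only [BoundedContinuousFunction.coe_add, Pi.add_apply, BoundedContinuousFunction.coe_sub,
      Pi.sub_apply, BoundedContinuousFunction.coe_smul, smul_eq_mul,
      BoundedContinuousFunction.coe_one, Pi.one_apply, mul_one, ← hc] at h1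
    simp only [BoundedContinuousFunction.coe_sub, Pi.sub_apply, BoundedContinuousFunction.coe_mul,
      Pi.mul_apply, ← hc]
    have h3 : N (h * h) t - c * c = N (h * h) t - 2 * c * c + c * c := by ring
    rw [h3]
    exact h1
  have h0 := hlampos _ hpt
  rw [map_sub, hlamN] at h0
  simp only [Complex.sub_re] at h0
  unfold Q
  rw [hh, hNs]
  linarith

end Concrete

end

end Vale.Agent.Lib.P123C.Facts
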