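import Vale.Agent.Lib.P123C.MainAbs

/-!
# P123, Crouzeix: from the facts on the curve to the hypothesis `key` of `main_abs`

Glue, with raw hypotheses (no curves): `Br h r = T[β_r]`, `β_r = C[h](· / r) / 2`; `gsq h r = λ |β_r|²`.
-/

open scoped InnerProductSpace
open Filter Topology

namespace Vale.Agent.Lib.P123C

variable {H : Type*} [NormedAddCommGroup H] [InnerProductSpace ℂ H] [CompleteSpace H]

omit [CompleteSpace H] in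
/-- The hypothesis `key` of `main_abs`, in terms of test functions on the curve. Here `nsq g` stands
for `λ (g ^ 2)`, `L u g` for `∫ g ⟨M u, u⟩`; `hdom` says that `T0 Br = S(ψ)` with `g = |ψ|`, and that
`λ |ψ|² ≤ λ |P β_r|² ≤ M² λ |β_r|²`. -/
theorem key_of_facts (T0 : H →L[ℂ] H) {Test : Type*} [SMul ℝ Test]
    (nsq : Test → ℝ) (L : H → Test → ℝ)
    (hnsq_smul : ∀ (c : ℝ) g, 0 < c → nsq (c • g) = c ^ 2 * nsq g)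
    (hL_smul : ∀ (c : ℝ) g u, 0 < c → L u (c • g) = c * L u g)
    {M C0 : ℝ} (hM : 0 ≤ M)
    (Br : Test → ℝ → H →L[ℂ] H) (gsq : Test → ℝ → ℝ)
    (hcomm : ∀ h r, 1 < r → Br h r * T0 = T0 * Br h r)
    (hbd : ∀ h, nsq h ≤ 1 → ∀ᶠ r in 𝓝[>] (1 : ℝ), ‖Br h r‖ ≤ C0)
    (hlim : ∀ h u, Tendsto (fun r => (⟪u, Br h r u⟫_ℂ).re) (𝓝[>] 1) (𝓝 (L u h / 4)))
    (hdom : ∀ h r, 1 < r → ∃ g, nsq g ≤ M ^ 2 * gsq h r ∧ ∀ x y : H,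
      ‖⟪y, T0 (Br h r x)⟫_ℂ‖ ≤ (L x g + L y g) / 2)
    (hfact2 : ∀ h, ∀ ε : ℝ, 0 < ε → ∀ᶠ r in 𝓝[>] (1 : ℝ), gsq h r ≤ nsq h / 4 + ε) :
    ∀ x y : H, ‖x‖ = 1 → ‖y‖ = 1 → ∀ Q : ℝ, (∀ g, nsq g ≤ 1 → (L x g + L y g) / 2 ≤ Q) →
      ∀ h, nsq h ≤ 1 → ∀ ε : ℝ, 0 < ε →
        ∃ B : H →L[ℂ] H, B * T0 = T0 * B ∧ ‖B‖ ≤ C0 ∧ L x h / 4 - ε ≤ (⟪x, B x⟫_ℂ).re ∧
          L y h / 4 - ε ≤ (⟪y, B y⟫_ℂ).re ∧ ‖⟪y, T0 (B x)⟫_ℂ‖ ≤ Q * M * (1 / 2) + ε := by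
  intro x y _ _ Q hQ h hh ε hε
  -- the constants
  set d : ℝ := ε / (|Q| + 1) with hd
  have hQ1 : 0 < |Q| + 1 := by positivity
  have hd0 : 0 < d := by positivity
  set c : ℝ := M / 2 + d with hc
  have hc0 : 0 < c := by positivity
  set ε' : ℝ := d ^ 2 / (M ^ 2 + 1) with hε'
  have hε'0 : 0 < ε' := by positivity
  have hε'1 : M ^ 2 * ε' ≤ d ^ 2 := by
    rw [hε', ← mul_div_assoc, div_le_iff₀ (by positivity)]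
    nlinarith [sq_nonneg d]
  -- a good `r`
  have hr1 : ∀ᶠ r in 𝓝[>] (1 : ℝ), L x h / 4 - ε ≤ (⟪x, Br h r x⟫_ℂ).re :=
    (hlim h x).eventually (lt_mem_nhds (by linarith)) |>.mono fun _ hr => le_of_lt hr
  have hr2 : ∀ᶠ r in 𝓝[>] (1 : ℝ), L y h / 4 - ε ≤ (⟪y, Br h r y⟫_ℂ).re :=
    (hlim h y).eventually (lt_mem_nhds (by linarith)) |>.mono fun _ hr => le_of_lt hr
  have hr3 : ∀ᶠ r in 𝓝[>] (1 : ℝ), 1 < r := eventually_mem_nhdsWithin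
  obtain ⟨r, ⟨⟨⟨hrb, hrf⟩, hrx⟩, hry⟩, hr⟩ :=
    (((((hbd h hh).and (hfact2 h ε' hε'0)).and hr1).and hr2).and hr3).exists
  obtain ⟨g, hg1, hg2⟩ := hdom h r hr
  refine ⟨Br h r, hcomm h r hr, hrb, hrx, hry, ?_⟩
  refine (hg2 x y).trans ?_
  -- scale `g`
  have hgc : nsq (c⁻¹ • g) ≤ 1 := by
    rw [hnsq_smul _ _ (inv_pos.2 hc0)]
    have h1 : nsq g ≤ c ^ 2 := by
      have h2 : M ^ 2 * gsq h r ≤ M ^ 2 * (nsq h / 4 + ε') :=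
        mul_le_mul_of_nonneg_left hrf (by positivity)
      have h3 : M ^ 2 * (nsq h / 4 + ε') ≤ M ^ 2 * (1 / 4 + ε') :=
        mul_le_mul_of_nonneg_left (by linarith) (by positivity)
      have h4 : c ^ 2 = M ^ 2 / 4 + M * d + d ^ 2 := by
        rw [hc]
        ring
      have h5 : 0 ≤ M * d := by positivity
      nlinarith
    rw [inv_pow, inv_mul_le_iff₀ (by positivity)]
    linarith
  have h6 := hQ _ hgc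
  rw [hL_smul _ _ _ (inv_pos.2 hc0), hL_smul _ _ _ (inv_pos.2 hc0)] at h6
  have h7 : (L x g + L y g) / 2 ≤ Q * c := by
    have h8 : c⁻¹ * ((L x g + L y g) / 2) ≤ Q := by
      calc _ = (c⁻¹ * L x g + c⁻¹ * L y g) / 2 := by ring
        _ ≤ Q := h6
    rw [inv_mul_le_iff₀ hc0] at h8
    linarith
  refine h7.trans ?_
  have h9 : Q * d ≤ ε := by
    have h10 : Q * d ≤ |Q| * d := mul_le_mul_of_nonneg_right (le_abs_self Q) hd0.le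
    have h11 : (|Q| + 1) * d = ε := by
      rw [hd]
      field_simp
    nlinarith
  rw [hc]
  nlinarith

/-- The main inequality from the facts on the curve. -/
theorem main_of_facts (T0 : H →L[ℂ] H) {Test : Type*} [SMul ℝ Test]
    (nsq : Test → ℝ) (L : H → Test → ℝ)
    (hnsq_smul : ∀ (c : ℝ) g, 0 < c → nsq (c • g) = c ^ 2 * nsq g)
    (hL_smul : ∀ (c : ℝ) g u, 0 < c → L u (c • g) = c * L u g)
    (one : Test) (hone : nsq one ≤ 1) (hLone : ∀ u, ‖u‖ = 1 → L u one = 2)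
    {Cbd C0 M : ℝ} (hM : 0 ≤ M) (hC0 : 0 ≤ C0)
    (hLbd : ∀ u, ‖u‖ = 1 → ∀ h, nsq h ≤ 1 → L u h ≤ Cbd)
    (Br : Test → ℝ → H →L[ℂ] H) (gsq : Test → ℝ → ℝ)
    (hcomm : ∀ h r, 1 < r → Br h r * T0 = T0 * Br h r)
    (hbd : ∀ h, nsq h ≤ 1 → ∀ᶠ r in 𝓝[>] (1 : ℝ), ‖Br h r‖ ≤ C0)
    (hlim : ∀ h u, Tendsto (fun r => (⟪u, Br h r u⟫_ℂ).re) (𝓝[>] 1) (𝓝 (L u h / 4)))
    (hdom : ∀ h r, 1 < r → ∃ g, nsq g ≤ M ^ 2 * gsq h r ∧ ∀ x y : H,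
      ‖⟪y, T0 (Br h r x)⟫_ℂ‖ ≤ (L x g + L y g) / 2)
    (hfact2 : ∀ h, ∀ ε : ℝ, 0 < ε → ∀ᶠ r in 𝓝[>] (1 : ℝ), gsq h r ≤ nsq h / 4 + ε) :
    ‖T0‖ ≤ 2 * M :=
  main_abs T0 nsq L one hone hLone hM hC0 hLbd
    (key_of_facts T0 nsq L hnsq_smul hL_smul hM Br gsq hcomm hbd hlim hdom hfact2)

end Vale.Agent.Lib.P123C
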