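import Mathlib

/-!
# Radial limits of Cauchy integrals on a convex curve (no principal values)

The two uniform limit statements A1 and A2 for Cauchy integrals over a strictly convex curve,
along the radial approach `q * σ(t₀)` (inside) and `σ(t₀) / q` (outside), `q → 1⁻`.
All geometric inputs are fields of the structure `Setup`.
-/

open Complex ComplexConjugate MeasureTheory intervalIntegral

noncomputable section

namespace Vale.Agent.Lib.P123C.Limits

/-- One minus the cosine of the angle difference. -/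
def vv (t t₀ : ℝ) : ℝ := 1 - Real.cos (t - t₀)

theorem vv_nonneg (t t₀ : ℝ) : 0 ≤ vv t t₀ := by
  unfold vv; linarith [Real.cos_le_one (t - t₀)]

theorem vv_le_two (t t₀ : ℝ) : vv t t₀ ≤ 2 := by
  unfold vv; linarith [Real.neg_one_le_cos (t - t₀)]

/-- Modulus of continuity in the form `ε + C * v`. -/
theorem modulus {h : ℝ → ℂ} (hc : Continuous h) (hp : ∀ t, h (t + 2 * Real.pi) = h t)
    {ε : ℝ} (hε : 0 < ε) : ∃ C : ℝ, 0 ≤ C ∧ ∀ t t₀, ‖h t - h t₀‖ ≤ ε + C * vv t t₀ := by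
  have hper : Function.Periodic h (2 * Real.pi) := hp
  have h2pi : (0 : ℝ) < 2 * Real.pi := by positivity
  obtain ⟨B, hB⟩ : ∃ B, ∀ t, ‖h t‖ ≤ B := by
    have hbd := hper.isBounded_of_continuous h2pi.ne' hc
    obtain ⟨B, hB⟩ := hbd.exists_norm_le
    exact ⟨B, fun t => hB _ (Set.mem_range_self t)⟩
  have hB0 : 0 ≤ B := (norm_nonneg _).trans (hB 0)
  have huc : IsCompact (Set.Icc (-(4 * Real.pi)) (4 * Real.pi)) := isCompact_Icc
  obtain ⟨δ, hδ, hδ'⟩ := (Metric.uniformContinuousOn_iff.mp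
    (huc.uniformContinuousOn_of_continuous hc.continuousOn)) ε hε
  set d := min δ Real.pi with hd
  have hd0 : 0 < d := lt_min hδ Real.pi_pos
  have hdpi : d ≤ Real.pi := min_le_right _ _
  have hdδ : d ≤ δ := min_le_left _ _
  have hv0 : 0 < 1 - Real.cos d := by
    have : Real.cos d < Real.cos 0 := by
      apply Real.cos_lt_cos_of_nonneg_of_le_pi le_rfl hdpi hd0
    simpa using this
  refine ⟨2 * B / (1 - Real.cos d), by positivity, fun t t₀ => ?_⟩
  set k₀ : ℤ := ⌊t₀ / (2 * Real.pi)⌋ with hk₀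
  set k : ℤ := ⌊(t - t₀ + Real.pi) / (2 * Real.pi)⌋ with hk
  set a := t₀ - k₀ * (2 * Real.pi) with ha
  set y := t - t₀ - k * (2 * Real.pi) with hy
  have ha0 : 0 ≤ a := by
    have := Int.floor_le (t₀ / (2 * Real.pi))
    rw [le_div_iff₀ h2pi] at this
    rw [ha]; linarith
  have ha1 : a < 2 * Real.pi := by
    have := Int.lt_floor_add_one (t₀ / (2 * Real.pi))
    rw [div_lt_iff₀ h2pi] at this
    rw [ha]; nlinarith
  have hy0 : -Real.pi ≤ y := by
    have := Int.floor_le ((t - t₀ + Real.pi) / (2 * Real.pi))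
    rw [le_div_iff₀ h2pi] at this
    rw [hy]; linarith
  have hy1 : y < Real.pi := by
    have := Int.lt_floor_add_one ((t - t₀ + Real.pi) / (2 * Real.pi))
    rw [div_lt_iff₀ h2pi] at this
    rw [hy]; nlinarith
  have hpiint : ∀ (n : ℤ) (x : ℝ), h (x + n * (2 * Real.pi)) = h x := fun n x => (hper.int_mul n) x
  have ht : h t = h (a + y) := by
    have : t = (a + y) + ((k + k₀ : ℤ) : ℝ) * (2 * Real.pi) := by
      rw [ha, hy]; push_cast; ring
    rw [this, hpiint]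
  have ht₀ : h t₀ = h a := by
    have : t₀ = a + (k₀ : ℝ) * (2 * Real.pi) := by rw [ha]; ring
    conv_lhs => rw [this]
    exact hpiint _ _
  have hcos : Real.cos (t - t₀) = Real.cos y := by
    rw [hy]
    exact (Real.cos_sub_int_mul_two_pi _ _).symm
  have hvv : vv t t₀ = 1 - Real.cos y := by unfold vv; rw [hcos]
  rw [ht, ht₀, hvv]
  by_cases hyd : |y| < d
  · have h1 : a + y ∈ Set.Icc (-(4 * Real.pi)) (4 * Real.pi) := by
      constructor <;> nlinarith [Real.pi_pos]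
    have h2 : a ∈ Set.Icc (-(4 * Real.pi)) (4 * Real.pi) := by
      constructor <;> nlinarith [Real.pi_pos]
    have h3 : dist (a + y) a < δ := by
      rw [Real.dist_eq]
      have : a + y - a = y := by ring
      rw [this]
      exact lt_of_lt_of_le hyd hdδ
    have h4 := hδ' _ h1 _ h2 h3
    rw [dist_eq_norm] at h4
    have h5 : 0 ≤ 2 * B / (1 - Real.cos d) * (1 - Real.cos y) := by
      have : 0 ≤ 1 - Real.cos y := by linarith [Real.cos_le_one y]
      positivity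
    linarith
  · have hyd' : d ≤ |y| := not_lt.mp hyd
    have h1 : Real.cos y ≤ Real.cos d := by
      rw [← Real.cos_abs y]
      apply Real.cos_le_cos_of_nonneg_of_le_pi hd0.le _ hyd'
      rw [abs_le]; exact ⟨hy0, hy1.le⟩
    have h2 : ‖h (a + y) - h a‖ ≤ 2 * B := by
      calc _ ≤ ‖h (a + y)‖ + ‖h a‖ := norm_sub_le _ _
        _ ≤ B + B := add_le_add (hB _) (hB _)
        _ = 2 * B := by ring
    have h3 : 2 * B ≤ 2 * B / (1 - Real.cos d) * (1 - Real.cos y) := by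
      have h4 : 2 * B / (1 - Real.cos d) * (1 - Real.cos y)
          = 2 * B * ((1 - Real.cos y) / (1 - Real.cos d)) := by ring
      rw [h4]
      have h5 : 1 ≤ (1 - Real.cos y) / (1 - Real.cos d) := by
        rw [one_le_div hv0]; linarith
      nlinarith
    linarith

/-- Geometric data of the convex curve, with normal-angle parametrisation. -/
structure Setup where
  sig : ℝ → ℂ
  e : ℝ → ℂ
  s : ℝ → ℝ
  R : ℝ → ℝ
  sig_cont : Continuous sig
  e_cont : Continuous e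
  s_cont : Continuous s
  R_cont : Continuous R
  e_norm : ∀ t, ‖e t‖ = 1
  re_sig : ∀ t, (conj (e t) * sig t).re = s t
  rmin : ℝ
  rmax : ℝ
  smin : ℝ
  D : ℝ
  rmin_pos : 0 < rmin
  smin_pos : 0 < smin
  R_ge : ∀ t, rmin ≤ R t
  R_le : ∀ t, R t ≤ rmax
  s_ge : ∀ t, smin ≤ s t
  sig_le : ∀ t, ‖sig t‖ ≤ D
  hh_ge : ∀ t t₀, rmin * vv t t₀ ≤ s t - (conj (e t) * sig t₀).re
  hh_le : ∀ t t₀, s t - (conj (e t) * sig t₀).re ≤ rmax * vv t t₀
  chord_ge : ∀ t t₀, 2 * rmin ^ 2 * vv t t₀ ≤ ‖sig t - sig t₀‖ ^ 2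
  winding_in : ∀ z : ℂ, (∀ t, 0 < s t - (conj (e t) * z).re) →
    ∫ t in (0 : ℝ)..(2 * Real.pi), (I * (R t : ℂ) * e t) / (sig t - z)
      = 2 * (Real.pi : ℂ) * I
  winding_out : ∀ z : ℂ, (∃ t, s t - (conj (e t) * z).re < 0) →
    ∫ t in (0 : ℝ)..(2 * Real.pi), (I * (R t : ℂ) * e t) / (sig t - z) = 0
  mass : ∀ t₀ : ℝ, ∫ t in (0 : ℝ)..(2 * Real.pi),
    (1 / Real.pi) * R t * (s t - (conj (e t) * sig t₀).re) / ‖sig t - sig t₀‖ ^ 2 = 1

namespace Setup

variable (S : Setup)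

/-- Tangent vector. -/
def dsig (t : ℝ) : ℂ := I * (S.R t : ℂ) * S.e t

/-- Height above the tangent line. -/
def hh (t : ℝ) (z : ℂ) : ℝ := S.s t - (conj (S.e t) * z).re

/-- Cauchy integral. -/
def Cc (h : ℝ → ℂ) (z : ℂ) : ℂ :=
  (1 / (2 * (Real.pi : ℂ) * I)) * ∫ t in (0 : ℝ)..(2 * Real.pi), h t * (S.dsig t / (S.sig t - z))

/-- Poisson type kernel. -/
def Pk (z : ℂ) (t : ℝ) : ℝ := (1 / Real.pi) * S.R t * S.hh t z / ‖S.sig t - z‖ ^ 2

/-- Double layer operator. -/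
def Nn (h : ℝ → ℂ) (t₀ : ℝ) : ℂ :=
  ∫ t in (0 : ℝ)..(2 * Real.pi), (S.Pk (S.sig t₀) t : ℂ) * h t

theorem dsig_cont : Continuous S.dsig := by
  unfold dsig
  have := S.R_cont
  have := S.e_cont
  fun_prop

theorem hh_eq (t : ℝ) (z : ℂ) : S.hh t z = (conj (S.e t) * (S.sig t - z)).re := by
  unfold hh
  rw [mul_sub, sub_re, S.re_sig]

theorem hh_le_norm (t : ℝ) (z : ℂ) : S.hh t z ≤ ‖S.sig t - z‖ := by
  rw [hh_eq]
  refine (Complex.re_le_norm _).trans ?_
  rw [norm_mul, Complex.norm_conj, S.e_norm, one_mul]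

theorem hh_sig_nonneg (t t₀ : ℝ) : 0 ≤ S.hh t (S.sig t₀) := by
  have h1 := S.hh_ge t t₀
  have h2 := vv_nonneg t t₀
  have h3 := S.rmin_pos
  unfold hh
  nlinarith [mul_nonneg h3.le h2]

theorem hh_smul (t t₀ q : ℝ) :
    S.hh t ((q : ℂ) * S.sig t₀) = q * S.hh t (S.sig t₀) + (1 - q) * S.s t := by
  unfold hh
  have : conj (S.e t) * ((q : ℂ) * S.sig t₀) = (q : ℂ) * (conj (S.e t) * S.sig t₀) := by ring
  rw [this, Complex.re_ofReal_mul]
  ring

/-- The radial point is strictly inside. -/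
theorem hh_inside {q : ℝ} (hq : 0 ≤ q) (t t₀ : ℝ) :
    (1 - q) * S.smin ≤ S.hh t ((q : ℂ) * S.sig t₀) ∨ 1 < q := by
  by_cases h1 : 1 < q
  · exact Or.inr h1
  · left
    rw [hh_smul]
    have h2 : 0 ≤ q * S.hh t (S.sig t₀) := mul_nonneg hq (S.hh_sig_nonneg t t₀)
    have h3 : (1 - q) * S.smin ≤ (1 - q) * S.s t :=
      mul_le_mul_of_nonneg_left (S.s_ge t) (by linarith)
    linarith

/-- Lower bound of the distance from the curve to the inner radial point. -/
theorem dist_inside {q : ℝ} (hq0 : 0 ≤ q) (hq1 : q ≤ 1) (t t₀ : ℝ) :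
    (1 - q) * S.smin ≤ ‖S.sig t - (q : ℂ) * S.sig t₀‖ := by
  rcases S.hh_inside hq0 t t₀ with h | h
  · exact h.trans (S.hh_le_norm _ _)
  · linarith

/-- The constant `L = 1 + D / smin`. -/
def LL : ℝ := 1 + S.D / S.smin

theorem D_nonneg : 0 ≤ S.D := (norm_nonneg _).trans (S.sig_le 0)

theorem LL_ge_one : 1 ≤ S.LL := by
  have := S.D_nonneg
  have := S.smin_pos
  unfold LL
  have : 0 ≤ S.D / S.smin := by positivity
  linarith

/-- The chord is controlled by the distance to the inner radial point. -/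
theorem chord_le {q : ℝ} (hq0 : 0 ≤ q) (hq1 : q ≤ 1) (t t₀ : ℝ) :
    ‖S.sig t - S.sig t₀‖ ≤ S.LL * ‖S.sig t - (q : ℂ) * S.sig t₀‖ := by
  have h1 := S.dist_inside hq0 hq1 t t₀
  set a := ‖S.sig t - (q : ℂ) * S.sig t₀‖ with ha
  have hsm := S.smin_pos
  have h2 : S.sig t - S.sig t₀ = (S.sig t - (q : ℂ) * S.sig t₀) - ((1 - q : ℝ) : ℂ) * S.sig t₀ := by
    push_cast; ring
  have h3 : ‖S.sig t - S.sig t₀‖ ≤ a + (1 - q) * S.D := by
    rw [h2]
    refine (norm_sub_le _ _).trans ?_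
    rw [norm_mul, Complex.norm_real, Real.norm_eq_abs, abs_of_nonneg (by linarith)]
    have := S.sig_le t₀
    have h4 : (1 - q) * ‖S.sig t₀‖ ≤ (1 - q) * S.D :=
      mul_le_mul_of_nonneg_left this (by linarith)
    linarith
  have h4 : (1 - q) * S.D ≤ S.D / S.smin * a := by
    have h5 : S.D / S.smin * ((1 - q) * S.smin) ≤ S.D / S.smin * a :=
      mul_le_mul_of_nonneg_left h1 (div_nonneg S.D_nonneg hsm.le)
    have h6 : S.D / S.smin * ((1 - q) * S.smin) = (1 - q) * S.D := by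
      field_simp
    linarith
  unfold LL
  nlinarith

/-- The outer radial point: distance from the curve. -/
theorem dist_outside {q : ℝ} (hq0 : 0 < q) (hq1 : q ≤ 1) (t t₀ : ℝ) :
    ‖S.sig t₀ - (q : ℂ) * S.sig t‖ ≤ ‖S.sig t - S.sig t₀ / (q : ℂ)‖ := by
  have hq : (q : ℂ) ≠ 0 := by exact_mod_cast hq0.ne'
  have h1 : S.sig t - S.sig t₀ / (q : ℂ) = -(((1 / q : ℝ) : ℂ)) * (S.sig t₀ - (q : ℂ) * S.sig t) := by
    push_cast; field_simp; ring
  rw [h1, norm_mul, norm_neg, Complex.norm_real, Real.norm_eq_abs, abs_of_pos (by positivity)]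
  have h2 : 1 ≤ 1 / q := by rw [le_div_iff₀ hq0]; linarith
  nlinarith [norm_nonneg (S.sig t₀ - (q : ℂ) * S.sig t)]

theorem outside_pt {q : ℝ} (hq0 : 0 < q) (hq1 : q < 1) (t₀ : ℝ) :
    S.hh t₀ (S.sig t₀ / (q : ℂ)) < 0 := by
  unfold hh
  have h1 : conj (S.e t₀) * (S.sig t₀ / (q : ℂ)) = ((1 / q : ℝ) : ℂ) * (conj (S.e t₀) * S.sig t₀) := by
    push_cast; ring
  rw [h1, Complex.re_ofReal_mul, S.re_sig]
  have h2 : 0 < S.s t₀ := lt_of_lt_of_le S.smin_pos (S.s_ge t₀)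
  have h3 : 1 < 1 / q := by rw [lt_div_iff₀ hq0]; linarith
  nlinarith

/-- The imaginary part of the Cauchy kernel is the Poisson type kernel. -/
theorem Pk_eq_im (z : ℂ) (t : ℝ) :
    S.Pk z t = (1 / Real.pi) * (S.dsig t / (S.sig t - z)).im := by
  unfold Pk dsig
  rw [hh_eq]
  set w := S.sig t - z with hw
  have h1 : I * (S.R t : ℂ) * S.e t / w = ((S.R t : ℂ) * I) * (S.e t * conj w) / (‖w‖ ^ 2 : ℝ) := by
    by_cases h0 : w = 0
    · simp [h0]
    · have h2 : ((‖w‖ ^ 2 : ℝ) : ℂ) = w * conj w := by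
        rw [Complex.mul_conj, Complex.normSq_eq_norm_sq]
      rw [h2]
      have h3 : conj w ≠ 0 := by simpa using h0
      field_simp
  rw [h1, Complex.div_ofReal_im]
  have h3 : (((S.R t : ℂ) * I) * (S.e t * conj w)).im = S.R t * (conj (S.e t) * w).re := by
    have h4 : (S.e t * conj w).re = (conj (S.e t) * w).re := by
      simp [Complex.mul_re]
    have h5 : ((S.R t : ℂ) * I) * (S.e t * conj w) = I * ((S.R t : ℂ) * (S.e t * conj w)) := by ring
    rw [h5, Complex.I_mul_im, Complex.re_ofReal_mul, h4]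
  rw [h3]
  ring

theorem sub_ne_of_hh_pos {z : ℂ} (h : ∀ t, 0 < S.hh t z) (t : ℝ) : S.sig t - z ≠ 0 := by
  intro h0
  have h1 := S.hh_le_norm t z
  rw [h0, norm_zero] at h1
  linarith [h t]

theorem sub_ne_of_radial {q : ℝ} (hq0 : 0 ≤ q) (hq1 : q < 1) (t t₀ : ℝ) :
    S.sig t - (q : ℂ) * S.sig t₀ ≠ 0 := by
  intro h0
  have h1 := S.dist_inside hq0 hq1.le t t₀
  rw [h0, norm_zero] at h1
  have : 0 < (1 - q) * S.smin := mul_pos (by linarith) S.smin_pos
  linarith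

theorem sub_ne_of_radial_out {q : ℝ} (hq0 : 0 < q) (hq1 : q < 1) (t t₀ : ℝ) :
    S.sig t - S.sig t₀ / (q : ℂ) ≠ 0 := by
  intro h0
  have h1 := S.dist_outside hq0 hq1.le t t₀
  have h2 := S.dist_inside hq0.le hq1.le t₀ t
  rw [h0, norm_zero] at h1
  have : 0 < (1 - q) * S.smin := mul_pos (by linarith) S.smin_pos
  linarith

theorem Pk_cont {z : ℂ} (hz : ∀ t, S.sig t - z ≠ 0) : Continuous (S.Pk z) := by
  unfold Pk hh
  have := S.R_cont
  have := S.s_cont
  have := S.e_cont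
  have := S.sig_cont
  refine Continuous.div (by fun_prop) (by fun_prop) (fun t => ?_)
  exact pow_ne_zero _ (norm_ne_zero_iff.mpr (hz t))

theorem cauchy_kernel_cont {z : ℂ} (hz : ∀ t, S.sig t - z ≠ 0) :
    Continuous (fun t => S.dsig t / (S.sig t - z)) := by
  have := S.dsig_cont
  have := S.sig_cont
  exact Continuous.div (by fun_prop) (by fun_prop) hz

theorem radial_inside {q : ℝ} (hq0 : 0 ≤ q) (hq1 : q < 1) (t₀ t : ℝ) :
    0 < S.hh t ((q : ℂ) * S.sig t₀) := by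
  rcases S.hh_inside hq0 t t₀ with h | h
  · exact lt_of_lt_of_le (mul_pos (by linarith) S.smin_pos) h
  · linarith

/-- The total mass of the kernel at an interior point is two. -/
theorem mass_inside {z : ℂ} (hz : ∀ t, 0 < S.hh t z) :
    ∫ t in (0 : ℝ)..(2 * Real.pi), S.Pk z t = 2 := by
  have hne := S.sub_ne_of_hh_pos hz
  have hc := S.cauchy_kernel_cont hne
  have h1 : (∫ t in (0 : ℝ)..(2 * Real.pi), S.Pk z t)
      = (1 / Real.pi) * ∫ t in (0 : ℝ)..(2 * Real.pi), (S.dsig t / (S.sig t - z)).im := by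
    rw [← intervalIntegral.integral_const_mul]
    exact intervalIntegral.integral_congr (fun t _ => S.Pk_eq_im z t)
  have h2 : (∫ t in (0 : ℝ)..(2 * Real.pi), (S.dsig t / (S.sig t - z)).im)
      = (∫ t in (0 : ℝ)..(2 * Real.pi), S.dsig t / (S.sig t - z)).im :=
    intervalIntegral_im (𝕜 := ℂ) (hc.intervalIntegrable _ _)
  have h3 : (∫ t in (0 : ℝ)..(2 * Real.pi), S.dsig t / (S.sig t - z)) = 2 * (Real.pi : ℂ) * I :=
    S.winding_in z hz
  rw [h1, h2, h3]
  have h4 : (2 * (Real.pi : ℂ) * I).im = 2 * Real.pi := by simp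
  rw [h4]
  have := Real.pi_pos
  field_simp

theorem Pk_nonneg_of_sig (t t₀ : ℝ) : 0 ≤ S.Pk (S.sig t₀) t := by
  unfold Pk
  have h1 := S.hh_sig_nonneg t t₀
  have h2 : 0 ≤ S.R t := S.rmin_pos.le.trans (S.R_ge t)
  have := Real.pi_pos
  positivity

theorem Pk_nonneg_of_inside {z : ℂ} (hz : ∀ t, 0 < S.hh t z) (t : ℝ) : 0 ≤ S.Pk z t := by
  unfold Pk
  have h1 := (hz t).le
  have h2 : 0 ≤ S.R t := S.rmin_pos.le.trans (S.R_ge t)
  have := Real.pi_pos
  positivity

/-- The bound `B`. -/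
def BB : ℝ := S.rmax / (2 * S.rmin ^ 2)

theorem rmax_pos : 0 < S.rmax := lt_of_lt_of_le S.rmin_pos ((S.R_ge 0).trans (S.R_le 0))

theorem BB_nonneg : 0 ≤ S.BB := by
  have := S.rmax_pos
  have := S.rmin_pos
  unfold BB
  positivity

theorem vv_le_chord (t t₀ : ℝ) : vv t t₀ ≤ ‖S.sig t - S.sig t₀‖ ^ 2 / (2 * S.rmin ^ 2) := by
  have h := S.chord_ge t t₀
  have hr := S.rmin_pos
  rw [le_div_iff₀ (by positivity)]
  linarith

theorem hh_le_BB (t t₀ : ℝ) : S.hh t (S.sig t₀) ≤ S.BB * ‖S.sig t - S.sig t₀‖ ^ 2 := by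
  have h1 : S.hh t (S.sig t₀) ≤ S.rmax * vv t t₀ := S.hh_le t t₀
  have h2 := S.vv_le_chord t t₀
  have h3 := S.rmax_pos
  have h4 : S.rmax * vv t t₀ ≤ S.rmax * (‖S.sig t - S.sig t₀‖ ^ 2 / (2 * S.rmin ^ 2)) :=
    mul_le_mul_of_nonneg_left h2 h3.le
  have h5 : S.rmax * (‖S.sig t - S.sig t₀‖ ^ 2 / (2 * S.rmin ^ 2))
      = S.BB * ‖S.sig t - S.sig t₀‖ ^ 2 := by
    unfold BB; ring
  linarith

/-- Boundedness of the boundary kernel. -/
theorem Pk_sig_le (t t₀ : ℝ) : S.Pk (S.sig t₀) t ≤ (1 / Real.pi) * S.rmax * S.BB := by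
  unfold Pk
  set Y := ‖S.sig t - S.sig t₀‖ ^ 2 with hY
  have hY0 : 0 ≤ Y := by positivity
  have hpi := Real.pi_pos
  have hB := S.BB_nonneg
  have hr := S.rmax_pos
  have hR0 : 0 ≤ S.R t := S.rmin_pos.le.trans (S.R_ge t)
  have hH0 := S.hh_sig_nonneg t t₀
  by_cases h0 : Y = 0
  · rw [h0, div_zero]; positivity
  · have hYpos : 0 < Y := lt_of_le_of_ne hY0 (Ne.symm h0)
    rw [div_le_iff₀ hYpos]
    have h1 := S.hh_le_BB t t₀
    rw [← hY] at h1
    have h2 : S.R t * S.hh t (S.sig t₀) ≤ S.rmax * (S.BB * Y) :=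
      mul_le_mul (S.R_le t) h1 hH0 hr.le
    have h3 : (1 / Real.pi) * (S.R t * S.hh t (S.sig t₀)) ≤ (1 / Real.pi) * (S.rmax * (S.BB * Y)) :=
      mul_le_mul_of_nonneg_left h2 (by positivity)
    calc 1 / Real.pi * S.R t * S.hh t (S.sig t₀) = (1 / Real.pi) * (S.R t * S.hh t (S.sig t₀)) := by ring
      _ ≤ _ := h3
      _ = _ := by ring

theorem Pk_sig_measurable (t₀ : ℝ) : Measurable (S.Pk (S.sig t₀)) := by
  unfold Pk hh
  have h1 := S.R_cont
  have h2 := S.s_cont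
  have h3 := S.e_cont
  have h4 := S.sig_cont
  have h5 : Continuous (fun t => 1 / Real.pi * S.R t * (S.s t - (conj (S.e t) * S.sig t₀).re)) := by
    fun_prop
  have h6 : Continuous (fun t => ‖S.sig t - S.sig t₀‖ ^ 2) := by fun_prop
  exact h5.measurable.div h6.measurable

theorem Pk_sig_integrable (t₀ a b : ℝ) : IntervalIntegrable (S.Pk (S.sig t₀)) volume a b := by
  have hm := S.Pk_sig_measurable t₀
  rw [intervalIntegrable_iff]
  apply Measure.integrableOn_of_bounded (M := (1 / Real.pi) * S.rmax * S.BB)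
  · simp
  · exact hm.aestronglyMeasurable
  · refine Filter.Eventually.of_forall (fun t => ?_)
    rw [Real.norm_eq_abs, abs_of_nonneg (S.Pk_nonneg_of_sig t t₀)]
    exact S.Pk_sig_le t t₀

/-- Mass of the boundary kernel. -/
theorem mass_sig (t₀ : ℝ) : ∫ t in (0 : ℝ)..(2 * Real.pi), S.Pk (S.sig t₀) t = 1 :=
  S.mass t₀

/-- The constant of the kernel difference. -/
def C3 : ℝ :=
  (S.rmax / Real.pi) * (S.D + 5 * S.BB * S.D ^ 2) * (S.LL ^ 2 / (2 * S.rmin ^ 2))

theorem C3_nonneg : 0 ≤ S.C3 := by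
  have h1 := S.rmax_pos
  have h2 := S.BB_nonneg
  have h3 := S.D_nonneg
  have h4 := S.rmin_pos
  have h5 := Real.pi_pos
  unfold C3
  positivity

/-- Main algebraic bound of A2. -/
theorem diff_bound {q : ℝ} (hq0 : 0 ≤ q) (hq1 : q < 1) (t t₀ : ℝ) :
    vv t t₀ * |S.Pk ((q : ℂ) * S.sig t₀) t - S.Pk (S.sig t₀) t| ≤ S.C3 * (1 - q) := by
  have hτ0 : 0 < 1 - q := by linarith
  have hτ1 : 1 - q ≤ 1 := by linarith
  set τ := 1 - q with hτ
  set σ₀ := S.sig t₀ with hσ₀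
  set δ := S.sig t - σ₀ with hδ
  set Y := ‖δ‖ ^ 2 with hY
  set a := ‖S.sig t - (q : ℂ) * σ₀‖ with ha
  have hapos : 0 < a := norm_pos_iff.mpr (S.sub_ne_of_radial hq0 hq1 t t₀)
  set X := a ^ 2 with hX
  have hXpos : 0 < X := by positivity
  have hY0 : 0 ≤ Y := by positivity
  have hC3 := S.C3_nonneg
  by_cases hY00 : Y = 0
  · have hv : vv t t₀ ≤ 0 := by
      have h1 := S.vv_le_chord t t₀
      rw [← hσ₀, ← hδ, ← hY, hY00, zero_div] at h1
      exact h1
    have hv' : vv t t₀ = 0 := le_antisymm hv (vv_nonneg _ _)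
    rw [hv', zero_mul]
    positivity
  have hYpos : 0 < Y := lt_of_le_of_ne hY0 (Ne.symm hY00)
  set H := S.hh t σ₀ with hH
  have hH0 : 0 ≤ H := S.hh_sig_nonneg t t₀
  have hHB : H ≤ S.BB * Y := S.hh_le_BB t t₀
  have hHu : S.hh t ((q : ℂ) * σ₀) = q * H + τ * S.s t := S.hh_smul t t₀ q
  -- the norm identity
  set ρ := (δ * conj σ₀).re with hρ
  set NN := ‖σ₀‖ ^ 2 with hNN
  have hXeq : X = Y + 2 * τ * ρ + τ ^ 2 * NN := by
    have h1 : S.sig t - (q : ℂ) * σ₀ = δ + (τ : ℂ) * σ₀ := by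
      rw [hδ, hτ]; push_cast; ring
    rw [hX, ha, h1, ← Complex.normSq_eq_norm_sq, Complex.normSq_add, Complex.normSq_mul,
      Complex.normSq_ofReal, hY, hNN, ← Complex.normSq_eq_norm_sq, ← Complex.normSq_eq_norm_sq]
    have h2 : (δ * conj ((τ : ℂ) * σ₀)).re = τ * ρ := by
      rw [map_mul, Complex.conj_ofReal, hρ]
      have : δ * ((τ : ℂ) * conj σ₀) = (τ : ℂ) * (δ * conj σ₀) := by ring
      rw [this, Complex.re_ofReal_mul]
    rw [h2]; ring
  -- bounds
  have hD := S.D_nonneg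
  have hσ₀D : ‖σ₀‖ ≤ S.D := S.sig_le t₀
  have hδD : ‖δ‖ ≤ 2 * S.D := by
    calc ‖δ‖ ≤ ‖S.sig t‖ + ‖σ₀‖ := norm_sub_le _ _
      _ ≤ S.D + S.D := add_le_add (S.sig_le t) hσ₀D
      _ = 2 * S.D := by ring
  have hρ1 : |ρ| ≤ 2 * S.D ^ 2 := by
    have h1 : |ρ| ≤ ‖δ * conj σ₀‖ := Complex.abs_re_le_norm _
    rw [norm_mul, Complex.norm_conj] at h1
    have h2 : ‖δ‖ * ‖σ₀‖ ≤ (2 * S.D) * S.D :=
      mul_le_mul hδD hσ₀D (norm_nonneg _) (by positivity)
    nlinarith
  have hNND : NN ≤ S.D ^ 2 := by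
    rw [hNN]; exact pow_le_pow_left₀ (norm_nonneg _) hσ₀D 2
  have hNN0 : 0 ≤ NN := by positivity
  have hsH : |S.s t - H| ≤ S.D := by
    have h1 : S.s t - H = (conj (S.e t) * σ₀).re := by rw [hH]; unfold hh; ring
    rw [h1]
    refine (Complex.abs_re_le_norm _).trans ?_
    rw [norm_mul, Complex.norm_conj, S.e_norm, one_mul]
    exact hσ₀D
  set num := (q * H + τ * S.s t) * Y - H * X with hnum
  have hnumeq : num = τ * (S.s t - H) * Y - 2 * τ * H * ρ - τ ^ 2 * H * NN := by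
    rw [hnum, hXeq, hτ]; ring
  have hB := S.BB_nonneg
  have hnumle : |num| ≤ τ * Y * (S.D + 5 * S.BB * S.D ^ 2) := by
    rw [hnumeq]
    have h1 : |τ * (S.s t - H) * Y| ≤ τ * S.D * Y := by
      rw [abs_mul, abs_mul, abs_of_pos hτ0, abs_of_nonneg hY0]
      exact mul_le_mul_of_nonneg_right (mul_le_mul_of_nonneg_left hsH hτ0.le) hY0
    have h2 : |2 * τ * H * ρ| ≤ 2 * τ * (S.BB * Y) * (2 * S.D ^ 2) := by
      rw [abs_mul, abs_mul, abs_mul, abs_of_pos (by norm_num : (0 : ℝ) < 2), abs_of_pos hτ0,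
        abs_of_nonneg hH0]
      exact mul_le_mul (mul_le_mul_of_nonneg_left hHB (by positivity)) hρ1 (abs_nonneg _)
        (by positivity)
    have h3 : |τ ^ 2 * H * NN| ≤ τ * (S.BB * Y) * S.D ^ 2 := by
      rw [abs_mul, abs_mul, abs_of_nonneg (by positivity : 0 ≤ τ ^ 2), abs_of_nonneg hH0,
        abs_of_nonneg hNN0]
      have h4 : τ ^ 2 ≤ τ := by nlinarith
      exact mul_le_mul (mul_le_mul h4 hHB hH0 hτ0.le) hNND hNN0 (by positivity)
    have h4 := abs_sub (τ * (S.s t - H) * Y - 2 * τ * H * ρ) (τ ^ 2 * H * NN)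
    have h5 := abs_sub (τ * (S.s t - H) * Y) (2 * τ * H * ρ)
    nlinarith
  -- the kernel difference
  have hPk : S.Pk ((q : ℂ) * σ₀) t - S.Pk σ₀ t = (S.R t / Real.pi) * (num / (X * Y)) := by
    unfold Pk
    rw [hHu]
    change 1 / Real.pi * S.R t * (q * H + τ * S.s t) / X - 1 / Real.pi * S.R t * H / Y = _
    rw [hnum]
    field_simp
  have hR0 : 0 ≤ S.R t := S.rmin_pos.le.trans (S.R_ge t)
  have hpi := Real.pi_pos
  have hrmax := S.rmax_pos
  have habs : |S.Pk ((q : ℂ) * σ₀) t - S.Pk σ₀ t| ≤ (S.rmax / Real.pi) * (τ * (S.D + 5 * S.BB * S.D ^ 2) / X) := by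
    rw [hPk, abs_mul, abs_of_nonneg (by positivity : 0 ≤ S.R t / Real.pi), abs_div,
      abs_of_pos (by positivity : 0 < X * Y)]
    have h1 : |num| / (X * Y) ≤ τ * (S.D + 5 * S.BB * S.D ^ 2) / X := by
      rw [div_le_div_iff₀ (by positivity) hXpos]
      calc |num| * X ≤ (τ * Y * (S.D + 5 * S.BB * S.D ^ 2)) * X :=
            mul_le_mul_of_nonneg_right hnumle hXpos.le
        _ = _ := by ring
    have h2 : S.R t / Real.pi ≤ S.rmax / Real.pi := div_le_div_of_nonneg_right (S.R_le t) hpi.le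
    exact mul_le_mul h2 h1 (by positivity) (by positivity)
  -- v bounded by X
  have hv1 : vv t t₀ ≤ S.LL ^ 2 * X / (2 * S.rmin ^ 2) := by
    have h1 := S.vv_le_chord t t₀
    have h2 : ‖δ‖ ≤ S.LL * a := S.chord_le hq0 hq1.le t t₀
    have h3 : Y ≤ S.LL ^ 2 * X := by
      rw [hY, hX, ← mul_pow]
      exact pow_le_pow_left₀ (norm_nonneg _) h2 2
    have hr := S.rmin_pos
    refine h1.trans ?_
    exact div_le_div_of_nonneg_right h3 (by positivity)
  have hv0 := vv_nonneg t t₀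
  have hLL := S.LL_ge_one
  have hr := S.rmin_pos
  calc vv t t₀ * |S.Pk ((q : ℂ) * σ₀) t - S.Pk σ₀ t|
      ≤ (S.LL ^ 2 * X / (2 * S.rmin ^ 2)) *
          ((S.rmax / Real.pi) * (τ * (S.D + 5 * S.BB * S.D ^ 2) / X)) :=
        mul_le_mul hv1 habs (abs_nonneg _) (by positivity)
    _ = S.C3 * τ := by
        unfold C3
        field_simp

theorem ofReal_mul_integrable {n : ℝ → ℝ} {g : ℝ → ℂ} (hn : IntervalIntegrable n volume 0 (2 * Real.pi))
    (hg : Continuous g) :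
    IntervalIntegrable (fun t => (n t : ℂ) * g t) volume 0 (2 * Real.pi) := by
  have h1 : IntervalIntegrable (fun t => (n t : ℂ)) volume 0 (2 * Real.pi) := by
    rw [intervalIntegrable_iff] at hn ⊢
    exact hn.ofReal
  exact h1.mul_continuousOn hg.continuousOn

/-- **A2**: the double layer potential has boundary values `h + N h`, uniformly. -/
theorem jump_double_layer {h : ℝ → ℂ} (hc : Continuous h) (hp : ∀ t, h (t + 2 * Real.pi) = h t)
    {ε : ℝ} (hε : 0 < ε) :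
    ∃ q₀ : ℝ, 0 ≤ q₀ ∧ q₀ < 1 ∧ ∀ q : ℝ, q₀ < q → q < 1 → ∀ t₀ : ℝ,
      ‖(∫ t in (0 : ℝ)..(2 * Real.pi), (S.Pk ((q : ℂ) * S.sig t₀) t : ℂ) * h t)
        - h t₀ - S.Nn h t₀‖ ≤ ε := by
  obtain ⟨C, hC0, hC⟩ := modulus hc hp (ε := ε / 6) (by positivity)
  have hpi := Real.pi_pos
  have hC3 := S.C3_nonneg
  set η := ε / (4 * Real.pi * (C + 1) * (S.C3 + 1)) with hη
  have hηpos : 0 < η := by positivity
  refine ⟨max 0 (1 - η), le_max_left _ _, max_lt (by norm_num) (by linarith), ?_⟩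
  intro q hq hq1 t₀
  have hq0 : 0 < q := lt_of_le_of_lt (le_max_left _ _) hq
  have hτ : 1 - q < η := by
    have := lt_of_le_of_lt (le_max_right _ _) hq
    linarith
  have hτ0 : 0 < 1 - q := by linarith
  set u := (q : ℂ) * S.sig t₀ with hu
  set P := S.Pk u with hP
  set n := S.Pk (S.sig t₀) with hn
  set h₀ := h t₀ with hh₀
  have hin : ∀ t, 0 < S.hh t u := fun t => S.radial_inside hq0.le hq1 t₀ t
  have hne : ∀ t, S.sig t - u ≠ 0 := S.sub_ne_of_hh_pos hin
  have hPc : Continuous P := S.Pk_cont hne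
  have hnI : IntervalIntegrable n volume 0 (2 * Real.pi) := S.Pk_sig_integrable t₀ _ _
  have hPI : IntervalIntegrable P volume 0 (2 * Real.pi) := hPc.intervalIntegrable _ _
  have hP2 : ∫ t in (0 : ℝ)..(2 * Real.pi), P t = 2 := S.mass_inside hin
  have hn1 : ∫ t in (0 : ℝ)..(2 * Real.pi), n t = 1 := S.mass_sig t₀
  have hI1 : IntervalIntegrable (fun t => (P t : ℂ) * h t) volume 0 (2 * Real.pi) :=
    ofReal_mul_integrable hPI hc
  have hI2 : IntervalIntegrable (fun t => (n t : ℂ) * h t) volume 0 (2 * Real.pi) :=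
    ofReal_mul_integrable hnI hc
  have hI3 : IntervalIntegrable (fun t => (P t : ℂ)) volume 0 (2 * Real.pi) := by
    have := ofReal_mul_integrable hPI (g := fun _ => (1 : ℂ)) continuous_const
    simpa using this
  have hI4 : IntervalIntegrable (fun t => (n t : ℂ)) volume 0 (2 * Real.pi) := by
    have := ofReal_mul_integrable hnI (g := fun _ => (1 : ℂ)) continuous_const
    simpa using this
  have hintP : ∫ t in (0 : ℝ)..(2 * Real.pi), (P t : ℂ) = 2 := by
    rw [intervalIntegral.integral_ofReal, hP2]; norm_num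
  have hintn : ∫ t in (0 : ℝ)..(2 * Real.pi), (n t : ℂ) = 1 := by
    rw [intervalIntegral.integral_ofReal, hn1]; norm_num
  have hid : (∫ t in (0 : ℝ)..(2 * Real.pi), (P t : ℂ) * h t) - h₀ - S.Nn h t₀
      = ∫ t in (0 : ℝ)..(2 * Real.pi), ((P t - n t : ℝ) : ℂ) * (h t - h₀) := by
    have h1 : ∀ t, ((P t - n t : ℝ) : ℂ) * (h t - h₀)
        = (P t : ℂ) * h t - (n t : ℂ) * h t - ((P t : ℂ) * h₀ - (n t : ℂ) * h₀) := by
      intro t; push_cast; ring
    simp_rw [h1]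
    rw [intervalIntegral.integral_sub (hI1.sub hI2) ((hI3.mul_const h₀).sub (hI4.mul_const h₀)),
      intervalIntegral.integral_sub hI1 hI2,
      intervalIntegral.integral_sub (hI3.mul_const h₀) (hI4.mul_const h₀),
      intervalIntegral.integral_mul_const, intervalIntegral.integral_mul_const, hintP, hintn]
    unfold Nn
    ring
  rw [hid]
  set ε' := ε / 6 with hε'
  have hε'pos : 0 < ε' := by positivity
  -- pointwise bound
  have hpt : ∀ t, ‖((P t - n t : ℝ) : ℂ) * (h t - h₀)‖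
      ≤ ε' * (P t + n t) + C * S.C3 * (1 - q) := by
    intro t
    have hP0 : 0 ≤ P t := S.Pk_nonneg_of_inside hin t
    have hn0 : 0 ≤ n t := S.Pk_nonneg_of_sig t t₀
    have h1 : |P t - n t| ≤ P t + n t := by
      rw [abs_le]; constructor <;> linarith
    have h2 := S.diff_bound hq0.le hq1 t t₀
    rw [norm_mul, Complex.norm_real, Real.norm_eq_abs]
    calc |P t - n t| * ‖h t - h₀‖ ≤ |P t - n t| * (ε' + C * vv t t₀) :=
          mul_le_mul_of_nonneg_left (hC t t₀) (abs_nonneg _)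
      _ = ε' * |P t - n t| + C * (vv t t₀ * |P t - n t|) := by ring
      _ ≤ ε' * (P t + n t) + C * (S.C3 * (1 - q)) :=
          add_le_add (mul_le_mul_of_nonneg_left h1 hε'pos.le)
            (mul_le_mul_of_nonneg_left h2 hC0)
      _ = _ := by ring
  have hbdI : IntervalIntegrable (fun t => ε' * (P t + n t) + C * S.C3 * (1 - q)) volume 0
      (2 * Real.pi) := ((hPI.add hnI).const_mul ε').add intervalIntegrable_const
  have hnorm := intervalIntegral.norm_integral_le_of_norm_le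
    (f := fun t => ((P t - n t : ℝ) : ℂ) * (h t - h₀))
    (g := fun t => ε' * (P t + n t) + C * S.C3 * (1 - q))
    (a := 0) (b := 2 * Real.pi) (by positivity)
    (Filter.Eventually.of_forall (fun t _ => hpt t)) hbdI
  refine hnorm.trans ?_
  rw [intervalIntegral.integral_add ((hPI.add hnI).const_mul ε') intervalIntegrable_const,
    intervalIntegral.integral_const_mul, intervalIntegral.integral_add hPI hnI, hP2, hn1,
    intervalIntegral.integral_const, smul_eq_mul]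
  have h3 : (2 * Real.pi - 0) * (C * S.C3 * (1 - q)) ≤ ε / 2 := by
    have h4 : C * S.C3 ≤ (C + 1) * (S.C3 + 1) := by nlinarith
    have h5 : C * S.C3 * (1 - q) ≤ (C + 1) * (S.C3 + 1) * η :=
      mul_le_mul h4 hτ.le hτ0.le (by positivity)
    have h6 : (C + 1) * (S.C3 + 1) * η * (2 * Real.pi) = ε / 2 := by
      rw [hη]; field_simp; ring
    nlinarith
  have h7 : ε' * (2 + 1) = ε / 2 := by rw [hε']; ring
  linarith

/-- Sum of Cauchy integrals versus the Poisson kernel. -/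
theorem Cc_add_conj {h : ℝ → ℂ} (hc : Continuous h) {z : ℂ} (hz : ∀ t, S.sig t - z ≠ 0) :
    S.Cc h z + conj (S.Cc (fun t => conj (h t)) z)
      = ∫ t in (0 : ℝ)..(2 * Real.pi), (S.Pk z t : ℂ) * h t := by
  have hk := S.cauchy_kernel_cont hz
  have hI : IntervalIntegrable (fun t => h t * (S.dsig t / (S.sig t - z))) volume 0 (2 * Real.pi) :=
    (hc.mul hk).intervalIntegrable _ _
  have hJ : IntervalIntegrable (fun t => h t * conj (S.dsig t / (S.sig t - z))) volume 0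
      (2 * Real.pi) :=
    (hc.mul (Complex.continuous_conj.comp hk)).intervalIntegrable _ _
  unfold Cc
  rw [map_mul]
  have h1 : conj (∫ t in (0 : ℝ)..(2 * Real.pi), conj (h t) * (S.dsig t / (S.sig t - z)))
      = ∫ t in (0 : ℝ)..(2 * Real.pi), h t * conj (S.dsig t / (S.sig t - z)) := by
    rw [← intervalIntegral_conj]
    refine intervalIntegral.integral_congr (fun t _ => ?_)
    simp [map_mul]
  rw [h1]
  have h2 : conj (1 / (2 * (Real.pi : ℂ) * I)) = -(1 / (2 * (Real.pi : ℂ) * I)) := by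
    rw [map_div₀, map_one, map_mul, map_mul, Complex.conj_I, Complex.conj_ofReal, map_ofNat]
    rw [mul_neg, one_div, one_div, inv_neg]
  rw [h2]
  rw [neg_mul, ← sub_eq_add_neg, ← mul_sub, ← intervalIntegral.integral_sub hI hJ,
    ← intervalIntegral.integral_const_mul]
  refine intervalIntegral.integral_congr (fun t _ => ?_)
  change (1 / (2 * (Real.pi : ℂ) * I)) * (h t * (S.dsig t / (S.sig t - z)) - h t * conj (S.dsig t / (S.sig t - z))) = (S.Pk z t : ℂ) * h t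
  have hw : (S.dsig t / (S.sig t - z)) - conj (S.dsig t / (S.sig t - z))
      = 2 * (((S.dsig t / (S.sig t - z)).im : ℝ) : ℂ) * I := by
    rw [Complex.sub_conj]; push_cast; ring
  have hpk : (S.Pk z t : ℂ) = (1 / (Real.pi : ℂ)) * (((S.dsig t / (S.sig t - z)).im : ℝ) : ℂ) := by
    rw [S.Pk_eq_im]; push_cast; ring
  rw [← mul_sub, hw, hpk]
  have hpi : (Real.pi : ℂ) ≠ 0 := by exact_mod_cast Real.pi_ne_zero
  field_simp

/-- Norm of the tangent. -/
theorem dsig_norm (t : ℝ) : ‖S.dsig t‖ = S.R t := by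
  unfold dsig
  rw [norm_mul, norm_mul, Complex.norm_I, one_mul, Complex.norm_real, Real.norm_eq_abs, S.e_norm,
    mul_one, abs_of_nonneg (S.rmin_pos.le.trans (S.R_ge t))]

/-- The jump kernel. -/
def Ker (q t₀ t : ℝ) : ℂ :=
  (1 / (2 * (Real.pi : ℂ) * I)) *
    (S.dsig t / (S.sig t - (q : ℂ) * S.sig t₀) - S.dsig t / (S.sig t - S.sig t₀ / (q : ℂ)))

/-- The constant `K0`. -/
def K0 : ℝ := 3 * S.rmax * S.D / (2 * Real.pi)

theorem K0_nonneg : 0 ≤ S.K0 := by
  have := S.rmax_pos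
  have := S.D_nonneg
  have := Real.pi_pos
  unfold K0
  positivity

theorem Ker_norm {q : ℝ} (hq0 : 1 / 2 ≤ q) (hq1 : q < 1) (t₀ t : ℝ) :
    ‖S.Ker q t₀ t‖ ≤ S.K0 * (1 - q) /
      (‖S.sig t - (q : ℂ) * S.sig t₀‖ * ‖S.sig t - S.sig t₀ / (q : ℂ)‖) := by
  have hq : 0 < q := by linarith
  have hA := S.sub_ne_of_radial hq.le hq1 t t₀
  have hB := S.sub_ne_of_radial_out hq hq1 t t₀
  have hqc : (q : ℂ) ≠ 0 := by exact_mod_cast hq.ne'
  have hpi := Real.pi_pos
  have hrmax := S.rmax_pos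
  have hD := S.D_nonneg
  set A := S.sig t - (q : ℂ) * S.sig t₀ with hAdef
  set B := S.sig t - S.sig t₀ / (q : ℂ) with hBdef
  have h1 : S.Ker q t₀ t = (1 / (2 * (Real.pi : ℂ) * I)) * (S.dsig t *
      (((q - 1 / q : ℝ) : ℂ) * S.sig t₀) / (A * B)) := by
    unfold Ker
    rw [← hAdef, ← hBdef]
    congr 1
    field_simp
    rw [hAdef, hBdef]
    push_cast
    field_simp
    ring
  have hApos : 0 < ‖A‖ := norm_pos_iff.mpr hA
  have hBpos : 0 < ‖B‖ := norm_pos_iff.mpr hB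
  have h2 : |q - 1 / q| ≤ 3 * (1 - q) := by
    have h3 : q ≤ 1 / q := by
      rw [le_div_iff₀ hq]; nlinarith
    rw [abs_of_nonpos (by linarith)]
    have h4 : 1 / q ≤ 3 - 2 * q := by
      rw [div_le_iff₀ hq]; nlinarith
    linarith
  have n1 : ‖(1 / (2 * (Real.pi : ℂ) * I))‖ = 1 / (2 * Real.pi) := by
    rw [norm_div, norm_one, norm_mul, norm_mul, Complex.norm_I, mul_one, Complex.norm_real,
      Real.norm_eq_abs, Complex.norm_ofNat, abs_of_pos hpi]
  have n2 : ‖S.dsig t * (((q - 1 / q : ℝ) : ℂ) * S.sig t₀) / (A * B)‖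
      = S.R t * (|q - 1 / q| * ‖S.sig t₀‖) / (‖A‖ * ‖B‖) := by
    rw [norm_div, norm_mul, norm_mul, norm_mul, S.dsig_norm, Complex.norm_real, Real.norm_eq_abs]
  rw [h1, norm_mul, n1, n2]
  unfold K0
  have h5 : S.R t * (|q - 1 / q| * ‖S.sig t₀‖) ≤ S.rmax * (3 * (1 - q) * S.D) := by
    apply mul_le_mul (S.R_le t) _ (by positivity) hrmax.le
    exact mul_le_mul h2 (S.sig_le t₀) (norm_nonneg _) (by linarith [h2, abs_nonneg (q - 1 / q)])
  have h6 : 1 / (2 * Real.pi) * (S.R t * (|q - 1 / q| * ‖S.sig t₀‖) / (‖A‖ * ‖B‖))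
      ≤ 1 / (2 * Real.pi) * (S.rmax * (3 * (1 - q) * S.D) / (‖A‖ * ‖B‖)) := by
    apply mul_le_mul_of_nonneg_left _ (by positivity)
    exact div_le_div_of_nonneg_right h5 (by positivity)
  refine h6.trans (le_of_eq ?_)
  field_simp

/-- Constant of the bound by the Poisson kernel. -/
def C4 : ℝ := S.K0 * (2 * S.LL) * Real.pi / (S.rmin * S.smin)

/-- Constant of the weighted bound. -/
def C5 : ℝ := S.K0 * (S.LL ^ 2 / (2 * S.rmin ^ 2))

theorem LL_pos : 0 < S.LL := lt_of_lt_of_le one_pos S.LL_ge_one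

theorem C4_nonneg : 0 ≤ S.C4 := by
  have := S.K0_nonneg
  have := S.LL_pos
  have := S.rmin_pos
  have := S.smin_pos
  have := Real.pi_pos
  unfold C4
  positivity

theorem C5_nonneg : 0 ≤ S.C5 := by
  have := S.K0_nonneg
  have := S.LL_pos
  have := S.rmin_pos
  unfold C5
  positivity

/-- Lower bound facts for the outer point. -/
theorem outer_facts {q : ℝ} (hq0 : 0 < q) (hq1 : q < 1) (t t₀ : ℝ) :
    (1 - q) * S.smin ≤ ‖S.sig t - S.sig t₀ / (q : ℂ)‖ ∧
      ‖S.sig t - S.sig t₀‖ ≤ S.LL * ‖S.sig t - S.sig t₀ / (q : ℂ)‖ := by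
  have h1 := S.dist_outside hq0 hq1.le t t₀
  have h2 := S.dist_inside hq0.le hq1.le t₀ t
  have h3 := S.chord_le hq0.le hq1.le t₀ t
  rw [norm_sub_rev] at h3
  have hL := S.LL_pos
  exact ⟨h2.trans h1, h3.trans (mul_le_mul_of_nonneg_left h1 hL.le)⟩

theorem Ker_le_Pk {q : ℝ} (hq0 : 1 / 2 ≤ q) (hq1 : q < 1) (t₀ t : ℝ) :
    ‖S.Ker q t₀ t‖ ≤ S.C4 * S.Pk ((q : ℂ) * S.sig t₀) t := by
  have hq : 0 < q := by linarith
  have hK := S.Ker_norm hq0 hq1 t₀ t
  have hA := S.sub_ne_of_radial hq.le hq1 t t₀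
  have hB := S.sub_ne_of_radial_out hq hq1 t t₀
  set a := ‖S.sig t - (q : ℂ) * S.sig t₀‖ with ha
  set b := ‖S.sig t - S.sig t₀ / (q : ℂ)‖ with hb
  have hapos : 0 < a := norm_pos_iff.mpr hA
  have hbpos : 0 < b := norm_pos_iff.mpr hB
  obtain ⟨hb1, hb2⟩ := S.outer_facts hq hq1 t t₀
  rw [← hb] at hb1 hb2
  have hsm := S.smin_pos
  have hrm := S.rmin_pos
  have hL := S.LL_pos
  have hτ : 0 < 1 - q := by linarith
  have hD := S.D_nonneg
  have hK0 := S.K0_nonneg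
  have hpi := Real.pi_pos
  -- a ≤ 2 L b
  have hab : a ≤ 2 * S.LL * b := by
    have h1 : S.sig t - (q : ℂ) * S.sig t₀ = (S.sig t - S.sig t₀) + ((1 - q : ℝ) : ℂ) * S.sig t₀ := by
      push_cast; ring
    have h2 : a ≤ ‖S.sig t - S.sig t₀‖ + (1 - q) * S.D := by
      rw [ha, h1]
      refine (norm_add_le _ _).trans ?_
      rw [norm_mul, Complex.norm_real, Real.norm_eq_abs, abs_of_pos hτ]
      have := mul_le_mul_of_nonneg_left (S.sig_le t₀) hτ.le
      linarith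
    have h3 : (1 - q) * S.D ≤ S.LL * b := by
      have h4 : S.D / S.smin * ((1 - q) * S.smin) ≤ S.D / S.smin * b :=
        mul_le_mul_of_nonneg_left hb1 (by positivity)
      have h5 : S.D / S.smin * ((1 - q) * S.smin) = (1 - q) * S.D := by field_simp
      have h6 : S.D / S.smin ≤ S.LL := by unfold LL; linarith
      have h7 : S.D / S.smin * b ≤ S.LL * b := mul_le_mul_of_nonneg_right h6 hbpos.le
      linarith
    linarith
  -- lower bound of the kernel
  have hPk : (1 / Real.pi) * S.rmin * ((1 - q) * S.smin) / a ^ 2 ≤ S.Pk ((q : ℂ) * S.sig t₀) t := by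
    unfold Pk
    apply div_le_div_of_nonneg_right _ (by positivity)
    have h1 : (1 - q) * S.smin ≤ S.hh t ((q : ℂ) * S.sig t₀) := by
      rcases S.hh_inside hq.le t t₀ with h | h
      · exact h
      · linarith
    have h2 : 0 ≤ (1 - q) * S.smin := by positivity
    exact mul_le_mul (mul_le_mul_of_nonneg_left (S.R_ge t) (by positivity)) h1 h2
      (mul_nonneg (by positivity) (hrm.le.trans (S.R_ge t)))
  have hfinal : S.K0 * (1 - q) / (a * b) ≤ S.C4 * ((1 / Real.pi) * S.rmin * ((1 - q) * S.smin) / a ^ 2) := by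
    have h1 : S.C4 * ((1 / Real.pi) * S.rmin * ((1 - q) * S.smin) / a ^ 2)
        = S.K0 * (1 - q) * (2 * S.LL) / a ^ 2 := by
      unfold C4
      field_simp
    rw [h1, div_le_div_iff₀ (by positivity) (by positivity)]
    have h2 : a ^ 2 ≤ (2 * S.LL) * (a * b) := by nlinarith
    have h3 : 0 ≤ S.K0 * (1 - q) := by positivity
    nlinarith
  exact hK.trans (hfinal.trans (mul_le_mul_of_nonneg_left hPk S.C4_nonneg))

theorem Ker_weight {q : ℝ} (hq0 : 1 / 2 ≤ q) (hq1 : q < 1) (t₀ t : ℝ) :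
    vv t t₀ * ‖S.Ker q t₀ t‖ ≤ S.C5 * (1 - q) := by
  have hq : 0 < q := by linarith
  have hK := S.Ker_norm hq0 hq1 t₀ t
  have hA := S.sub_ne_of_radial hq.le hq1 t t₀
  have hB := S.sub_ne_of_radial_out hq hq1 t t₀
  set a := ‖S.sig t - (q : ℂ) * S.sig t₀‖ with ha
  set b := ‖S.sig t - S.sig t₀ / (q : ℂ)‖ with hb
  have hapos : 0 < a := norm_pos_iff.mpr hA
  have hbpos : 0 < b := norm_pos_iff.mpr hB
  obtain ⟨hb1, hb2⟩ := S.outer_facts hq hq1 t t₀
  rw [← hb] at hb1 hb2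
  have ha2 : ‖S.sig t - S.sig t₀‖ ≤ S.LL * a := S.chord_le hq.le hq1.le t t₀
  have hL := S.LL_pos
  have hrm := S.rmin_pos
  have hτ : 0 < 1 - q := by linarith
  have hK0 := S.K0_nonneg
  have hv := S.vv_le_chord t t₀
  have hv0 := vv_nonneg t t₀
  have hY : ‖S.sig t - S.sig t₀‖ ^ 2 ≤ S.LL ^ 2 * (a * b) := by
    have := mul_le_mul ha2 hb2 (norm_nonneg _) (by positivity)
    nlinarith
  have hv2 : vv t t₀ ≤ S.LL ^ 2 * (a * b) / (2 * S.rmin ^ 2) :=
    hv.trans (div_le_div_of_nonneg_right hY (by positivity))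
  calc vv t t₀ * ‖S.Ker q t₀ t‖
      ≤ (S.LL ^ 2 * (a * b) / (2 * S.rmin ^ 2)) * (S.K0 * (1 - q) / (a * b)) :=
        mul_le_mul hv2 hK (norm_nonneg _) (by positivity)
    _ = S.C5 * (1 - q) := by
        unfold C5
        field_simp

theorem Ker_cont {q : ℝ} (hq0 : 0 < q) (hq1 : q < 1) (t₀ : ℝ) : Continuous (S.Ker q t₀) := by
  unfold Ker
  have h1 := S.cauchy_kernel_cont (fun t => S.sub_ne_of_radial hq0.le hq1 t t₀)
  have h2 := S.cauchy_kernel_cont (fun t => S.sub_ne_of_radial_out hq0 hq1 t t₀)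
  exact continuous_const.mul (h1.sub h2)

theorem Ker_integral {q : ℝ} (hq0 : 0 < q) (hq1 : q < 1) (t₀ : ℝ) :
    ∫ t in (0 : ℝ)..(2 * Real.pi), S.Ker q t₀ t = 1 := by
  have h1 := S.cauchy_kernel_cont (fun t => S.sub_ne_of_radial hq0.le hq1 t t₀)
  have h2 := S.cauchy_kernel_cont (fun t => S.sub_ne_of_radial_out hq0 hq1 t t₀)
  unfold Ker
  rw [intervalIntegral.integral_const_mul,
    intervalIntegral.integral_sub (h1.intervalIntegrable _ _) (h2.intervalIntegrable _ _)]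
  have h3 := S.winding_in ((q : ℂ) * S.sig t₀) (fun t => S.radial_inside hq0.le hq1 t₀ t)
  have h4 := S.winding_out (S.sig t₀ / (q : ℂ)) ⟨t₀, S.outside_pt hq0 hq1 t₀⟩
  unfold dsig
  rw [h3, h4, sub_zero]
  have hpi : (Real.pi : ℂ) ≠ 0 := by exact_mod_cast Real.pi_ne_zero
  field_simp

/-- **A1**: the jump of the Cauchy integral across the curve, uniformly. -/
theorem jump_cauchy {h : ℝ → ℂ} (hc : Continuous h) (hp : ∀ t, h (t + 2 * Real.pi) = h t)
    {ε : ℝ} (hε : 0 < ε) :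
    ∃ q₀ : ℝ, 1 / 2 ≤ q₀ ∧ q₀ < 1 ∧ ∀ q : ℝ, q₀ < q → q < 1 → ∀ t₀ : ℝ,
      ‖S.Cc h ((q : ℂ) * S.sig t₀) - S.Cc h (S.sig t₀ / (q : ℂ)) - h t₀‖ ≤ ε := by
  have hC4 := S.C4_nonneg
  have hC5 := S.C5_nonneg
  set ε' := ε / (4 * (S.C4 + 1)) with hε'
  have hε'pos : 0 < ε' := by positivity
  obtain ⟨C, hC0, hC⟩ := modulus hc hp hε'pos
  have hpi := Real.pi_pos
  set η := ε / (4 * Real.pi * (C + 1) * (S.C5 + 1)) with hη
  have hηpos : 0 < η := by positivity
  refine ⟨max (1 / 2) (1 - η), le_max_left _ _, max_lt (by norm_num) (by linarith), ?_⟩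
  intro q hq hq1 t₀
  have hq12 : 1 / 2 ≤ q := ((le_max_left _ _).trans_lt hq).le
  have hq0 : 0 < q := by linarith
  have hτ : 1 - q < η := by
    have := lt_of_le_of_lt (le_max_right _ _) hq
    linarith
  have hτ0 : 0 < 1 - q := by linarith
  set h₀ := h t₀ with hh₀
  set k := S.Ker q t₀ with hk
  have hkc : Continuous k := S.Ker_cont hq0 hq1 t₀
  have hk1 : ∫ t in (0 : ℝ)..(2 * Real.pi), k t = 1 := S.Ker_integral hq0 hq1 t₀
  have hk1c := S.cauchy_kernel_cont (fun t => S.sub_ne_of_radial hq0.le hq1 t t₀)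
  have hk2c := S.cauchy_kernel_cont (fun t => S.sub_ne_of_radial_out hq0 hq1 t t₀)
  have hid : S.Cc h ((q : ℂ) * S.sig t₀) - S.Cc h (S.sig t₀ / (q : ℂ)) - h₀
      = ∫ t in (0 : ℝ)..(2 * Real.pi), (h t - h₀) * k t := by
    have h1 : ∀ t, (h t - h₀) * k t = h t * k t - h₀ * k t := fun t => by ring
    simp_rw [h1]
    have I1 : IntervalIntegrable (fun t => h t * k t) volume 0 (2 * Real.pi) :=
      (hc.mul hkc).intervalIntegrable _ _
    have I2 : IntervalIntegrable (fun t => h₀ * k t) volume 0 (2 * Real.pi) :=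
      (continuous_const.mul hkc).intervalIntegrable _ _
    rw [intervalIntegral.integral_sub I1 I2,
      intervalIntegral.integral_const_mul, hk1, mul_one]
    congr 1
    unfold Cc
    have I3 : IntervalIntegrable (fun t => h t * (S.dsig t / (S.sig t - (q : ℂ) * S.sig t₀))) volume 0
        (2 * Real.pi) := (hc.mul hk1c).intervalIntegrable _ _
    have I4 : IntervalIntegrable (fun t => h t * (S.dsig t / (S.sig t - S.sig t₀ / (q : ℂ)))) volume 0
        (2 * Real.pi) := (hc.mul hk2c).intervalIntegrable _ _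
    rw [← mul_sub, ← intervalIntegral.integral_sub I3 I4, ← intervalIntegral.integral_const_mul]
    refine intervalIntegral.integral_congr (fun t _ => ?_)
    simp only [hk, Ker]
    ring
  rw [hid]
  set u := (q : ℂ) * S.sig t₀ with hu
  set P := S.Pk u with hP
  have hin : ∀ t, 0 < S.hh t u := fun t => S.radial_inside hq0.le hq1 t₀ t
  have hne : ∀ t, S.sig t - u ≠ 0 := S.sub_ne_of_hh_pos hin
  have hPc : Continuous P := S.Pk_cont hne
  have hPI : IntervalIntegrable P volume 0 (2 * Real.pi) := hPc.intervalIntegrable _ _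
  have hP2 : ∫ t in (0 : ℝ)..(2 * Real.pi), P t = 2 := S.mass_inside hin
  have hpt : ∀ t, ‖(h t - h₀) * k t‖ ≤ ε' * S.C4 * P t + C * S.C5 * (1 - q) := by
    intro t
    have h1 : ‖k t‖ ≤ S.C4 * P t := S.Ker_le_Pk hq12 hq1 t₀ t
    have h2 : vv t t₀ * ‖k t‖ ≤ S.C5 * (1 - q) := S.Ker_weight hq12 hq1 t₀ t
    rw [norm_mul]
    calc ‖h t - h₀‖ * ‖k t‖ ≤ (ε' + C * vv t t₀) * ‖k t‖ :=
          mul_le_mul_of_nonneg_right (hC t t₀) (norm_nonneg _)
      _ = ε' * ‖k t‖ + C * (vv t t₀ * ‖k t‖) := by ring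
      _ ≤ ε' * (S.C4 * P t) + C * (S.C5 * (1 - q)) :=
          add_le_add (mul_le_mul_of_nonneg_left h1 hε'pos.le)
            (mul_le_mul_of_nonneg_left h2 hC0)
      _ = _ := by ring
  have hbdI : IntervalIntegrable (fun t => ε' * S.C4 * P t + C * S.C5 * (1 - q)) volume 0
      (2 * Real.pi) := (hPI.const_mul _).add intervalIntegrable_const
  have hnorm := intervalIntegral.norm_integral_le_of_norm_le
    (f := fun t => (h t - h₀) * k t)
    (g := fun t => ε' * S.C4 * P t + C * S.C5 * (1 - q))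
    (a := 0) (b := 2 * Real.pi) (by positivity)
    (Filter.Eventually.of_forall (fun t _ => hpt t)) hbdI
  refine hnorm.trans ?_
  rw [intervalIntegral.integral_add (hPI.const_mul _) intervalIntegrable_const,
    intervalIntegral.integral_const_mul, hP2, intervalIntegral.integral_const, smul_eq_mul]
  have h3 : (2 * Real.pi - 0) * (C * S.C5 * (1 - q)) ≤ ε / 2 := by
    have h4 : C * S.C5 ≤ (C + 1) * (S.C5 + 1) := by nlinarith
    have h5 : C * S.C5 * (1 - q) ≤ (C + 1) * (S.C5 + 1) * η :=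
      mul_le_mul h4 hτ.le hτ0.le (by positivity)
    have h6 : (C + 1) * (S.C5 + 1) * η * (2 * Real.pi) = ε / 2 := by
      rw [hη]; field_simp; ring
    nlinarith
  have h7 : ε' * S.C4 * 2 ≤ ε / 2 := by
    have h8 : ε' * (S.C4 + 1) * 2 = ε / 2 := by
      rw [hε']; field_simp; ring
    nlinarith
  linarith

end Setup

end Vale.Agent.Lib.P123C.Limits
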