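import Mathlib

/-!
# P123, Crouzeix: the abstract main inequality

The last step of the proof of `‖P(A)‖ ≤ 2 M`, with no curves: approximate singular vectors of `T0`
and the supremum argument. The curve part only has to provide the hypothesis `key` of `main_abs`.
-/

open scoped InnerProductSpace

namespace Vale.Agent.Lib.P123C

variable {H : Type*} [NormedAddCommGroup H] [InnerProductSpace ℂ H] [CompleteSpace H]

/-- Approximate singular vectors of an operator. -/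
theorem exists_approx_singular (T : H →L[ℂ] H) (hT : 0 < ‖T‖) {δ : ℝ} (hδ : 0 < δ) :
    ∃ x y : H, ‖x‖ = 1 ∧ ‖y‖ = 1 ∧ ‖T x - ((‖T‖ : ℝ) : ℂ) • y‖ ≤ δ ∧
      ‖(ContinuousLinearMap.adjoint T) y - ((‖T‖ : ℝ) : ℂ) • x‖ ≤ δ := by
  set K := ‖T‖ with hK
  -- the slack
  set η : ℝ := min (min δ (δ ^ 2 / (2 * K))) (K / 2) with hη
  have hη0 : 0 < η := by positivity
  have hη1 : η ≤ δ := (min_le_left _ _).trans (min_le_left _ _)
  have hη2 : η ≤ δ ^ 2 / (2 * K) := (min_le_left _ _).trans (min_le_right _ _)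
  have hη3 : η ≤ K / 2 := min_le_right _ _
  -- a vector almost attaining the norm
  have hlt : K - η < ‖T‖ := by linarith
  obtain ⟨z, hz1, hz2⟩ := ContinuousLinearMap.exists_lt_apply_of_lt_opNorm T (by nlinarith : (K - η : ℝ) < ‖T‖)
  have hz0 : z ≠ 0 := by
    rintro rfl
    simp at hz2
    linarith
  have hzn : 0 < ‖z‖ := norm_pos_iff.2 hz0
  -- normalise
  set x : H := ((‖z‖⁻¹ : ℝ) : ℂ) • z with hx
  have hxn : ‖x‖ = 1 := by
    rw [hx, norm_smul]
    simp only [Complex.norm_real, norm_inv, norm_norm]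
    field_simp
  have hTx : ‖T x‖ = ‖z‖⁻¹ * ‖T z‖ := by
    rw [hx, map_smul, norm_smul]
    simp
  have hTxlow : K - η < ‖T x‖ := by
    rw [hTx]
    have h1 : ‖T z‖ ≤ ‖z‖⁻¹ * ‖T z‖ := by
      have h2 : ‖z‖⁻¹ ≥ 1 := (one_le_inv₀ hzn).2 (le_of_lt hz1)
      nlinarith [norm_nonneg (T z)]
    linarith
  have hTxup : ‖T x‖ ≤ K := by
    have := T.le_opNorm x
    rw [hxn, mul_one] at this
    exact this
  have hTxpos : 0 < ‖T x‖ := by linarith
  set a := ‖T x‖ with ha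
  set y : H := ((a⁻¹ : ℝ) : ℂ) • T x with hy
  have hyn : ‖y‖ = 1 := by
    rw [hy, norm_smul]
    simp only [Complex.norm_real, norm_inv, Real.norm_eq_abs, abs_of_pos hTxpos]
    rw [← ha]
    field_simp
  have hTxy : T x = ((a : ℝ) : ℂ) • y := by
    rw [hy, smul_smul, ← Complex.ofReal_mul, mul_inv_cancel₀ hTxpos.ne']
    simp
  refine ⟨x, y, hxn, hyn, ?_, ?_⟩
  · -- first defect
    have h1 : T x - ((K : ℝ) : ℂ) • y = ((a - K : ℝ) : ℂ) • y := by
      rw [hTxy, Complex.ofReal_sub, sub_smul]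
    rw [h1, norm_smul, hyn, mul_one, Complex.norm_real, Real.norm_eq_abs, abs_of_nonpos (by linarith)]
    linarith
  · -- second defect
    set w := (ContinuousLinearMap.adjoint T) y with hw
    have hw1 : ‖w‖ ≤ K := by
      have := (ContinuousLinearMap.adjoint T).le_opNorm y
      rw [hyn, mul_one, LinearIsometryEquiv.norm_map] at this
      exact this
    have hin : (⟪x, w⟫_ℂ) = a := by
      rw [hw, ContinuousLinearMap.adjoint_inner_right, hTxy, inner_smul_left, inner_self_eq_norm_sq_to_K,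
        hyn]
      simp
    have hsq : ‖w - ((K : ℝ) : ℂ) • x‖ ^ 2 ≤ δ ^ 2 := by
      have h1 : ‖w - ((K : ℝ) : ℂ) • x‖ ^ 2
          = ‖w‖ ^ 2 - 2 * RCLike.re (⟪w, ((K : ℝ) : ℂ) • x⟫_ℂ) + ‖((K : ℝ) : ℂ) • x‖ ^ 2 :=
        norm_sub_sq (𝕜 := ℂ) w (((K : ℝ) : ℂ) • x)
      have h2 : ‖((K : ℝ) : ℂ) • x‖ = K := by
        rw [norm_smul, hxn, mul_one, Complex.norm_real, Real.norm_eq_abs, abs_of_pos hT]
      have h3 : RCLike.re (⟪w, ((K : ℝ) : ℂ) • x⟫_ℂ) = K * a := by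
        rw [inner_smul_right, ← inner_conj_symm w x, hin]
        simp
      rw [h1, h2, h3]
      have h4 : ‖w‖ ^ 2 ≤ K ^ 2 := pow_le_pow_left₀ (norm_nonneg _) hw1 2
      have h5 : 2 * K * (K - a) ≤ 2 * K * η :=
        mul_le_mul_of_nonneg_left (by linarith) (by positivity)
      have h6 : 2 * K * η ≤ δ ^ 2 := by
        have : η * (2 * K) ≤ δ ^ 2 := (le_div_iff₀ (by positivity)).1 hη2
        linarith
      nlinarith
    exact abs_le_of_sq_le_sq' hsq hδ.le |>.2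

/-- **The abstract main inequality.** `Test` is a family of real test functions, `nrm` the norm of
`L²(m)`, `L u h = ⟨S(h) u, u⟩`, and `key` says what the curve part provides: for `‖h‖ ≤ 1` an operator
`B = β(A)` with `β` analytic, commuting with `T0 = P(A)`, with `Re ⟨B u, u⟩ ≈ L u h / 4`, and with
`⟨T0 B x, y⟩` bounded by the double layer estimate, with constant `Q` any upper bound of the mean of
`L x`, `L y` on the unit ball. -/
theorem main_abs (T0 : H →L[ℂ] H) {Test : Type*} (nrm : Test → ℝ) (L : H → Test → ℝ)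
    (one : Test) (hone : nrm one ≤ 1) (hLone : ∀ u, ‖u‖ = 1 → L u one = 2)
    {Cbd C0 M : ℝ} (hM : 0 ≤ M) (hC0 : 0 ≤ C0)
    (hbd : ∀ u, ‖u‖ = 1 → ∀ h, nrm h ≤ 1 → L u h ≤ Cbd)
    (key : ∀ x y : H, ‖x‖ = 1 → ‖y‖ = 1 → ∀ Q : ℝ, (∀ g, nrm g ≤ 1 → (L x g + L y g) / 2 ≤ Q) →
      ∀ h, nrm h ≤ 1 → ∀ ε : ℝ, 0 < ε →
        ∃ B : H →L[ℂ] H, B * T0 = T0 * B ∧ ‖B‖ ≤ C0 ∧ L x h / 4 - ε ≤ (⟪x, B x⟫_ℂ).re ∧
          L y h / 4 - ε ≤ (⟪y, B y⟫_ℂ).re ∧ ‖⟪y, T0 (B x)⟫_ℂ‖ ≤ Q * M * (1 / 2) + ε) :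
    ‖T0‖ ≤ 2 * M := by
  by_contra hcon
  have hcon := not_le.1 hcon
  have hTpos : 0 < ‖T0‖ := lt_of_le_of_lt (by positivity) hcon
  set K := ‖T0‖ with hK
  -- choose the slack
  set δ : ℝ := (K - 2 * M) / (4 * (C0 + 1)) with hδ
  have hδ0 : 0 < δ := by
    apply div_pos (by linarith) (by positivity)
  obtain ⟨x, y, hx, hy, hd1, hd2⟩ := exists_approx_singular T0 hTpos hδ0
  -- the supremum
  set S : Set ℝ := {t | ∃ g, nrm g ≤ 1 ∧ t = (L x g + L y g) / 2} with hS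
  have hSbdd : BddAbove S := by
    refine ⟨Cbd, ?_⟩
    rintro t ⟨g, hg, rfl⟩
    have := hbd x hx g hg
    have := hbd y hy g hg
    linarith
  have hSne : S.Nonempty := ⟨_, one, hone, rfl⟩
  set Q := sSup S with hQ
  have hQg : ∀ g, nrm g ≤ 1 → (L x g + L y g) / 2 ≤ Q := fun g hg => le_csSup hSbdd ⟨g, hg, rfl⟩
  have hQ2 : 2 ≤ Q := by
    have := hQg one hone
    rw [hLone x hx, hLone y hy] at this
    linarith
  -- each test function
  have hmain : ∀ g, nrm g ≤ 1 → K * ((L x g + L y g) / 2) / 4 ≤ Q * M * (1 / 2) + δ * C0 := by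
    intro g hg
    refine le_of_forall_pos_le_add fun ε hε => ?_
    -- use a small ε' in `key`
    set ε' : ℝ := ε / (K + 1) with hε'
    have hε'0 : 0 < ε' := by positivity
    obtain ⟨B, hcomm, hB, hx1, hy1, hxy⟩ := key x y hx hy Q hQg g hg ε' hε'0
    -- the two expansions of `⟪y, T0 (B x)⟫`
    set w := ⟪y, T0 (B x)⟫_ℂ with hw
    have e1 : ‖w - (K : ℂ) * ⟪x, B x⟫_ℂ‖ ≤ δ * C0 := by
      have h1 : w - (K : ℂ) * ⟪x, B x⟫_ℂ
          = ⟪(ContinuousLinearMap.adjoint T0) y - ((K : ℝ) : ℂ) • x, B x⟫_ℂ := by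
        rw [inner_sub_left, inner_smul_left, hw, ContinuousLinearMap.adjoint_inner_left]
        simp
      rw [h1]
      calc _ ≤ ‖(ContinuousLinearMap.adjoint T0) y - ((K : ℝ) : ℂ) • x‖ * ‖B x‖ :=
            norm_inner_le_norm _ _
        _ ≤ δ * C0 := by
            have : ‖B x‖ ≤ C0 := by
              have := B.le_opNorm x
              rw [hx, mul_one] at this
              exact this.trans hB
            exact mul_le_mul hd2 this (norm_nonneg _) hδ0.le
    have e2 : ‖w - (K : ℂ) * ⟪y, B y⟫_ℂ‖ ≤ δ * C0 := by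
      have h0 : T0 (B x) = B (T0 x) := by
        have := congrArg (fun S : H →L[ℂ] H => S x) hcomm
        simpa using this.symm
      have h1 : w - (K : ℂ) * ⟪y, B y⟫_ℂ = ⟪y, B (T0 x - ((K : ℝ) : ℂ) • y)⟫_ℂ := by
        rw [map_sub, inner_sub_right, map_smul, inner_smul_right, hw, h0]
      rw [h1]
      calc _ ≤ ‖y‖ * ‖B (T0 x - ((K : ℝ) : ℂ) • y)‖ := norm_inner_le_norm _ _
        _ ≤ δ * C0 := by
            rw [hy, one_mul]
            have := B.le_opNorm (T0 x - ((K : ℝ) : ℂ) • y)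
            calc _ ≤ ‖B‖ * ‖T0 x - ((K : ℝ) : ℂ) • y‖ := this
              _ ≤ C0 * δ := mul_le_mul hB hd1 (norm_nonneg _) hC0
              _ = δ * C0 := mul_comm _ _
    -- real parts
    have r1 : K * (⟪x, B x⟫_ℂ).re ≤ w.re + δ * C0 := by
      have := (Complex.abs_re_le_norm (w - (K : ℂ) * ⟪x, B x⟫_ℂ)).trans e1
      have h2 := (abs_le.1 this).1
      simp only [Complex.sub_re, Complex.mul_re, Complex.ofReal_re, Complex.ofReal_im, zero_mul,
        sub_zero] at h2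
      linarith
    have r2 : K * (⟪y, B y⟫_ℂ).re ≤ w.re + δ * C0 := by
      have := (Complex.abs_re_le_norm (w - (K : ℂ) * ⟪y, B y⟫_ℂ)).trans e2
      have h2 := (abs_le.1 this).1
      simp only [Complex.sub_re, Complex.mul_re, Complex.ofReal_re, Complex.ofReal_im, zero_mul,
        sub_zero] at h2
      linarith
    have r3 : w.re ≤ Q * M * (1 / 2) + ε' := (Complex.re_le_norm w).trans hxy
    have r4 : K * (L x g / 4 - ε') ≤ K * (⟪x, B x⟫_ℂ).re :=
      mul_le_mul_of_nonneg_left hx1 hTpos.le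
    have r5 : K * (L y g / 4 - ε') ≤ K * (⟪y, B y⟫_ℂ).re :=
      mul_le_mul_of_nonneg_left hy1 hTpos.le
    have r6 : (K + 1) * ε' = ε := by
      rw [hε']
      field_simp
    nlinarith
  -- the supremum over test functions
  have hsup : K * Q / 4 ≤ Q * M * (1 / 2) + δ * C0 := by
    have hK4 : 0 < K / 4 := by positivity
    have h1 : Q ≤ (Q * M * (1 / 2) + δ * C0) / (K / 4) := by
      refine csSup_le hSne ?_
      rintro t ⟨g, hg, rfl⟩
      rw [le_div_iff₀ hK4]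
      have := hmain g hg
      linarith
    have h2 := (le_div_iff₀ hK4).1 h1
    linarith
  -- conclusion
  have h3 : δ * (C0 + 1) = (K - 2 * M) / 4 := by
    rw [hδ]
    field_simp
  have h4 : δ * C0 ≤ (K - 2 * M) / 4 := by nlinarith
  have h5 : Q * (K - 2 * M) / 4 ≤ δ * C0 := by nlinarith
  nlinarith

end Vale.Agent.Lib.P123C
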