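import Vale.Agent.Lib.P123C.Geom
import Vale.Agent.Lib.P123C.Doeblin
import Vale.Agent.Lib.P123C.Lam

/-!
# The Markov operator of a convex curve as a Doeblin datum

`N h t0 = ∫_0^{2π} Pk (sig t0) t * h t dt`, `a h = c1 ∫_0^{2π} h`, `c1 = 2 rmin² / (π³ rmax²)`.
-/

open MeasureTheory Real Set Filter Topology
open scoped BoundedContinuousFunction ComplexConjugate

namespace Vale.Agent.Lib.P123C.NData

open Vale.Agent.Lib.P123C

/-- The adapter from raw kernels to the abstract Doeblin data. -/
noncomputable def dataOf {n : ℝ → ℝ → ℝ} {c1 : ℝ} (K : Lam.Kernel n c1) : Doeblin.Data where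
  N := Lam.NN K
  N1 := Lam.N1 K
  a := Lam.aa K.c1_pos
  κ := Lam.kap c1
  hκ0 := K.kap_nonneg
  hκ1 := K.kap_lt_one
  hN := Lam.N_eq K
  hN1norm := ContinuousLinearMap.opNorm_le_bound _ K.kap_nonneg (Lam.norm_N1_apply_le K)
  hN1one := Lam.N1_one K
  ha1 := Lam.aa_one K.c1_pos
  hanorm := by
    refine ContinuousLinearMap.opNorm_le_bound _ (by linarith [K.kap_lt_one]) fun h => ?_
    have h1 := Lam.norm_aaFun_le K.c1_pos h
    have h2 : 1 - Lam.kap c1 = 2 * π * c1 := by unfold Lam.kap; ring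
    rw [h2]
    exact h1
  hN1pos := fun h hh => by
    have h1 : Lam.IsNonneg h := fun t => ⟨(hh t).2, (hh t).1⟩
    have h2 := Lam.N1_nonneg K h1
    exact fun t => ⟨(h2 t).2, (h2 t).1⟩
  hapos := fun h hh => by
    have h1 : Lam.IsNonneg h := fun t => ⟨(hh t).2, (hh t).1⟩
    have h2 := Lam.aa_nonneg K.c1_pos h1
    exact ⟨h2.2, h2.1⟩
  hN1star := Lam.N1_star K
  hastar := Lam.aa_star K.c1_pos

section

variable {n : ℝ → ℝ → ℝ} {c1 : ℝ} (K : Lam.Kernel n c1)

theorem dataOf_N_apply (h : Doeblin.B) (t0 : ℝ) :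
    (dataOf K).N h t0 = ∫ t in (0 : ℝ)..(2 * π), (n t0 t : ℂ) * h t := rfl

theorem dataOf_a_apply (h : Doeblin.B) :
    (dataOf K).a h = c1 * ∫ t in (0 : ℝ)..(2 * π), h t := rfl

theorem dataOf_κ : (dataOf K).κ = 1 - 2 * π * c1 := rfl

theorem dataOf_lam : (dataOf K).lam = Lam.lam K := rfl

end

section curve

open Geom

variable {s s1 R : ℝ → ℝ} {rmin rmax : ℝ}

/-- The kernel on the curve. -/
noncomputable def nK (s s1 R : ℝ → ℝ) (t0 t : ℝ) : ℝ := Pk s s1 R (sig s s1 t0) t

/-- Doeblin lower constant. -/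
noncomputable def c1K (rmin rmax : ℝ) : ℝ := 2 * rmin ^ 2 / (π ^ 3 * rmax ^ 2)

theorem ae_cos_ne (t0 : ℝ) : ∀ᵐ t ∂(volume : Measure ℝ), Real.cos (t - t0) ≠ 1 := by
  have hc : ({t : ℝ | Real.cos (t - t0) = 1}).Countable := by
    have : {t : ℝ | Real.cos (t - t0) = 1} ⊆ Set.range (fun k : ℤ => t0 + (k : ℝ) * (2 * π)) := by
      intro t ht
      obtain ⟨k, hk⟩ := (Real.cos_eq_one_iff _).1 ht
      exact ⟨k, by simp only; rw [hk]; ring⟩
    exact (Set.countable_range _).mono this
  have := hc.measure_zero volume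
  rw [ae_iff]
  simpa using this

theorem kernel (hs : ∀ t, HasDerivAt s (s1 t) t) (hs1 : ∀ t, HasDerivAt s1 (R t - s t) t)
    (hper : ∀ t, s (t + 2 * π) = s t) (hper1 : ∀ t, s1 (t + 2 * π) = s1 t)
    (hRper : ∀ t, R (t + 2 * π) = R t) (hRc : Continuous R)
    (hr0 : 0 < rmin) (hmin : ∀ t, rmin ≤ R t) (hmax : ∀ t, R t ≤ rmax) :
    Lam.Kernel (nK s s1 R) (c1K rmin rmax) := by
  have hrmax : 0 < rmax := hr0.trans_le ((hmin 0).trans (hmax 0))
  have hpi := Real.pi_pos
  have hsc : Continuous s := continuous_iff_continuousAt.2 fun t => (hs t).continuousAt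
  have hs1c : Continuous s1 := continuous_iff_continuousAt.2 fun t => (hs1 t).continuousAt
  have hsigc : Continuous (sig s s1) := continuous_sig hs hs1
  have hec : Continuous e := continuous_e
  have hhc : ∀ z, Continuous fun t => hh s t z := by
    intro z
    unfold hh
    have : Continuous fun t => (conj (e t) * z).re :=
      Complex.continuous_re.comp ((Complex.continuous_conj.comp hec).mul continuous_const)
    exact hsc.sub this
  refine Lam.Kernel.mk_of_bounds (c2 := rmax ^ 2 / (2 * π * rmin ^ 2)) (by unfold c1K; positivity)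
    ?_ ?_ ?_ ?_ ?_
  · intro t0
    have h1 : Measurable fun t => R t * hh s t (sig s s1 t0) :=
      hRc.measurable.mul (hhc _).measurable
    have h2 : Measurable fun t => ‖sig s s1 t - sig s s1 t0‖ ^ 2 :=
      ((hsigc.sub continuous_const).norm.pow 2).measurable
    exact (h1.div h2).const_mul _
  · intro t0
    filter_upwards [ae_cos_ne t0] with t ht _
    exact (Pk_sig_bounds hs hs1 hper hper1 hr0 hmin hmax ht).1
  · intro t0
    exact Eventually.of_forall fun t _ => (Pk_sig_abs_le hs hs1 hper hper1 hr0 hmin hmax t t0).2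
  · intro t0
    exact mass_one hs hs1 hper hper1 hRper hRc hr0 hmin hmax t0
  · intro t0
    filter_upwards [ae_cos_ne t0] with t ht _
    have hv : 0 < 1 - Real.cos (t - t0) := by
      have := Real.cos_le_one (t - t0)
      rcases this.lt_or_eq with h | h
      · linarith
      · exact absurd h ht
    have hD : 0 < ‖sig s s1 t - sig s s1 t0‖ ^ 2 := by
      have h2 := chord_lower hs hs1 hper hper1 hr0.le hmin t t0
      refine lt_of_lt_of_le ?_ h2
      positivity
    unfold nK Pk
    have hc1 : Continuous fun u => R t * hh s t (sig s s1 u) := by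
      refine continuous_const.mul ?_
      unfold hh
      refine continuous_const.sub ?_
      exact Complex.continuous_re.comp (continuous_const.mul hsigc)
    have hc2 : Continuous fun u => ‖sig s s1 t - sig s s1 u‖ ^ 2 :=
      ((continuous_const.sub hsigc).norm.pow 2)
    exact ((hc1.continuousAt).div hc2.continuousAt hD.ne').const_mul _

end curve

end Vale.Agent.Lib.P123C.NData
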