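import Vale.Agent.Lib.P123C.Geom

/-!
# Operators attached to a convex curve: resolvent, `T[h]`, `S(h)`, the positive density `M`

`A` is a bounded operator on a complex Hilbert space whose numerical range lies strictly inside the
curve with support function `s`.  The inner product of Mathlib is conjugate linear in the first
variable, so the point `⟨A x, x⟩` of the numerical range reads `inner ℂ x (A x)`.
-/

open Complex Set Filter Topology MeasureTheory
open scoped Real ComplexConjugate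

namespace Vale.Agent.Lib.P123C.Oper

open Vale.Agent.Lib.P123C.Geom

noncomputable section

variable {H : Type*} [NormedAddCommGroup H] [InnerProductSpace ℂ H] [CompleteSpace H]

/-- The resolvent. -/
def Res (A : H →L[ℂ] H) (u : ℂ) : H →L[ℂ] H := Ring.inverse (u • (1 : H →L[ℂ] H) - A)

/-- The tangent vector of the curve. -/
def sigD (R : ℝ → ℝ) (t : ℝ) : ℂ := I * (R t : ℂ) * e t

/-- The numerical range of `A` stays at distance `δ` inside every supporting line of the curve. -/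
def Inside (s : ℝ → ℝ) (A : H →L[ℂ] H) (δ : ℝ) : Prop :=
  0 < δ ∧ ∀ (t : ℝ) (x : H), (conj (e t) * inner ℂ x (A x)).re ≤ (s t - δ) * ‖x‖ ^ 2

/-- The Cauchy operator on the curve scaled by `r`: with `b = C[h](· / r)`,
this is the operator `b(A)`.  For `r = 1` it is `T[h]`. -/
def Tr (s s1 R : ℝ → ℝ) (A : H →L[ℂ] H) (r : ℝ) (h : ℝ → ℂ) : H →L[ℂ] H :=
  ((2 * (π : ℂ) * I)⁻¹) • ∫ t in (0 : ℝ)..(2 * π),
    (h t * ((r : ℂ) * sigD R t)) • Res A ((r : ℂ) * sig s s1 t)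

/-- The Cauchy operator `T[h] = (2 π i)⁻¹ ∫ h σ' (σ - A)⁻¹ dt`. -/
def T (s s1 R : ℝ → ℝ) (A : H →L[ℂ] H) (h : ℝ → ℂ) : H →L[ℂ] H :=
  ((2 * (π : ℂ) * I)⁻¹) • ∫ t in (0 : ℝ)..(2 * π), (h t * sigD R t) • Res A (sig s s1 t)

/-- `S(h) = T[h] + T[conj h]^*`. -/
def S (s s1 R : ℝ → ℝ) (A : H →L[ℂ] H) (h : ℝ → ℂ) : H →L[ℂ] H :=
  T s s1 R A h + ContinuousLinearMap.adjoint (T s s1 R A (fun t => conj (h t)))

/-- The positive operator density of `S` with respect to `dt`. -/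
def M (s s1 R : ℝ → ℝ) (A : H →L[ℂ] H) (t : ℝ) : H →L[ℂ] H :=
  (((R t / (2 * π) : ℝ) : ℂ)) • (e t • Res A (sig s s1 t) +
    conj (e t) • ContinuousLinearMap.adjoint (Res A (sig s s1 t)))

section Coercive

/-- A coercive operator is invertible, with the expected bound on its inverse. -/
theorem isUnit_of_coercive {B : H →L[ℂ] H} {c : ℂ} (hc : ‖c‖ = 1) {δ : ℝ} (hδ : 0 < δ)
    (h : ∀ x, δ * ‖x‖ ^ 2 ≤ (c * inner ℂ x (B x)).re) : IsUnit B := by
  apply ContinuousLinearMap.isUnit_of_forall_le_norm_inner_map _ (c := ⟨δ, hδ.le⟩)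
    (by exact_mod_cast hδ)
  intro x
  have e1 : ‖inner ℂ (B x) x‖ = ‖inner ℂ x (B x)‖ := by
    rw [← inner_conj_symm, Complex.norm_conj]
  rw [e1]
  calc ‖x‖ ^ 2 * (δ : ℝ) = δ * ‖x‖ ^ 2 := by ring
    _ ≤ (c * inner ℂ x (B x)).re := h x
    _ ≤ ‖c * inner ℂ x (B x)‖ := Complex.re_le_norm _
    _ = ‖inner ℂ x (B x)‖ := by rw [norm_mul, hc, one_mul]

theorem norm_inverse_le_of_coercive {B : H →L[ℂ] H} {c : ℂ} (hc : ‖c‖ = 1) {δ : ℝ} (hδ : 0 < δ)
    (h : ∀ x, δ * ‖x‖ ^ 2 ≤ (c * inner ℂ x (B x)).re) : ‖Ring.inverse B‖ ≤ 1 / δ := by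
  have hu := isUnit_of_coercive hc hδ h
  apply ContinuousLinearMap.opNorm_le_bound _ (by positivity)
  intro x
  set y := Ring.inverse B x with hy
  have hxy : B y = x := by
    have := congrArg (fun T : H →L[ℂ] H => T x) (Ring.mul_inverse_cancel _ hu)
    simpa using this
  have h1 := h y
  rw [hxy] at h1
  have h2 : (c * inner ℂ y x).re ≤ ‖y‖ * ‖x‖ := by
    calc (c * inner ℂ y x).re ≤ ‖c * inner ℂ y x‖ := Complex.re_le_norm _
      _ = ‖inner ℂ y x‖ := by rw [norm_mul, hc, one_mul]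
      _ ≤ ‖y‖ * ‖x‖ := norm_inner_le_norm y x
  have h3 : δ * ‖y‖ ≤ ‖x‖ := by
    by_cases hy0 : ‖y‖ = 0
    · rw [hy0]; simp
    · have hy1 : 0 < ‖y‖ := lt_of_le_of_ne (norm_nonneg _) (Ne.symm hy0)
      have : ‖y‖ * (δ * ‖y‖) ≤ ‖y‖ * ‖x‖ := by nlinarith
      exact le_of_mul_le_mul_left this hy1
  rw [one_div, inv_mul_eq_div, le_div_iff₀ hδ]
  linarith

end Coercive

section ResBasic

variable {A : H →L[ℂ] H}

omit [CompleteSpace H] in
theorem inner_sub_res (x : H) (u : ℂ) :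
    inner ℂ x ((u • (1 : H →L[ℂ] H) - A) x) = u * ((‖x‖ ^ 2 : ℝ) : ℂ) - inner ℂ x (A x) := by
  have : ((u • (1 : H →L[ℂ] H) - A) x) = u • x - A x := rfl
  rw [this, inner_sub_right, inner_smul_right, inner_self_eq_norm_sq_to_K]
  simp

end ResBasic

end

end Vale.Agent.Lib.P123C.Oper
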